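import Mathlib

/-! A form of the Balog–Szemerédi–Gowers theorem. -/

open Finset
open scoped Pointwise

namespace Crest.Agent.R34

lemma exists_ge_avg {ι : Type*} (s : Finset ι) (f : ι → ℝ) (c N : ℝ) (hc : 0 < c)
    (hs : (#s : ℝ) ≤ N) (h : c * N ≤ ∑ i ∈ s, f i) (hN : 0 < N) : ∃ i ∈ s, c ≤ f i := by
  by_contra hne
  push Not at hne
  rcases s.eq_empty_or_nonempty with rfl | hs'
  · simp at h; nlinarith
  · have : ∑ i ∈ s, f i < ∑ _i ∈ s, c := Finset.sum_lt_sum_of_nonempty hs' hne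
    rw [sum_const, nsmul_eq_mul] at this
    nlinarith

lemma card_filter_real {ι : Type*} (s : Finset ι) (p : ι → Prop) [DecidablePred p] :
    (#(s.filter p) : ℝ) = ∑ i ∈ s, if p i then (1 : ℝ) else 0 := by
  rw [Finset.card_filter]; push_cast; rfl

/-- If `f ≤ M` on `s`, `#s ≤ N` and `∑ f ≥ T`, then many `i` have `f i ≥ T / (2 N)`. -/
lemma card_popular {ι : Type*} (s : Finset ι) (f : ι → ℝ) (M N T : ℝ) (hN : 0 < N) (hT : 0 ≤ T)
    (hs : (#s : ℝ) ≤ N) (hM : ∀ i ∈ s, f i ≤ M) (h : T ≤ ∑ i ∈ s, f i) :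
    T / 2 ≤ M * #(s.filter fun i => T / (2 * N) ≤ f i) := by
  classical
  rw [← Finset.sum_filter_add_sum_filter_not s (fun i => T / (2 * N) ≤ f i)] at h
  have h1 : ∑ i ∈ s.filter (fun i => T / (2 * N) ≤ f i), f i
      ≤ M * #(s.filter fun i => T / (2 * N) ≤ f i) := by
    rw [mul_comm M, ← nsmul_eq_mul]
    exact Finset.sum_le_card_nsmul _ _ _ fun i hi => hM i (mem_filter.1 hi).1
  have h2 : ∑ i ∈ s.filter (fun i => ¬ T / (2 * N) ≤ f i), f i ≤ T / 2 := by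
    calc _ ≤ #(s.filter fun i => ¬ T / (2 * N) ≤ f i) • (T / (2 * N)) :=
          Finset.sum_le_card_nsmul _ _ _ fun i hi => (not_le.1 (mem_filter.1 hi).2).le
      _ ≤ N * (T / (2 * N)) := by
          rw [nsmul_eq_mul]
          gcongr
          exact le_trans (by exact_mod_cast card_filter_le _ _) hs
      _ = T / 2 := by field_simp
  linarith

variable {G : Type*} [AddCommGroup G] [DecidableEq G]

lemma bsg1 (A B : Finset G) (Γ : Finset (G × G)) (K N : ℝ) (hK : 2 ^ 17 ≤ K) (hN : 0 < N)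
    (hA : (#A : ℝ) ≤ N) (hB : (#B : ℝ) ≤ N) (hΓ : Γ ⊆ A ×ˢ B) (hc : N ^ 2 / K ≤ #Γ)
    (hs : (#(Γ.image fun p => p.1 + p.2) : ℝ) ≤ N) :
    ∃ A' ⊆ A, N / K ^ 2 ≤ #A' ∧ (#(A' - A') : ℝ) ≤ K ^ 6 * N ∧
      N ^ 2 / K ^ 3 ≤ #(Γ.filter fun p => p.1 ∈ A') := by
  have hK0 : 0 < K := by linarith [show (0 : ℝ) < 2 ^ 17 by positivity]
  set deg : G → ℝ := fun a => #(B.filter fun b => (a, b) ∈ Γ) with hdeg
  have hsum : ∀ A' ⊆ A, (#(Γ.filter fun p => p.1 ∈ A') : ℝ) = ∑ a ∈ A', deg a := by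
    intro A' hA'
    have : Γ.filter (fun p => p.1 ∈ A') = (A' ×ˢ B).filter (fun p => p ∈ Γ) := by
      ext ⟨a, b⟩
      simp only [mem_filter, mem_product]
      constructor
      · rintro ⟨h1, h2⟩
        exact ⟨⟨h2, (mem_product.1 (hΓ h1)).2⟩, h1⟩
      · rintro ⟨⟨h1, _⟩, h2⟩
        exact ⟨h2, h1⟩
    rw [this, card_filter_real, Finset.sum_product]
    simp only [hdeg, card_filter_real]
  have hΓsum : (#Γ : ℝ) = ∑ a ∈ A, deg a := by
    rw [← hsum A le_rfl, Finset.filter_true_of_mem]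
    exact fun p hp => (mem_product.1 (hΓ hp)).1
  set A1 := A.filter fun a => N / (2 * K) ≤ deg a with hA1
  have hA1sub : A1 ⊆ A := filter_subset _ _
  have hA1c : (#A1 : ℝ) ≤ N := le_trans (by exact_mod_cast card_le_card hA1sub) hA
  have hA1sum : N ^ 2 / (2 * K) ≤ ∑ a ∈ A1, deg a := by
    have h1 := Finset.sum_filter_add_sum_filter_not A (fun a => N / (2 * K) ≤ deg a) deg
    have h2 : ∑ a ∈ A.filter (fun a => ¬ N / (2 * K) ≤ deg a), deg a ≤ N ^ 2 / (2 * K) := by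
      calc _ ≤ #(A.filter fun a => ¬ N / (2 * K) ≤ deg a) • (N / (2 * K)) :=
            Finset.sum_le_card_nsmul _ _ _ fun i hi => (not_le.1 (mem_filter.1 hi).2).le
        _ ≤ N * (N / (2 * K)) := by
            rw [nsmul_eq_mul]
            gcongr
            exact le_trans (by exact_mod_cast card_filter_le _ _) hA
        _ = N ^ 2 / (2 * K) := by ring
    have h3 : N ^ 2 / K = N ^ 2 / (2 * K) + N ^ 2 / (2 * K) := by field_simp; ring
    linarith
  set Nb : G → Finset G := fun b => A1.filter fun a => (a, b) ∈ Γ with hNb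
  have hNbsum : ∑ b ∈ B, (#(Nb b) : ℝ) = ∑ a ∈ A1, deg a := by
    simp only [hNb, hdeg, card_filter_real]
    exact Finset.sum_comm
  set γ : ℝ := N / (128 * K ^ 2) with hγ
  have hγ0 : 0 < γ := by positivity
  set cod : G → G → Finset G := fun a a' => B.filter fun b => (a, b) ∈ Γ ∧ (a', b) ∈ Γ with hcod
  set badc : G → ℝ := fun b =>
    #((Nb b ×ˢ Nb b).filter fun p => (#(cod p.1 p.2) : ℝ) < γ) with hbadc
  have hbadsum : ∑ b ∈ B, badc b ≤ N ^ 2 * γ := by
    have h1 : ∀ b, badc b = ∑ p ∈ A1 ×ˢ A1,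
        if ((p.1, b) ∈ Γ ∧ (p.2, b) ∈ Γ) ∧ (#(cod p.1 p.2) : ℝ) < γ then (1 : ℝ) else 0 := by
      intro b
      rw [← card_filter_real]
      simp only [hbadc]
      congr 2
      ext p
      simp only [hNb, mem_filter, mem_product]
      tauto
    simp only [h1]
    rw [Finset.sum_comm]
    calc _ ≤ ∑ _p ∈ A1 ×ˢ A1, γ := by
          refine Finset.sum_le_sum fun p _ => ?_
          by_cases hp : (#(cod p.1 p.2) : ℝ) < γ
          · rw [← card_filter_real]
            refine le_trans ?_ hp.le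
            exact Nat.cast_le.2 (card_le_card fun b hb =>
              mem_filter.2 ⟨(mem_filter.1 hb).1, (mem_filter.1 hb).2.1⟩)
          · rw [Finset.sum_eq_zero fun b _ => if_neg fun h => hp h.2]
            exact hγ0.le
      _ = #A1 * #A1 * γ := by rw [sum_const, card_product, nsmul_eq_mul]; push_cast; ring
      _ ≤ N * N * γ := by gcongr
      _ = N ^ 2 * γ := by ring
  have hsq : N ^ 3 / (4 * K ^ 2) ≤ ∑ b ∈ B, (#(Nb b) : ℝ) ^ 2 := by
    have h1 := sq_sum_le_card_mul_sum_sq (s := B) (f := fun b => (#(Nb b) : ℝ))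
    have h2 : (N ^ 2 / (2 * K)) ^ 2 ≤ (∑ b ∈ B, (#(Nb b) : ℝ)) ^ 2 := by
      rw [hNbsum]; gcongr
    have h3 : (#B : ℝ) * ∑ b ∈ B, (#(Nb b) : ℝ) ^ 2 ≤ N * ∑ b ∈ B, (#(Nb b) : ℝ) ^ 2 :=
      mul_le_mul_of_nonneg_right hB (Finset.sum_nonneg fun _ _ => sq_nonneg _)
    have h4 : (N ^ 2 / (2 * K)) ^ 2 = N * (N ^ 3 / (4 * K ^ 2)) := by field_simp; ring
    exact le_of_mul_le_mul_left (by linarith) hN
  obtain ⟨b0, -, hb0⟩ := exists_ge_avg B (fun b => (#(Nb b) : ℝ) ^ 2 - 16 * badc b)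
    (N ^ 2 / (8 * K ^ 2)) N (by positivity) hB (by
      rw [Finset.sum_sub_distrib, ← Finset.mul_sum]
      have h1 : N ^ 2 / (8 * K ^ 2) * N = N ^ 3 / (4 * K ^ 2) - 16 * (N ^ 2 * γ) := by
        rw [hγ]; field_simp; ring
      linarith) hN
  set X := Nb b0 with hX
  have hbad0 : 0 ≤ badc b0 := by simp only [hbadc]; positivity
  have hXc : N / (3 * K) ≤ #X := by
    have h1 : (N / (3 * K)) ^ 2 ≤ (#X : ℝ) ^ 2 := by
      have : (N / (3 * K)) ^ 2 ≤ N ^ 2 / (8 * K ^ 2) := by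
        rw [div_pow, mul_pow]
        gcongr
        norm_num
      linarith
    exact (pow_le_pow_iff_left₀ (by positivity) (by positivity) two_ne_zero).1 h1
  have hX0 : (0 : ℝ) < #X := lt_of_lt_of_le (by positivity) hXc
  have hbadX : badc b0 ≤ (#X : ℝ) ^ 2 / 16 := by
    have : 0 ≤ N ^ 2 / (8 * K ^ 2) := by positivity
    linarith
  set bp : G → Finset G := fun a => X.filter fun a' => (#(cod a a') : ℝ) < γ with hbp
  have hbpsum : badc b0 = ∑ a ∈ X, (#(bp a) : ℝ) := by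
    simp only [hbadc, hbp, card_filter_real]
    rw [Finset.sum_product]
  set A' := X.filter fun a => (#(bp a) : ℝ) ≤ #X / 4 with hA'
  have hA'c : 3 * (#X : ℝ) / 4 ≤ #A' := by
    have h1 : (#(X.filter fun a => ¬ (#(bp a) : ℝ) ≤ #X / 4) : ℝ) * (#X / 4) ≤ badc b0 := by
      rw [hbpsum, ← nsmul_eq_mul]
      calc _ ≤ ∑ a ∈ X.filter (fun a => ¬ (#(bp a) : ℝ) ≤ #X / 4), (#(bp a) : ℝ) :=
            Finset.card_nsmul_le_sum _ _ _ fun a ha => (not_le.1 (mem_filter.1 ha).2).le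
        _ ≤ _ := Finset.sum_le_sum_of_subset_of_nonneg (filter_subset _ _)
            fun _ _ _ => by positivity
    have h2 : (#A' : ℝ) + #(X.filter fun a => ¬ (#(bp a) : ℝ) ≤ #X / 4) = #X := by
      exact_mod_cast Finset.card_filter_add_card_filter_not _
    have h3 : (#(X.filter fun a => ¬ (#(bp a) : ℝ) ≤ #X / 4) : ℝ) ≤ #X / 4 := by
      refine le_of_mul_le_mul_right ?_ (show (0 : ℝ) < #X / 4 by positivity)
      nlinarith
    linarith
  have hA'X : A' ⊆ X := filter_subset _ _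
  have hXA1 : X ⊆ A1 := filter_subset _ _
  have hA'c' : N / (4 * K) ≤ #A' := by
    have : N / (4 * K) = 3 * (N / (3 * K)) / 4 := by field_simp
    linarith
  refine ⟨A', hA'X.trans (hXA1.trans hA1sub), ?_, ?_, ?_⟩
  · refine le_trans ?_ hA'c'
    gcongr
    nlinarith
  · set Sm := Γ.image fun p => p.1 + p.2 with hSm
    set Q := (Sm ×ˢ Sm) ×ˢ (Sm ×ˢ Sm) with hQ
    set φ : (G × G) × (G × G) → G := fun s => s.1.1 - s.1.2 + s.2.1 - s.2.2 with hφ
    have hfib : ∀ d ∈ A' - A', (#X : ℝ) / 2 * γ ^ 2 ≤ #(Q.filter fun s => φ s = d) := by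
      intro d hd
      obtain ⟨a, ha, a', ha', rfl⟩ := mem_sub.1 hd
      set Y := X.filter fun c => γ ≤ (#(cod a c) : ℝ) ∧ γ ≤ (#(cod a' c) : ℝ) with hY
      have hYc : (#X : ℝ) / 2 ≤ #Y := by
        have h1 : X ⊆ Y ∪ (bp a ∪ bp a') := by
          intro c hc
          simp only [hY, hbp, mem_union, mem_filter]
          by_cases h1 : γ ≤ (#(cod a c) : ℝ)
          · by_cases h2 : γ ≤ (#(cod a' c) : ℝ)
            · exact Or.inl ⟨hc, h1, h2⟩
            · exact Or.inr (Or.inr ⟨hc, not_le.1 h2⟩)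
          · exact Or.inr (Or.inl ⟨hc, not_le.1 h1⟩)
        have h2 : #X ≤ #Y + (#(bp a) + #(bp a')) :=
          (card_le_card h1).trans ((card_union_le _ _).trans (by gcongr; exact card_union_le _ _))
        have h3 : (#X : ℝ) ≤ #Y + (#(bp a) + #(bp a')) := by exact_mod_cast h2
        have h4 := (mem_filter.1 ha).2
        have h5 := (mem_filter.1 ha').2
        linarith
      set T := Y.sigma fun c => cod a c ×ˢ cod a' c with hT
      have hTc : (#X : ℝ) / 2 * γ ^ 2 ≤ #T := by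
        rw [hT, card_sigma]
        push_cast
        calc (#X : ℝ) / 2 * γ ^ 2 ≤ #Y * γ ^ 2 := by gcongr
          _ = ∑ _c ∈ Y, γ ^ 2 := by rw [sum_const, nsmul_eq_mul]
          _ ≤ _ := by
            refine Finset.sum_le_sum fun c hc => ?_
            rw [card_product, sq]
            push_cast
            have := (mem_filter.1 hc).2
            exact mul_le_mul this.1 this.2 hγ0.le (by positivity)
      refine hTc.trans ?_
      norm_cast
      refine card_le_card_of_injOn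
        (fun t => ((a + t.2.1, t.1 + t.2.1), (t.1 + t.2.2, a' + t.2.2))) ?_ ?_
      · rintro ⟨c, b1, b2⟩ ht
        simp only [hT, coe_sigma, Set.mem_sigma_iff, mem_coe, mem_product, hcod,
          mem_filter] at ht
        obtain ⟨-, ⟨-, h1, h2⟩, ⟨-, h3, h4⟩⟩ := ht
        simp only [hQ, hSm, hφ, coe_filter, mem_product, mem_image, Set.mem_ofPred_eq]
        refine ⟨⟨⟨⟨_, h1, rfl⟩, ⟨_, h2, rfl⟩⟩, ⟨⟨_, h4, rfl⟩, ⟨_, h3, rfl⟩⟩⟩, by abel⟩
      · rintro ⟨c, b1, b2⟩ _ ⟨c', b1', b2'⟩ _ h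
        simp only [Prod.mk.injEq, add_right_inj] at h
        obtain ⟨⟨rfl, h2⟩, -, rfl⟩ := h
        obtain rfl := add_right_cancel h2
        rfl
    have hQc : (#Q : ℝ) ≤ N ^ 4 := by
      simp only [hQ, card_product]
      push_cast
      calc _ ≤ (N * N) * (N * N) := by gcongr
        _ = N ^ 4 := by ring
    have htot : (#(A' - A') : ℝ) * ((#X : ℝ) / 2 * γ ^ 2) ≤ N ^ 4 := by
      refine le_trans ?_ hQc
      rw [← nsmul_eq_mul]
      refine (Finset.card_nsmul_le_sum _ _ _ hfib).trans ?_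
      norm_cast
      rw [← Finset.card_biUnion]
      · exact card_le_card (biUnion_subset.2 fun _ _ => filter_subset _ _)
      · intro d _ d' _ hdd
        refine Finset.disjoint_left.2 fun s h1 h2 => hdd ?_
        rw [← (mem_filter.1 h1).2, ← (mem_filter.1 h2).2]
    have h1 : N ^ 3 / (K ^ 6) ≤ (#X : ℝ) / 2 * γ ^ 2 := by
      calc N ^ 3 / K ^ 6 ≤ N ^ 3 / (2 ^ 17 * K ^ 5) := by
            gcongr
            rw [pow_succ' K 5]
            gcongr
        _ ≤ N ^ 3 / (6 * 128 ^ 2 * K ^ 5) := by gcongr; norm_num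
        _ = N / (3 * K) / 2 * γ ^ 2 := by rw [hγ]; field_simp; ring
        _ ≤ _ := by gcongr
    have h2 : (#(A' - A') : ℝ) * (N ^ 3 / K ^ 6) ≤ N ^ 4 := le_trans (by gcongr) htot
    have h3 : N ^ 4 = K ^ 6 * N * (N ^ 3 / K ^ 6) := by field_simp
    rw [h3] at h2
    exact le_of_mul_le_mul_right h2 (by positivity)
  · rw [hsum A' (hA'X.trans (hXA1.trans hA1sub))]
    calc N ^ 2 / K ^ 3 ≤ N ^ 2 / (8 * K ^ 2) := by
          gcongr
          rw [pow_succ' K 2]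
          gcongr
          linarith [show (8 : ℝ) ≤ 2 ^ 17 by norm_num]
      _ = N / (4 * K) * (N / (2 * K)) := by field_simp; ring
      _ ≤ #A' * (N / (2 * K)) := by gcongr
      _ ≤ _ := by
          rw [← nsmul_eq_mul]
          exact Finset.card_nsmul_le_sum _ _ _ fun a ha => (mem_filter.1 (hXA1 (hA'X ha))).2

/-- Two-sided form. -/
lemma bsg2 (A B : Finset G) (Γ : Finset (G × G)) (K N : ℝ) (hK : 2 ^ 17 ≤ K) (hN : 0 < N)
    (hA : (#A : ℝ) ≤ N) (hB : (#B : ℝ) ≤ N) (hΓ : Γ ⊆ A ×ˢ B) (hc : N ^ 2 / K ≤ #Γ)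
    (hs : (#(Γ.image fun p => p.1 + p.2) : ℝ) ≤ N) :
    ∃ A' ⊆ A, ∃ B' ⊆ B, N / K ^ 33 ≤ #A' ∧ N / K ^ 33 ≤ #B' ∧ (#(A' - A') : ℝ) ≤ K ^ 33 * N ∧
      (#(B' - B') : ℝ) ≤ K ^ 33 * N ∧ (#(A' + B') : ℝ) ≤ K ^ 33 * N := by
  have hK1 : 1 ≤ K := by linarith [show (1 : ℝ) ≤ 2 ^ 17 by norm_num]
  have hK0 : 0 < K := by linarith
  obtain ⟨A', hA'A, h1, h2, h3⟩ := bsg1 A B Γ K N hK hN hA hB hΓ hc hs
  set Γ' := (Γ.filter fun p => p.1 ∈ A').map (Equiv.prodComm G G).toEmbedding with hΓ'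
  have hmem : ∀ p, p ∈ Γ' ↔ (p.2, p.1) ∈ Γ ∧ p.2 ∈ A' := by
    rintro ⟨b, a⟩
    simp [hΓ']
  have hsub : Γ'.image (fun p => p.1 + p.2) ⊆ Γ.image fun p => p.1 + p.2 := by
    intro z hz
    obtain ⟨p, hp, rfl⟩ := mem_image.1 hz
    exact mem_image.2 ⟨(p.2, p.1), ((hmem p).1 hp).1, add_comm _ _⟩
  have hs' : (#(Γ'.image fun p => p.1 + p.2) : ℝ) ≤ N :=
    le_trans (by exact_mod_cast card_le_card hsub) hs
  obtain ⟨B', hB'B, h4, h5, h6⟩ := bsg1 B A' Γ' (K ^ 3) N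
    (hK.trans (le_self_pow₀ hK1 (by norm_num))) hN hB
    (le_trans (by exact_mod_cast card_le_card hA'A) hA)
    (fun p hp => mem_product.2 ⟨(mem_product.1 (hΓ ((hmem p).1 hp).1)).2, ((hmem p).1 hp).2⟩)
    (by rw [hΓ', card_map]; exact h3) hs'
  set Γ'' := Γ'.filter fun p => p.1 ∈ B' with hΓ''
  obtain ⟨z, -, hz⟩ := exists_ge_avg (Γ'.image fun p => p.1 + p.2)
    (fun z => (#(Γ''.filter fun p => p.1 + p.2 = z) : ℝ)) (N / K ^ 9) N (by positivity) hs' (by
      rw [← Nat.cast_sum, ← Finset.card_eq_sum_card_fiberwise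
        (fun p hp => mem_image_of_mem _ (mem_filter.1 hp).1)]
      refine le_trans (le_of_eq ?_) h6
      field_simp) hN
  set C := (Γ''.filter fun p => p.1 + p.2 = z).image Prod.snd with hC
  have hCc : N / K ^ 9 ≤ #C := by
    rw [hC, card_image_of_injOn]
    · exact hz
    · intro p hp p' hp' h
      have e1 := (mem_filter.1 hp).2
      have e2 := (mem_filter.1 hp').2
      refine Prod.ext ?_ h
      have : p.1 + p.2 = p'.1 + p'.2 := by rw [e1, e2]
      rw [h] at this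
      exact add_right_cancel this
  have hCA : C ⊆ A' := by
    intro a ha
    obtain ⟨p, hp, rfl⟩ := mem_image.1 ha
    exact ((hmem p).1 (mem_filter.1 (mem_filter.1 hp).1).1).2
  have hCB : B' + C ⊆ {z} + (B' - B') := by
    intro x hx
    obtain ⟨b, hb, a, ha, rfl⟩ := mem_add.1 hx
    obtain ⟨p, hp, rfl⟩ := mem_image.1 ha
    refine mem_add.2 ⟨z, mem_singleton_self _, b - p.1,
      sub_mem_sub hb (mem_filter.1 (mem_filter.1 hp).1).2, ?_⟩
    rw [← (mem_filter.1 hp).2]; abel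
  have hR := Finset.ruzsa_triangle_inequality_add_sub_add A' C B'
  have hR' : (#(A' + B') : ℝ) * #C ≤ #(A' - A') * #(B' - B') := by
    have e1 : #(C - A') ≤ #(A' - A') := card_le_card (sub_subset_sub_right hCA)
    have e2 : #(C + B') ≤ #(B' - B') := by
      rw [add_comm]
      refine (card_le_card hCB).trans ?_
      rw [card_singleton_add]
    rw [mul_comm]
    exact_mod_cast hR.trans (Nat.mul_le_mul e1 e2)
  refine ⟨A', hA'A, B', hB'B, le_trans (by gcongr; norm_num) h1,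
    le_trans (by rw [← pow_mul]; gcongr; norm_num) h4,
    h2.trans (by gcongr; norm_num),
    h5.trans (by rw [← pow_mul]; gcongr; norm_num), ?_⟩
  have h7 : (#(A' + B') : ℝ) * (N / K ^ 9) ≤ K ^ 6 * N * ((K ^ 3) ^ 6 * N) :=
    le_trans (by gcongr) (hR'.trans (by gcongr))
  have h8 : K ^ 6 * N * ((K ^ 3) ^ 6 * N) = K ^ 33 * N * (N / K ^ 9) := by field_simp
  rw [h8] at h7
  exact le_of_mul_le_mul_right h7 (by positivity)

end Crest.Agent.R34
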