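import Crest.Agent.R34.Step2

/-! The state of the process, and extraction of generic grids. -/

set_option linter.unusedSectionVars false

open Finset
open scoped BigOperators Classical

namespace Crest.Agent.R34

variable {F : Type*} [Field F] [Fintype F]

structure St (κ : Type*) (a : ℕ) (R₀ R : Finset (Pt F)) (wt : Ln F → ℝ) (W lam σ γ : ℝ)
    (t : ℕ) : Prop where
  hwt : ∀ l, kept R₀ l → 1 ≤ wt l ∧ wt l ≤ W
  hD : ∀ x, x ∉ R₀ → |Dg R wt x - Fintype.card F| ≤ lam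
  hS : ∀ (z₀ : Pt F) (z : κ → Pt F) (p : κ → Option F),
      (∀ i, p i ≠ (z i).1 ∧ p i ≠ z₀.1) → σ ≤ #(good R z₀ z p)
  hG : ∀ X Y : Finset (Pt F), Generic a X Y → (∀ x ∈ X, x ∉ R) → (∀ y ∈ Y, y ∉ R) →
      γ ≤ #((grid X Y).filter (kept R))
  hcol : ∀ L : Gl F, #(R.filter fun x => inc x L) ≤ t

lemma St.self {κ : Type*} {a : ℕ} {R₀ R : Finset (Pt F)} {wt : Ln F → ℝ} {W lam σ γ : ℝ} {t : ℕ}
    (h : St κ a R₀ R wt W lam σ γ t) (hR : R₀ ⊆ R) : St κ a R R wt W lam σ γ t :=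
  ⟨fun l hl => h.hwt l fun x hx => hl x (hR hx), fun x hx => h.hD x fun h' => hx (hR h'),
    h.hS, h.hG, h.hcol⟩

lemma St.init (κ : Type*) (a : ℕ) :
    St (F := F) κ a ∅ ∅ (fun _ => 1) 1 0 (Fintype.card F) (a ^ 2) 0 := by
  refine ⟨fun _ _ => ⟨le_rfl, le_rfl⟩, fun x _ => ?_, fun z₀ z p _ => ?_, fun X Y h _ _ => ?_,
    fun L => by simp⟩
  · have := card_pencil x
    simp [Dg, miss, this]
  · have := card_pencil z₀
    simp [good, miss, this]
  · rw [Finset.filter_true_of_mem fun l _ => by simp [kept], h.2.2.1]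
    push_cast; rfl

lemma step {κ J α : Type*} [Fintype κ] [Fintype J] [Fintype α] [Nonempty α] {a : ℕ}
    {R : Finset (Pt F)} {wt : Ln F → ℝ} {W lam σ γ : ℝ} {t : ℕ}
    (h : St κ a R R wt W lam σ γ t) {π : J → α → Pt F} {τ r C : ℝ}
    (hN : Num F τ r) (hπ : Proc R π) (hn : 2 ≤ (Fintype.card α : ℝ))
    (hn' : 2 * (Fintype.card κ : ℝ) ≤ Fintype.card α) (hκ : (Fintype.card κ : ℝ) ≤ τ)
    (hJ : (Fintype.card J : ℝ) ≤ C * Fintype.card α) (hJq : (Fintype.card J : ℝ) ≤ τ * r ^ 2)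
    (hqn : (Fintype.card F : ℝ) ≤ τ * Fintype.card α) (hW : W * Real.exp (2 * C) ≤ τ)
    (hlam : lam ≤ Fintype.card F) (ha : 1 ≤ a) (han : a ^ 4 ≤ Fintype.card α)
    (hγ : 40 * a * τ ≤ Real.exp (-(2 * C)) * γ) (hC : C ≤ τ) {b : ℕ} (hb : τ ^ 2 ≤ b)
    (hL : ∀ L : Gl F, (∀ j, #(univ.filter fun a => inc (π j a) L) ≤ 1) ∨
      #(univ.filter fun j => ∃ a, inc (π j a) L) ≤ b) :
    ∃ ω, St κ a R (nxt R π ω) (nwt wt π) (W * Real.exp (2 * C)) (lam + 2 * r * τ ^ 3)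
      ((σ - 2 * Fintype.card κ) * Real.exp (-(2 * C * Fintype.card κ)) - r * τ ^ 3)
      (Real.exp (-(2 * C)) * γ / 4) (t + b) := by
  have h1 := deg_step hN hπ hn hJ hJq hqn h.hwt hW hlam h.hD
  have h2 := sh_step hN hπ hn' hκ hJ hJq h.hS
  have h3 := grid_step hN hπ hn hJ ha han hγ h.hG
  have h4 := col_step hN hJ hC hb h.hcol hL
  obtain ⟨ω, hω⟩ := exists_not_of_Pr _ (lt_of_le_of_lt ((Pr_or _ _).trans (add_le_add h1
    ((Pr_or _ _).trans (add_le_add h2 ((Pr_or _ _).trans (add_le_add h3 h4)))))) (by norm_num))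
  simp only [not_or] at hω
  obtain ⟨e1, e2, e3, e4⟩ := hω
  refine ⟨ω, nwt_bounds hπ hn hJ h.hwt, fun x hx => ?_, fun z₀ z p hv => ?_,
    fun X Y hg hX hY => ?_, fun L => ?_⟩
  · exact not_lt.1 fun h => e1 ⟨x, hx, h⟩
  · exact not_lt.1 fun h => e2 ⟨(z₀, z, p), hv, h⟩
  · refine not_lt.1 fun h => e3 ⟨(X, Y), ?_, hg, hX, hY, h⟩
    simp [mem_powersetCard, hg.1, hg.2.1]
  · exact not_lt.1 fun h => e4 ⟨L, h⟩

/-- The generalized line through two points. -/
noncomputable def gj (x z : Pt F) : Gl F := if x.1 = z.1 then .inr x.1 else .inl (join x z)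

lemma inc_gj_left (x z : Pt F) : inc x (gj x z) := by
  unfold gj; split_ifs with h
  exacts [rfl, on_join_left h]

lemma inc_gj_right (x z : Pt F) : inc z (gj x z) := by
  unfold gj; split_ifs with h
  exacts [h.symm, on_join_right h]

lemma grid_extract (X Y Bad : Finset (Pt F)) (a : ℕ) (ha : 1 ≤ a) (hX : #X = a) (m : ℝ)
    (hl : ∀ x ∈ X, ∀ L : Gl F, inc x L → (#(Y.filter fun y => inc y L) : ℝ) ≤ m)
    (h : #Bad + 3 * a ^ 5 * m < #Y) :
    ∃ Y₀ ⊆ Y \ Bad, Disjoint X Y₀ ∧ Generic a X Y₀ := by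
  obtain ⟨x₀, hx₀⟩ : X.Nonempty := card_pos.1 (by omega)
  have hm : 0 ≤ m := le_trans (by positivity) (hl x₀ hx₀ _ (inc_gj_left x₀ x₀))
  have key : ∀ k ≤ a, ∃ Y₀ ⊆ Y \ Bad, Disjoint X Y₀ ∧ #Y₀ = k ∧ #(grid X Y₀) = a * k ∧
      ∀ z, z ∉ X → z ∉ Y₀ → #((grid X Y₀).filter fun l => on z l) ≤ 2 := by
    intro k
    induction k with
    | zero => intro _; exact ⟨∅, by simp, by simp, rfl, by simp [grid], by simp [grid]⟩
    | succ k ih =>
      intro hk
      obtain ⟨Y₀, h1, h2, h3, h4, h5⟩ := ih (by omega)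
      obtain ⟨Z, hZ⟩ : ∃ Z : Finset (Pt F), Z = X ∪ Y₀ ∪
        univ.filter fun z : Pt F => 2 ≤ #((grid X Y₀).filter fun l => on z l) := ⟨_, rfl⟩
      have hZc : #Z ≤ 3 * a ^ 4 := by
        have e1 := card_multi (grid X Y₀)
        have e2 : #Z ≤ a + k + (a * k) ^ 2 := by
          rw [hZ]
          refine (card_union_le _ _).trans (add_le_add ((card_union_le _ _).trans ?_) ?_)
          · omega
          · rwa [h4] at e1
        have e3 : (a * k) ^ 2 ≤ a ^ 4 := by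
          calc _ ≤ (a * a) ^ 2 := by gcongr; omega
            _ = _ := by ring
        have e4 : a ≤ a ^ 4 := Nat.le_self_pow (by norm_num) a
        omega
      have hFb : (#((X ×ˢ Z).biUnion fun p => Y.filter fun y => inc y (gj p.1 p.2)) : ℝ)
          ≤ 3 * a ^ 5 * m := by
        calc _ ≤ ((∑ p ∈ X ×ˢ Z, #(Y.filter fun y => inc y (gj p.1 p.2)) : ℕ) : ℝ) := by
              exact_mod_cast card_biUnion_le
          _ ≤ #(X ×ˢ Z) • m := by
              push_cast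
              exact Finset.sum_le_card_nsmul _ _ _ fun p hp =>
                hl _ (mem_product.1 hp).1 _ (inc_gj_left _ _)
          _ ≤ _ := by
              rw [nsmul_eq_mul, card_product, hX]
              gcongr
              norm_cast
              calc a * #Z ≤ a * (3 * a ^ 4) := by gcongr
                _ = _ := by ring
      obtain ⟨y, hyY, hy⟩ : ∃ y ∈ Y, y ∉ Bad ∪
          (X ×ˢ Z).biUnion fun p => Y.filter fun y => inc y (gj p.1 p.2) := by
        refine exists_mem_notMem_of_card_lt_card ?_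
        have e := (Nat.cast_le (α := ℝ)).2 (card_union_le Bad
          ((X ×ˢ Z).biUnion fun p => Y.filter fun y => inc y (gj p.1 p.2)))
        push_cast at e
        exact_mod_cast (show (#(Bad ∪ (X ×ˢ Z).biUnion fun p =>
          Y.filter fun y => inc y (gj p.1 p.2)) : ℝ) < #Y by linarith)
      rw [notMem_union] at hy
      have hy2 : ∀ x ∈ X, ∀ z ∈ Z, ¬ inc y (gj x z) := fun x hx z hz hi =>
        hy.2 (mem_biUnion.2 ⟨(x, z), mem_product.2 ⟨hx, hz⟩, mf.2 ⟨hyY, hi⟩⟩)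
      have hK : ∀ x ∈ X, ∀ z ∈ Z, x ≠ z → ∀ l, on x l → on z l → ¬ on y l := by
        intro x hx z hz hne l e1 e2 e3
        refine hy2 x hx z hz ?_
        rw [gl_unique hne (inc_gj_left x z) (inc_gj_right x z) (L' := .inl l) e1 e2]
        exact e3
      have hXZ : ∀ x ∈ X, x ∈ Z := fun x hx => by simp [hZ, hx]
      have hYZ : ∀ x ∈ Y₀, x ∈ Z := fun x hx => by simp [hZ, hx]
      have hpart : ∀ x ∈ X, x.1 ≠ y.1 := fun x hx e => hy2 x hx x (hXZ x hx) (by
        simp [gj, e])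
      have hyZ : y ∉ Z := fun e => hy2 x₀ hx₀ y e (inc_gj_right _ _)
      have hyY₀ : y ∉ Y₀ := fun e => hyZ (hYZ y e)
      have hgrid : grid X (insert y Y₀) = grid X Y₀ ∪ X.image fun x => join x y := by
        ext l
        simp only [grid, mem_union, mf, mem_univ, true_and, mem_image, mem_insert]
        constructor
        · rintro ⟨⟨x, hx, e1⟩, y', rfl | hy', e2⟩
          · refine Or.inr ⟨x, hx, line_unique (fun e => hpart x hx (by rw [e]))
              (on_join_left (hpart x hx)) (on_join_right (hpart x hx)) e1 e2⟩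
          · exact Or.inl ⟨⟨x, hx, e1⟩, y', hy', e2⟩
        · rintro (⟨e1, y', hy', e2⟩ | ⟨x, hx, rfl⟩)
          · exact ⟨e1, y', Or.inr hy', e2⟩
          · exact ⟨⟨x, hx, on_join_left (hpart x hx)⟩, y, Or.inl rfl, on_join_right (hpart x hx)⟩
      refine ⟨insert y Y₀, insert_subset (mem_sdiff.2 ⟨hyY, hy.1⟩) h1,
        disjoint_insert_right.2 ⟨fun e => hyZ (hXZ y e), h2⟩,
        by rw [card_insert_of_notMem hyY₀, h3], ?_, ?_⟩
      · rw [hgrid, card_union_of_disjoint, h4, card_image_of_injOn, hX]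
        · ring
        · intro x hx x' hx' e
          by_contra hne
          refine hK x hx x' (hXZ x' hx') hne _ (on_join_left (hpart x hx)) ?_
            (on_join_right (hpart x hx))
          rw [show join x y = join x' y from e]; exact on_join_left (hpart x' hx')
        · refine disjoint_left.2 fun l e1 e2 => ?_
          obtain ⟨x', hx', rfl⟩ := mem_image.1 e2
          obtain ⟨⟨x, hx, e3⟩, y', hy', e4⟩ := (mf.1 e1).2
          exact hK x hx y' (hYZ y' hy') (fun e => disjoint_left.1 h2 hx (e ▸ hy')) _ e3 e4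
            (on_join_right (hpart x' hx'))
      · intro z hzX hz
        rw [mem_insert, not_or] at hz
        rw [hgrid, filter_union]
        refine (card_union_le _ _).trans ?_
        rcases ((X.image fun x => join x y).filter fun l => on z l).eq_empty_or_nonempty with e | e
        · rw [e]; simpa using h5 z hzX hz.2
        · have e1 : #((X.image fun x => join x y).filter fun l => on z l) ≤ 1 := by
            refine card_le_one.2 fun l hl l' hl' => ?_
            obtain ⟨x, hx, rfl⟩ := mem_image.1 (mf.1 hl).1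
            obtain ⟨x', hx', rfl⟩ := mem_image.1 (mf.1 hl').1
            exact line_unique hz.1 (mf.1 hl).2 (on_join_right (hpart x hx)) (mf.1 hl').2
              (on_join_right (hpart x' hx'))
          obtain ⟨l, hl⟩ := e
          obtain ⟨x, hx, rfl⟩ := mem_image.1 (mf.1 hl).1
          have e2 : z ∉ Z := fun e => hK x hx z e (fun e' => hzX (e' ▸ hx)) _
            (on_join_left (hpart x hx)) (mf.1 hl).2 (on_join_right (hpart x hx))
          have e3 : ¬ 2 ≤ #((grid X Y₀).filter fun l => on z l) := fun e => e2 (by simp [hZ, e])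
          omega
  obtain ⟨Y₀, h1, h2, h3, h4, h5⟩ := key a le_rfl
  exact ⟨Y₀, h1, h2, hX, h3, by rw [h4, sq], h5⟩

/-- Pairs of distinct points on a kept line. -/
def kp (R : Finset (Pt F)) (x y : Pt F) : Prop := x ≠ y ∧ ∃ l, kept R l ∧ on x l ∧ on y l

lemma card_heavy (Y : Finset (Pt F)) (B : ℝ) (hB : 0 < B) (hY : 2 * B ≤ #Y) :
    (#(univ.filter fun L : Gl F => #Y / B < (#(Y.filter fun y => inc y L) : ℝ)) : ℝ)
      ≤ 2 * B ^ 2 := by
  obtain ⟨H, hH⟩ : ∃ H, H = univ.filter fun L : Gl F =>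
    #Y / B < (#(Y.filter fun y => inc y L) : ℝ) := ⟨_, rfl⟩
  rw [← hH]
  have h1 : ∑ L ∈ H, #(Y.filter fun y => inc y L).offDiag ≤ #(Y ×ˢ Y) := by
    rw [← card_biUnion]
    · refine card_le_card (biUnion_subset.2 fun L _ p hp => ?_)
      obtain ⟨e1, e2, -⟩ := mem_offDiag.1 hp
      exact mem_product.2 ⟨(mf.1 e1).1, (mf.1 e2).1⟩
    · intro L _ L' _ hne
      refine disjoint_left.2 fun p hp hp' => hne ?_
      obtain ⟨e1, e2, e3⟩ := mem_offDiag.1 hp
      obtain ⟨e4, e5, -⟩ := mem_offDiag.1 hp'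
      exact gl_unique e3 (mf.1 e1).2 (mf.1 e2).2 (mf.1 e4).2 (mf.1 e5).2
  have h2 : 2 ≤ #Y / B := by rw [le_div_iff₀ hB]; exact hY
  have h3 : #H • ((#Y / B) ^ 2 / 2) ≤ ∑ L ∈ H, (#(Y.filter fun y => inc y L).offDiag : ℝ) := by
    refine Finset.card_nsmul_le_sum _ _ _ fun L hL => ?_
    have e := (mf.1 (hH ▸ hL)).2
    rw [offDiag_card, Nat.cast_sub (Nat.le_mul_self _)]
    push_cast
    nlinarith
  have h4 : ∑ L ∈ H, (#(Y.filter fun y => inc y L).offDiag : ℝ) ≤ #Y * #Y := by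
    rw [card_product] at h1; exact_mod_cast h1
  have hY0 : (0 : ℝ) < #Y := by linarith
  rw [nsmul_eq_mul] at h3
  have h5 : (#Y : ℝ) * #Y = 2 * B ^ 2 * ((#Y / B) ^ 2 / 2) := by field_simp
  exact le_of_mul_le_mul_right (by linarith) (show 0 < (#Y / B) ^ 2 / 2 by positivity)

lemma no_grid {R : Finset (Pt F)} {a : ℕ} (ha : 1 ≤ a)
    (hG : ∀ X Y : Finset (Pt F), Generic a X Y → (∀ x ∈ X, x ∉ R) → (∀ y ∈ Y, y ∉ R) →
      ∃ l ∈ grid X Y, kept R l)
    (X Y : Finset (Pt F)) (hXR : ∀ x ∈ X, x ∉ R) (hYR : ∀ y ∈ Y, y ∉ R)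
    (hh : ∀ L : Gl F, #Y / (6 * a ^ 5) < (#(Y.filter fun y => inc y L) : ℝ) →
      #(X.filter fun x => inc x L) ≤ 1)
    (hY : 12 * (a : ℝ) ^ 5 ≤ #Y) (hX : 146 * (a : ℝ) ^ 10 ≤ #X)
    (hP : (#((X ×ˢ Y).filter fun p => kp R p.1 p.2) : ℝ) ≤ #X * #Y / (5 * a)) : False := by
  have ha1 : (1 : ℝ) ≤ a := by exact_mod_cast ha
  have hY0 : (0 : ℝ) < #Y := lt_of_lt_of_le (by positivity) hY
  have h1 := card_heavy Y (6 * a ^ 5) (by positivity) (by linarith)
  obtain ⟨H, hH⟩ : ∃ H, H = univ.filter fun L : Gl F =>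
    #Y / (6 * a ^ 5) < (#(Y.filter fun y => inc y L) : ℝ) := ⟨_, rfl⟩
  rw [← hH] at h1
  have hHm : ∀ L, L ∈ H ↔ #Y / (6 * a ^ 5) < (#(Y.filter fun y => inc y L) : ℝ) := fun L => by
    simp [hH]
  have h2 : #(H.biUnion fun L => X.filter fun x => inc x L) ≤ #H * 1 :=
    card_biUnion_le_card_mul _ _ _ fun L hL => hh L ((hHm L).1 hL)
  obtain ⟨d, hd⟩ : ∃ d : Pt F → ℝ, ∀ x, d x = #(Y.filter fun y => kp R x y) := ⟨_, fun _ => rfl⟩
  have h3 : ∑ x ∈ X, d x ≤ #X * #Y / (5 * a) := by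
    refine le_trans (le_of_eq ?_) hP
    simp only [hd, card_filter]
    rw [Finset.sum_product]
    push_cast; rfl
  have h4 : (#(X.filter fun x => 2 * #Y / (5 * a) < d x) : ℝ) ≤ #X / 2 := by
    have e1 : #(X.filter fun x => 2 * #Y / (5 * a) < d x) • (2 * #Y / (5 * a) : ℝ) ≤
        ∑ x ∈ X, d x :=
      (Finset.card_nsmul_le_sum _ _ _ fun x hx => (mf.1 hx).2.le).trans
        (Finset.sum_le_sum_of_subset_of_nonneg (filter_subset _ _) fun x _ _ => by
          rw [hd]; positivity)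
    rw [nsmul_eq_mul] at e1
    have e2 : (#X : ℝ) * #Y / (5 * a) = #X / 2 * (2 * #Y / (5 * a)) := by ring
    exact le_of_mul_le_mul_right (by linarith) (show (0 : ℝ) < 2 * #Y / (5 * a) by positivity)
  obtain ⟨X₀, hX₀, hX₀c⟩ : ∃ X₀ ⊆ X \ ((H.biUnion fun L => X.filter fun x => inc x L) ∪
      X.filter fun x => 2 * #Y / (5 * a) < d x), #X₀ = a := by
    refine exists_subset_card_eq ?_
    have e1 := le_card_sdiff ((H.biUnion fun L => X.filter fun x => inc x L) ∪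
      X.filter fun x => 2 * #Y / (5 * a) < d x) X
    have e2 := card_union_le (H.biUnion fun L => X.filter fun x => inc x L)
      (X.filter fun x => 2 * #Y / (5 * a) < d x)
    have e3 : (a : ℝ) + #H + #(X.filter fun x => 2 * #Y / (5 * a) < d x) ≤ #X := by
      have : (a : ℝ) ≤ a ^ 10 := le_self_pow₀ ha1 (by norm_num)
      nlinarith
    have e4 : a + #H + #(X.filter fun x => 2 * #Y / (5 * a) < d x) ≤ #X := by exact_mod_cast e3
    omega
  have hX₀' : ∀ x ∈ X₀, x ∈ X ∧ (∀ L ∈ H, ¬ inc x L) ∧ d x ≤ 2 * #Y / (5 * a) := by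
    intro x hx
    obtain ⟨e1, e2⟩ := mem_sdiff.1 (hX₀ hx)
    rw [notMem_union] at e2
    exact ⟨e1, fun L hL hi => e2.1 (mem_biUnion.2 ⟨L, hL, mf.2 ⟨e1, hi⟩⟩),
      not_lt.1 fun h => e2.2 (mf.2 ⟨e1, h⟩)⟩
  obtain ⟨Y₀, e1, e2, e3⟩ := grid_extract X₀ Y (X₀.biUnion fun x => Y.filter fun y => kp R x y) a
    ha hX₀c (#Y / (6 * a ^ 5)) (fun x hx L hL => not_lt.1 fun h =>
      (hX₀' x hx).2.1 L ((hHm L).2 h) hL) (by
      have e1 : (#(X₀.biUnion fun x => Y.filter fun y => kp R x y) : ℝ) ≤ 2 * #Y / 5 := by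
        calc _ ≤ ((∑ x ∈ X₀, #(Y.filter fun y => kp R x y) : ℕ) : ℝ) := by
              exact_mod_cast card_biUnion_le
          _ ≤ #X₀ • (2 * #Y / (5 * a) : ℝ) := by
              push_cast
              exact Finset.sum_le_card_nsmul _ _ _ fun x hx => hd x ▸ (hX₀' x hx).2.2
          _ = _ := by rw [nsmul_eq_mul, hX₀c]; field_simp
      have e2 : 3 * (a : ℝ) ^ 5 * (#Y / (6 * a ^ 5)) = #Y / 2 := by field_simp; ring
      linarith)
  obtain ⟨l, hl, hk⟩ := hG X₀ Y₀ e3 (fun x hx => hXR x (hX₀' x hx).1)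
    fun y hy => hYR y (mem_sdiff.1 (e1 hy)).1
  obtain ⟨⟨x, hx, e4⟩, y, hy, e5⟩ := (mf.1 hl).2
  obtain ⟨e6, e7⟩ := mem_sdiff.1 (e1 hy)
  exact e7 (mem_biUnion.2 ⟨x, hx, mf.2 ⟨e6, fun e => disjoint_left.1 e2 hx (e ▸ hy), l, hk, e4, e5⟩⟩)

end Crest.Agent.R34
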