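import Crest.Agent.R34.Cover
import Crest.Agent.R34.Grid

/-! The stages of the random construction. -/

set_option linter.unusedSectionVars false

open Finset
open scoped BigOperators Classical

namespace Crest.Agent.R34

lemma greedy {T β : Type*} [Fintype T] (Al : T → Finset β) (Rel : T → β → T → β → Prop)
    (hsymm : ∀ t b t' b', Rel t b t' b' → Rel t' b' t b) (d : ℕ)
    (hd : ∀ t t' b', #((Al t).filter fun b => Rel t b t' b') ≤ d)
    (hA : ∀ t, Fintype.card T * d < #(Al t)) :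
    ∃ φ : T → β, (∀ t, φ t ∈ Al t) ∧ ∀ t t', t ≠ t' → ¬ Rel t (φ t) t' (φ t') := by
  have key : ∀ s : Finset T, ∃ φ : T → β, (∀ t, φ t ∈ Al t) ∧
      ∀ t ∈ s, ∀ t' ∈ s, t ≠ t' → ¬ Rel t (φ t) t' (φ t') := by
    intro s
    induction s using Finset.induction_on with
    | empty =>
      choose φ hφ using fun t => card_pos.1 (lt_of_le_of_lt (Nat.zero_le _) (hA t))
      exact ⟨φ, hφ, by simp⟩
    | insert t s ht ih =>
      obtain ⟨φ, h1, h2⟩ := ih
      obtain ⟨b, hb, hb'⟩ : ∃ b ∈ Al t, b ∉ univ.biUnion fun t' : T =>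
          (Al t).filter fun b => Rel t b t' (φ t') :=
        exists_mem_notMem_of_card_lt_card (lt_of_le_of_lt
          (card_biUnion_le_card_mul _ _ _ fun t' _ => hd t t' _) (hA t))
      have h3 : ∀ t', ¬ Rel t b t' (φ t') := fun t' h =>
        hb' (mem_biUnion.2 ⟨t', mem_univ _, mf.2 ⟨hb, h⟩⟩)
      refine ⟨Function.update φ t b, fun u => ?_, fun u hu u' hu' hne => ?_⟩
      · by_cases e : u = t
        · subst e; simpa using hb
        · rw [Function.update_of_ne e]; exact h1 u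
      · by_cases e : u = t
        · subst e
          rw [Function.update_self, Function.update_of_ne hne.symm]
          exact h3 _
        · by_cases e' : u' = t
          · subst e'
            rw [Function.update_self, Function.update_of_ne hne]
            exact fun h => h3 _ (hsymm _ _ _ _ h)
          · rw [Function.update_of_ne e, Function.update_of_ne e']
            exact h2 u ((mem_insert.1 hu).resolve_left e) u' ((mem_insert.1 hu').resolve_left e') hne
  obtain ⟨φ, h1, h2⟩ := key univ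
  exact ⟨φ, h1, fun t t' => h2 t (mem_univ _) t' (mem_univ _)⟩

lemma greedy_inj {T β : Type*} [Fintype T] (Al : T → Finset β)
    (hA : ∀ t, Fintype.card T < #(Al t)) :
    ∃ φ : T → β, (∀ t, φ t ∈ Al t) ∧ Function.Injective φ := by
  obtain ⟨φ, h1, h2⟩ := greedy Al (fun _ b _ b' => b = b') (fun _ _ _ _ h => h.symm) 1
    (fun t t' b' => card_le_one.2 fun a ha c hc => (mf.1 ha).2.trans (mf.1 hc).2.symm)
    (by simpa using hA)
  exact ⟨φ, h1, fun t t' h => by_contra fun hne => h2 t t' hne h⟩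

variable {F : Type*} [Field F] [Fintype F] {τ r : ℝ}

lemma Num.card_opt_le (hN : Num F τ r) : (Fintype.card (Option F) : ℝ) ≤ 2 * r ^ 2 := by
  rw [Fintype.card_option, hN.hq]; push_cast; linarith [hN.q_ge]

lemma stage1 (hN : Num F τ r) (w : Option F → Pt F) (hw : ∀ g, (w g).1 = g) (n : ℕ) (hn : 2 ≤ n)
    (C : ℝ) (hJ : 4 * r ^ 2 ≤ C * n)
    (htan : ∀ g, 2 * n < #(univ.filter fun l => on (w g) l ∧ ∀ h, on (w h) l → h = g)) :
    ∃ M : Option F → Bool → Ln F, (∀ g e, on (w g) (M g e)) ∧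
      (∀ h g e, on (w h) (M g e) → h = g) ∧
      ∀ g e, r ^ 2 * Real.exp (-(2 * C)) - r * τ ^ 3 ≤ #(univ.filter fun i : Option F =>
        i ≠ g ∧ ∀ g' e', on (i, ev (M g e) i) (M g' e') → g = g' ∧ e = e') := by
  have hτ := hN.hτ
  have hr := hN.hr
  have hτ0 : 0 < τ := by linarith
  have hr0 : 0 < r := by linarith
  have : Nonempty (Fin n) := ⟨⟨0, by omega⟩⟩
  choose φ hφ hinj using fun g => greedy_inj (T := Bool × Fin n)
    (fun _ => univ.filter fun l => on (w g) l ∧ ∀ h, on (w h) l → h = g)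
    (fun _ => by simpa using htan g)
  have h1 : ∀ g t, on (w g) (φ g t) := fun g t => (mf.1 (hφ g t)).2.1
  have h2 : ∀ h g t, on (w h) (φ g t) → h = g := fun h g t => (mf.1 (hφ g t)).2.2 h
  obtain ⟨kill, hkill⟩ : ∃ kill : Ln F → Option F × Bool → Fin n → Option F → Prop,
      ∀ L j a i, kill L j a i ↔ φ j.1 (j.2, a) ≠ L ∧ ev (φ j.1 (j.2, a)) i = ev L i :=
    ⟨_, fun _ _ _ _ => Iff.rfl⟩
  have hcJ : (Fintype.card (Option F × Bool) : ℝ) ≤ 4 * r ^ 2 := by
    rw [Fintype.card_prod, Fintype.card_bool]; push_cast; linarith [hN.card_opt_le]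
  have hP := (Pr_exists (fun (L : Ln F) (ω : Option F × Bool → Fin n) => r * τ ^ 3 ≤
      |∑ i ∈ (univ.filter fun i => ¬ on (w i) L).filter (fun i => alive (kill L) ω i), (1 : ℝ) -
      ∑ i ∈ (univ.filter fun i => ¬ on (w i) L), 1 * surv (kill L) i|)
      (2 * Real.exp (-(τ ^ 3 / 2))) fun L => by
    rw [← expo hN]
    refine mcd_alive (kill L) _ (fun _ => 1) 1 _ _ 1 zero_le_one (fun _ _ => zero_le_one)
      (fun _ _ => le_rfl) (fun j a => card_le_one.2 fun i hi i' hi' => ?_) (by positivity)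
      (by positivity) ?_
    · by_contra hne
      have e1 := (hkill _ _ _ _).1 (mf.1 hi).2
      have e2 := (hkill _ _ _ _).1 (mf.1 hi').2
      exact e1.1 (line_ext hne e1.2 e2.2)
    · have : 4 ≤ τ ^ 3 := by nlinarith [sq_nonneg τ]
      push_cast
      nlinarith [sq_nonneg r]).trans (small hN.card_ln (by nlinarith [sq_nonneg τ]))
  obtain ⟨ω, hω⟩ := exists_not_of_Pr _ (hP.trans_lt (by norm_num))
  push Not at hω
  refine ⟨fun g e => φ g (e, ω (g, e)), fun g e => h1 _ _, fun h g e => h2 _ _ _, fun g e => ?_⟩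
  obtain ⟨L, hL⟩ : ∃ L, L = φ g (e, ω (g, e)) := ⟨_, rfl⟩
  simp only [← hL]
  have e1 := (abs_lt.1 (hω L)).1
  have e2 : (univ.filter fun i => ¬ on (w i) L) = univ.erase g := by
    ext i
    simp only [mf, mem_univ, true_and, mem_erase, and_true, hL]
    exact ⟨fun h e => h (e ▸ h1 _ _), fun h e => h (h2 _ _ _ e)⟩
  rw [e2] at e1
  have e3 : #(univ.erase g) • Real.exp (-(2 * C)) ≤ ∑ i ∈ univ.erase g, 1 * surv (kill L) i := by
    refine Finset.card_nsmul_le_sum _ _ _ fun i hi => ?_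
    have := surv_ge (kill L) i 1 C zero_le_one (by simpa using hn) (by simpa using hcJ.trans hJ)
      fun j => by
        refine (Pr_le_card _ (inst := Classical.decPred _) 1 (card_le_one.2 fun a ha a' ha' => ?_)).trans
          (by simp)
        have e4 := ((hkill _ _ _ _).1 (mf.1 ha).2).2
        have e5 := ((hkill _ _ _ _).1 (mf.1 ha').2).2
        have e6 : i ≠ (w j.1).1 := by
          intro h
          have e7 := h1 j.1 (j.2, a)
          unfold on at e7
          rw [← h, e4, h, hL] at e7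
          rw [hw, h2 _ _ _ e7] at h
          exact (mem_erase.1 hi).1 h
        have := hinj _ (line_ext e6 (e4.trans e5.symm) ((h1 _ _).trans (h1 _ _).symm))
        simpa using this
    simpa using this
  rw [card_erase_of_mem (mem_univ _), card_univ, Fintype.card_option, Nat.add_sub_cancel,
    nsmul_eq_mul, ← hN.hq] at e3
  rw [sum_const, nsmul_eq_mul, mul_one] at e1
  refine le_trans (by linarith) (Nat.cast_le.2 (card_le_card fun i hi => ?_))
  obtain ⟨e4, e5⟩ := mf.1 hi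
  refine mf.2 ⟨mem_univ _, (mem_erase.1 e4).1, fun g' e' h => ?_⟩
  have e6 : φ g' (e', ω (g', e')) = L := by_contra fun hne => e5 (g', e') ((hkill _ _ _ _).2 ⟨hne, h⟩)
  obtain rfl : g' = g := h2 _ _ _ (hL ▸ e6 ▸ h1 _ _)
  have := hinj _ (e6.trans hL)
  exact ⟨rfl, (Prod.ext_iff.1 this).1.symm⟩

lemma stage2 (w : Option F → Pt F) (hw : ∀ g, (w g).1 = g) (Ω : Finset (Pt F))
    (hΩ : ∀ x, x ∈ Ω ↔ ∃ g, w g = x) (M : Option F → Bool → Ln F) (h1 : ∀ g e, on (w g) (M g e))
    (h2 : ∀ h g e, on (w h) (M g e) → h = g) (n : ℕ) [Nonempty (Fin n)]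
    (h3 : ∀ g e, 22 * n < #(univ.filter fun i : Option F =>
        i ≠ g ∧ ∀ g' e', on (i, ev (M g e) i) (M g' e') → g = g' ∧ e = e')) :
    ∃ π : Option F × Bool × Fin 11 → Fin n → Pt F, Proc Ω π ∧
      (∀ L : Gl F, (∀ j, #(univ.filter fun a => inc (π j a) L) ≤ 1) ∨
        #(univ.filter fun j => ∃ a, inc (π j a) L) ≤ 11) ∧
      ∀ ω, ∃ P : Pre F, P.R = nxt Ω π ω := by
  choose φ hφ hinj using fun g => greedy_inj (T := (Bool × Fin 11) × Fin n)
    (fun t => univ.filter fun i : Option F =>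
        i ≠ g ∧ ∀ g' e', on (i, ev (M g t.1.1) i) (M g' e') → g = g' ∧ t.1.1 = e')
    (fun t => by simpa using h3 g t.1.1)
  obtain ⟨π, hπ⟩ : ∃ π : Option F × Bool × Fin 11 → Fin n → Pt F, ∀ j a,
      π j a = (φ j.1 (j.2, a), ev (M j.1 j.2.1) (φ j.1 (j.2, a))) := ⟨_, fun _ _ => rfl⟩
  have e1 : ∀ j a, on (π j a) (M j.1 j.2.1) := fun j a => by rw [hπ]; rfl
  have e2 : ∀ j a g e, on (π j a) (M g e) → j.1 = g ∧ j.2.1 = e := fun j a g e h =>
    (mf.1 (hφ j.1 (j.2, a))).2.2 g e (hπ j a ▸ h)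
  have e3 : ∀ j a, (π j a).1 ≠ j.1 := fun j a => by
    rw [hπ]; exact (mf.1 (hφ j.1 (j.2, a))).2.1
  have e4 : ∀ g c a c' a', (π (g, c) a).1 = (π (g, c') a').1 → c = c' ∧ a = a' := by
    intro g c a c' a' h
    rw [hπ, hπ] at h
    simpa using hinj g h
  have e5 : ∀ j a j' a', π j a = π j' a' → j = j' ∧ a = a' := by
    rintro ⟨g, c⟩ a ⟨g', c'⟩ a' h
    obtain rfl : g = g' := (e2 _ _ _ _ (h ▸ e1 (g', c') a')).1
    obtain ⟨rfl, rfl⟩ := e4 _ _ _ _ _ (congrArg Prod.fst h)
    exact ⟨rfl, rfl⟩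
  have e6 : ∀ l, exc π l → ∃ g e, l = M g e := by
    rintro l ⟨j, a, a', hne, h, h'⟩
    exact ⟨_, _, line_unique (fun e => hne (e5 _ _ _ _ e).2) h h' (e1 _ _) (e1 _ _)⟩
  refine ⟨π, ⟨e5, fun l hl hk => ?_, fun z => ?_⟩, fun L => ?_, fun ω => ?_⟩
  · obtain ⟨g, e, rfl⟩ := e6 l hl
    exact hk _ ((hΩ _).2 ⟨g, rfl⟩) (h1 g e)
  · refine le_trans (card_le_card (t := univ.image (M z.1)) fun l hl => ?_)
      (card_image_le.trans (by simp))
    obtain ⟨g, e, rfl⟩ := e6 l (mf.1 hl).2.1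
    have := (mf.1 hl).2.2 _ ((hΩ _).2 ⟨g, rfl⟩) (h1 g e)
    rw [← this, hw]
    exact mem_image.2 ⟨e, mem_univ _, rfl⟩
  · by_cases h : ∃ g e, L = .inl (M g e)
    · obtain ⟨g, e, rfl⟩ := h
      refine Or.inr (le_trans (card_le_card (t := univ.image fun c : Fin 11 => (g, e, c))
        fun j hj => ?_) (card_image_le.trans (by simp)))
      obtain ⟨a, ha⟩ := (mf.1 hj).2
      obtain ⟨rfl, rfl⟩ := e2 _ _ _ _ ha
      exact mem_image.2 ⟨j.2.2, mem_univ _, rfl⟩
    · refine Or.inl fun j => card_le_one.2 fun a ha a' ha' => ?_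
      by_contra hne
      exact h ⟨_, _, gl_unique (fun e => hne (e5 _ _ _ _ e).2) (mf.1 ha).2 (mf.1 ha').2
        (L' := .inl _) (e1 _ _) (e1 _ _)⟩
  · refine ⟨⟨fun g β => β.elim (w g) fun c => π (g, c) (ω (g, c)), M, nxt Ω π ω, hw, fun x => ?_,
      h1, h2, fun g e c => e1 (g, e, c) _, fun g e c g' e' h => e2 (g, e, c) _ _ _ h,
      fun g e c => e3 (g, e, c) _, fun g e c e' c' h => ?_⟩, rfl⟩
    · rw [mem_nxt, hΩ]
      constructor
      · rintro (⟨g, rfl⟩ | ⟨⟨g, c⟩, rfl⟩)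
        exacts [⟨g, none, rfl⟩, ⟨g, some c, rfl⟩]
      · rintro ⟨g, _ | c, rfl⟩
        exacts [Or.inl ⟨g, rfl⟩, Or.inr ⟨(g, c), rfl⟩]
    · simpa using (e4 _ _ _ _ _ h).1

lemma stage3 (hN : Num F τ r) (hbig : τ ^ 50 ≤ r) (P : Pre F) (n : ℕ)
    (hn : r ^ 2 ≤ τ * n)
    (hS : ∀ (z₀ : Pt F) (z : Kp → Pt F) (p : Kp → Option F),
      (∀ i, p i ≠ (z i).1 ∧ p i ≠ z₀.1) → 5819 * n < #(good P.R z₀ z p))
    (hcol : ∀ L : Gl F, (#(P.R.filter fun x => inc x L) : ℝ) ≤ 2 * τ ^ 2) :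
    ∃ G : Gad F, G.R = P.R := by
  have hτ := hN.hτ
  have hr := hN.hr
  have hτ0 : 0 < τ := by linarith
  have hτ1 : 1 ≤ τ := by linarith
  have hr0 : 0 < r := by linarith
  have hn0 : (0 : ℝ) < n := by
    by_contra h
    have : (n : ℝ) = 0 := le_antisymm (not_lt.1 h) (by positivity)
    rw [this] at hn; nlinarith
  have : Nonempty (Fin n) := ⟨⟨0, by exact_mod_cast hn0⟩⟩
  have hK : Fintype.card Kp = 23 := by simp
  choose φ hφ hrel using fun g => greedy (T := Fin 11 × Fin n)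
    (fun t => good P.R (P.b g none) (P.bs g t.1) (P.pp g t.1))
    (fun t N t' N' => ∃ β β', spl (P.bs g t.1 β) (P.pp g t.1 β) N =
      spl (P.bs g t'.1 β') (P.pp g t'.1 β') N')
    (fun _ _ _ _ ⟨β, β', h⟩ => ⟨β', β, h.symm⟩) 529 (by
      intro t t' N'
      refine le_trans (card_le_card (t := univ.biUnion fun u : Kp × Kp =>
        (good P.R (P.b g none) (P.bs g t.1) (P.pp g t.1)).filter fun N =>
          spl (P.bs g t.1 u.1) (P.pp g t.1 u.1) N =
            spl (P.bs g t'.1 u.2) (P.pp g t'.1 u.2) N') fun N hN => ?_)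
        ((card_biUnion_le_card_mul _ _ 1 fun u _ => card_le_one.2 fun N hN N'' hN'' => ?_).trans
          (by rw [card_univ, Fintype.card_prod, hK]))
      · obtain ⟨β, β', h⟩ := (mf.1 hN).2
        exact mem_biUnion.2 ⟨(β, β'), mem_univ _, mf.2 ⟨(mf.1 hN).1, h⟩⟩
      · exact spl_inj (P.pp_ne _ _ _).1 (P.pp_ne _ _ _).2 (mf.1 (mf.1 hN).1).2.1
          (mf.1 (mf.1 hN'').1).2.1 ((mf.1 hN).2.trans (mf.1 hN'').2.symm))
    (fun t => by
      have := hS (P.b g none) (P.bs g t.1) (P.pp g t.1) (P.pp_ne g t.1)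
      simp only [Fintype.card_prod, Fintype.card_fin]
      omega)
  have hP := Pr_exists (fun (u : Gl F × Pt F) (ω : Option F × Fin 11 → Fin n) => ¬ inc u.2 u.1 ∧
      5 ≤ #(univ.filter fun t : Option F × Fin 11 => ∃ β, inc (P.bs t.1 t.2 β) u.1 ∧
        on u.2 (spl (P.bs t.1 t.2 β) (P.pp t.1 t.2 β) (φ t.1 (t.2, ω t)))))
      (3 / (r ^ 2 / τ ^ 5) ^ 5) (by
    rintro ⟨L, x⟩
    by_cases hx : inc x L
    · rw [Pr_false fun ω h => h.1 hx]; positivity
    have h1 := tail (fun (t : Option F × Fin 11) (a : Fin n) => ∃ β, inc (P.bs t.1 t.2 β) L ∧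
        on x (spl (P.bs t.1 t.2 β) (P.pp t.1 t.2 β) (φ t.1 (t.2, a)))) 5 (r ^ 2 / τ ^ 5)
        (τ ^ 5 / r ^ 2) (by
          rw [le_div_iff₀ (by positivity), one_mul]
          have : τ ^ 5 ≤ r := (pow_le_pow_right₀ hτ1 (by norm_num)).trans hbig
          nlinarith) (by
      calc _ ≤ ∑ t : Option F × Fin 11, (#(univ.filter fun β => inc (P.bs t.1 t.2 β) L) : ℝ) /
            Fintype.card (Fin n) := by
            refine Finset.sum_le_sum fun t _ => Pr_le_card _ (inst := Classical.decPred _) _ ?_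
            refine le_trans (card_le_card (t := (univ.filter fun β =>
              inc (P.bs t.1 t.2 β) L).biUnion fun β => univ.filter fun a =>
              on x (spl (P.bs t.1 t.2 β) (P.pp t.1 t.2 β) (φ t.1 (t.2, a)))) fun a ha => ?_)
              ((card_biUnion_le_card_mul _ _ 1 fun β hβ =>
                card_le_one.2 fun a ha a' ha' => ?_).trans (by simp))
            · obtain ⟨β, h1, h2⟩ := (mf.1 ha).2
              exact mem_biUnion.2 ⟨β, mf.2 ⟨mem_univ _, h1⟩, mf.2 ⟨mem_univ _, h2⟩⟩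
            · by_contra hne
              refine hrel t.1 (t.2, a) (t.2, a') (by simpa using hne) ⟨β, β, ?_⟩
              exact line_unique (x := x) (y := P.bs t.1 t.2 β) (fun e => hx (e ▸ (mf.1 hβ).2))
                (mf.1 ha).2 (on_spl (P.pp_ne _ _ _).1 _) (mf.1 ha').2 (on_spl (P.pp_ne _ _ _).1 _)
        _ ≤ (2 * τ ^ 2 * 253) / n := by
            rw [← Finset.sum_div, Fintype.card_fin]
            gcongr
            rw [← Nat.cast_sum, ← card_sigma]
            have e1 : #((univ : Finset (Option F × Fin 11)).sigma fun t =>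
                univ.filter fun β => inc (P.bs t.1 t.2 β) L) ≤
                #((P.R.filter fun x => inc x L) ×ˢ (univ : Finset (Fin 11 × Kp))) := by
              have hb : ∀ g j β, ∃ β', P.bs g j β = P.b g β' := fun g j β => by
                rcases P.bs_cases g j β with h | ⟨e, c, -, -, h⟩ <;> exact ⟨_, h⟩
              refine card_le_card_of_injOn (fun s => (P.bs s.1.1 s.1.2 s.2, s.1.2, s.2)) ?_ ?_
              · rintro ⟨⟨g, j⟩, β⟩ hs
                obtain ⟨β', h⟩ := hb g j β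
                exact mem_product.2 ⟨mf.2 ⟨(P.memR _).2 ⟨_, _, h.symm⟩,
                  (mf.1 (mem_sigma.1 hs).2).2⟩,
                  mem_univ _⟩
              · rintro ⟨⟨g, j⟩, β⟩ - ⟨⟨g', j'⟩, β'⟩ - h
                simp only [Prod.mk.injEq] at h
                obtain ⟨h, rfl, rfl⟩ := h
                obtain ⟨β1, h1⟩ := hb g j β
                obtain ⟨β2, h2⟩ := hb g' j β
                obtain rfl := (P.b_inj (h1.symm.trans (h.trans h2))).1
                rfl
            rw [card_product, card_univ, Fintype.card_prod, hK, Fintype.card_fin] at e1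
            have e2 := (Nat.cast_le (α := ℝ)).2 e1
            push_cast at e2 ⊢
            linarith [hcol L]
        _ ≤ _ := by
            rw [div_le_div_iff₀ hn0 (by positivity)]
            have : 506 ≤ τ ^ 2 := by nlinarith
            calc 2 * τ ^ 2 * 253 * r ^ 2 = 506 * (τ ^ 2 * r ^ 2) := by ring
              _ ≤ τ ^ 2 * (τ ^ 2 * (τ * n)) := by gcongr
              _ = _ := by ring)
    refine le_trans (Pr_mono fun ω h => ?_) (h1.trans ?_)
    · convert h.2
    · rw [show r ^ 2 / τ ^ 5 * (τ ^ 5 / r ^ 2) = 1 by field_simp]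
      gcongr
      linarith [Real.exp_one_lt_d9])
  obtain ⟨ω, hω⟩ := exists_not_of_Pr _ (hP.trans_lt (by
    have e1 : (Fintype.card (Gl F × Pt F) : ℝ) ≤ (3 * r ^ 4) * (2 * r ^ 4) := by
      have h0 := hN.card_opt_le
      have h1 : r ^ 2 ≤ r ^ 4 := pow_le_pow_right₀ (by linarith) (by norm_num)
      rw [Fintype.card_prod, Fintype.card_sum, Fintype.card_prod, Fintype.card_prod (Option F)]
      push_cast
      rw [← hN.hq]
      refine mul_le_mul (by nlinarith) (by nlinarith) (by positivity) (by positivity)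
    have e2 : τ ^ 26 ≤ r := (pow_le_pow_right₀ hτ1 (by norm_num)).trans hbig
    calc _ ≤ (3 * r ^ 4) * (2 * r ^ 4) * (3 / (r ^ 2 / τ ^ 5) ^ 5) := by gcongr
      _ = 18 * τ ^ 25 / r ^ 2 := by field_simp; ring
      _ < 1 := by
        rw [div_lt_one (by positivity)]
        have : 0 < τ ^ 25 := by positivity
        have e3 : τ ^ 26 = τ * τ ^ 25 := by ring
        nlinarith))
  refine ⟨⟨P, fun g j => φ g (j, ω (g, j)), fun g j => (mf.1 (hφ g (j, _))).2.1,
    fun g j β => (mf.1 (hφ g (j, _))).2.2 β, fun g j j' β β' hne _ h => ?_, fun L x hx => ?_⟩, rfl⟩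
  · exact hrel g (j, _) (j', _) (fun e => hne (congrArg Prod.fst e)) ⟨β, β', h⟩
  · by_contra h
    exact hω ⟨(L, x), hx, not_le.1 h⟩

end Crest.Agent.R34
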