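import Crest.Agent.R34.Step

/-! The hypergraph built from the gadgets, and its covering number. -/

set_option linter.unusedSectionVars false

open Finset
open scoped BigOperators Classical

namespace Crest.Agent.R34

abbrev Kp := Option (Bool × Fin 11)

structure Pre (F : Type*) [Field F] where
  b : Option F → Kp → Pt F
  M : Option F → Bool → Ln F
  R : Finset (Pt F)
  part_w : ∀ g, (b g none).1 = g
  memR : ∀ x, x ∈ R ↔ ∃ g β, b g β = x
  on_w : ∀ g e, on (b g none) (M g e)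
  w_on : ∀ h g e, on (b h none) (M g e) → h = g
  on_u : ∀ g e c, on (b g (some (e, c))) (M g e)
  u_on : ∀ g e c g' e', on (b g (some (e, c))) (M g' e') → g = g' ∧ e = e'
  part_u : ∀ g e c, (b g (some (e, c))).1 ≠ g
  part_inj : ∀ g e c e' c', (b g (some (e, c))).1 = (b g (some (e', c'))).1 → e = e' ∧ c = c'

def valid (β : Kp) (j : Fin 11) : Prop := ∀ e, β ≠ some (e, j)

variable {F : Type*} [Field F] [Fintype F]

namespace Pre
variable (P : Pre F)

noncomputable def bs (g : Option F) (j : Fin 11) (β : Kp) : Pt F :=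
  if valid β j then P.b g β else P.b g none

def pp (g : Option F) (j : Fin 11) : Kp → Option F
  | none => (P.b g (some (false, j))).1
  | some (e, _) => (P.b g (some (e, j))).1

lemma bs_valid {g j β} (h : valid β j) : P.bs g j β = P.b g β := if_pos h

lemma bs_cases (g j β) : P.bs g j β = P.b g none ∨
    ∃ e c, c ≠ j ∧ β = some (e, c) ∧ P.bs g j β = P.b g (some (e, c)) := by
  by_cases h : valid β j
  · rcases β with _ | ⟨e, c⟩
    · exact Or.inl (if_pos h)
    · exact Or.inr ⟨e, c, fun e' => h e (by rw [e']), rfl, if_pos h⟩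
  · exact Or.inl (if_neg h)

lemma pp_ne (g j β) : P.pp g j β ≠ (P.bs g j β).1 ∧ P.pp g j β ≠ (P.b g none).1 := by
  have h : P.pp g j β ≠ (P.b g none).1 := by
    rw [P.part_w]
    rcases β with _ | ⟨e, c⟩ <;> exact P.part_u _ _ _
  refine ⟨?_, h⟩
  rcases P.bs_cases g j β with e | ⟨e, c, hc, rfl, e'⟩
  · rwa [e]
  · rw [e']; exact fun h => hc (P.part_inj _ _ _ _ _ h).2.symm

lemma b_mem (g β) : P.b g β ∈ P.R := (P.memR _).2 ⟨g, β, rfl⟩

lemma b_on (g β) : ∃ e, on (P.b g β) (P.M g e) := by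
  rcases β with _ | ⟨e, c⟩
  exacts [⟨false, P.on_w _ _⟩, ⟨e, P.on_u _ _ _⟩]

lemma eq_of_b_on {h g β e} (H : on (P.b h β) (P.M g e)) : h = g := by
  rcases β with _ | ⟨e, c⟩
  exacts [P.w_on _ _ _ H, (P.u_on _ _ _ _ _ H).1]

lemma b_inj {g β g' β'} (h : P.b g β = P.b g' β') : g = g' ∧ β = β' := by
  obtain ⟨e, he⟩ := P.b_on g' β'
  obtain rfl := P.eq_of_b_on (h ▸ he)
  refine ⟨rfl, ?_⟩
  rcases β with _ | ⟨e, c⟩ <;> rcases β' with _ | ⟨e', c'⟩
  · rfl
  · exact absurd (h ▸ P.part_w g) (P.part_u _ _ _)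
  · exact absurd (h ▸ P.part_w g) (P.part_u _ _ _)
  · obtain ⟨rfl, rfl⟩ := P.part_inj _ _ _ _ _ (congrArg Prod.fst h); rfl

lemma card_valid (β : Kp) : 10 ≤ #(univ.filter fun j => valid β j) := by
  have h1 : #(univ.filter fun j => ¬ valid β j) ≤ 1 := by
    refine card_le_one.2 fun j hj j' hj' => ?_
    have e1 := (mf.1 hj).2
    have e2 := (mf.1 hj').2
    simp only [valid, not_forall, not_not] at e1 e2
    obtain ⟨e, rfl⟩ := e1
    obtain ⟨e', h⟩ := e2
    simpa using congrArg (Option.map Prod.snd) h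
  have h2 := card_filter_add_card_filter_not (s := (univ : Finset (Fin 11))) fun j => valid β j
  simp only [card_univ, Fintype.card_fin] at h2
  omega

end Pre

structure Gad (F : Type*) [Field F] [Fintype F] extends Pre F where
  N : Option F → Fin 11 → Ln F
  on_N : ∀ g j, on (b g none) (N g j)
  miss_sp : ∀ g j β, miss R (toPre.bs g j β) (spl (toPre.bs g j β) (toPre.pp g j β) (N g j))
  nd : ∀ g j j' β β', j ≠ j' → toPre.bs g j β = toPre.bs g j' β' →
    spl (toPre.bs g j β) (toPre.pp g j β) (N g j) ≠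
      spl (toPre.bs g j' β') (toPre.pp g j' β') (N g j')
  gen : ∀ (L : Gl F) (x : Pt F), ¬ inc x L → #(univ.filter fun t : Option F × Fin 11 =>
    ∃ β, inc (toPre.bs t.1 t.2 β) L ∧
      on x (spl (toPre.bs t.1 t.2 β) (toPre.pp t.1 t.2 β) (N t.1 t.2))) ≤ 4

namespace Gad
variable (G : Gad F)

noncomputable def sp (g : Option F) (j : Fin 11) (β : Kp) : Ln F :=
  spl (G.bs g j β) (G.pp g j β) (G.N g j)

def sh (g : Option F) (e : Bool) (j : Fin 11) : Pt F :=
  ((G.b g (some (e, j))).1, ev (G.N g j) (G.b g (some (e, j))).1)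

lemma on_sp (g j β) : on (G.bs g j β) (G.sp g j β) := on_spl (G.pp_ne g j β).1 _

lemma sp_eq {g j β} (h : G.bs g j β = G.b g none) : G.sp g j β = G.N g j := by
  refine line_ext (G.pp_ne g j β).2 (on_spl' (G.pp_ne g j β).1 _) ?_
  have := G.on_sp g j β
  rw [h] at this
  exact this.trans (G.on_N g j).symm

lemma sh_on_N (g e j) : on (G.sh g e j) (G.N g j) := rfl

lemma sh_on_sp {g j β e} (h : on (G.bs g j β) (G.M g e)) : on (G.sh g e j) (G.sp g j β) := by
  rcases G.bs_cases g j β with h1 | ⟨e', c, -, rfl, h1⟩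
  · rw [G.sp_eq h1]; rfl
  · rw [h1] at h
    obtain ⟨-, rfl⟩ := G.u_on _ _ _ _ _ h
    exact on_spl' (G.pp_ne g j _).1 _

lemma N_ne_M (g j e) : G.N g j ≠ G.M g e := by
  intro h
  have h1 := G.miss_sp g j none
  have h2 : G.bs g j none = G.b g none := G.bs_valid fun _ => by simp
  have h3 := G.sp_eq h2
  unfold sp at h3
  rw [h3, h2, h] at h1
  have := (G.b_inj (h1 _ (G.b_mem g (some (e, 0))) (G.on_u _ _ _))).2
  simp at this

lemma sh_not_on (g e j e') : ¬ on (G.sh g e j) (G.M g e') := fun h =>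
  G.N_ne_M g j e' (line_ext (i := (G.sh g e j).1) (j := (G.b g none).1)
    (by rw [G.part_w]; exact G.part_u _ _ _)
    h.symm ((G.on_N g j).trans (G.on_w g e').symm))

lemma sp_ne_M (g j β e) : G.sp g j β ≠ G.M g e := by
  intro h
  have := G.sh_on_sp (e := e) (h ▸ G.on_sp g j β)
  exact G.sh_not_on g e j e (h ▸ this)

noncomputable def f (g : Option F) (e : Bool) (i : Option F) : Option F :=
  if i = g then none else
    if h : ∃ j, (G.b g (some (e, j))).1 = i then some (ev (G.N g h.choose) i)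
    else some (ev (G.M g e) i)

lemma f_self (g e) : G.f g e g = none := if_pos rfl

lemma f_sh (g e j) : G.f g e (G.sh g e j).1 = some (G.sh g e j).2 := by
  have h : ∃ j', (G.b g (some (e, j'))).1 = (G.sh g e j).1 := ⟨j, rfl⟩
  rw [f, if_neg (show (G.sh g e j).1 ≠ g from G.part_u _ _ _), dif_pos h, (G.part_inj _ _ _ _ _ h.choose_spec).2]
  rfl

lemma f_M {g e i} (h : (i, ev (G.M g e) i) ∉ G.R) : G.f g e i = some (ev (G.M g e) i) := by
  rw [f, if_neg, dif_neg]
  · rintro ⟨j, rfl⟩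
    exact h (eq_of_on (G.on_u g e j) ▸ G.b_mem _ _)
  · rintro rfl
    have := eq_of_on (G.on_w i e)
    rw [G.part_w] at this
    exact h (this ▸ G.b_mem _ _)

lemma f_cases (g e i) : G.f g e i = none ∨ (∃ j, (i, G.f g e i) = ((G.sh g e j).1,
    some (G.sh g e j).2)) ∨ (i ≠ g ∧ G.f g e i = some (ev (G.M g e) i)) := by
  by_cases h1 : i = g
  · exact Or.inl (if_pos h1)
  by_cases h2 : ∃ j, (G.b g (some (e, j))).1 = i
  · obtain ⟨j, rfl⟩ := h2
    exact Or.inr (Or.inl ⟨j, Prod.ext rfl (G.f_sh g e j)⟩)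
  · exact Or.inr (Or.inr ⟨h1, by rw [f, if_neg h1, dif_neg h2]⟩)

lemma f_eq_none {g e i} (h : G.f g e i = none) : i = g := by
  by_contra h1
  rw [f, if_neg h1] at h
  split_ifs at h

def edge (l : Ln F) : Prop := kept G.R l ∨ ∃ g j β, l = G.sp g j β

lemma line_meets_f {l : Ln F} (hl : G.edge l) (g e) : ∃ i, some (ev l i) = G.f g e i := by
  obtain ⟨i, hi⟩ := exists_meet l (G.M g e)
  by_cases h : (i, ev (G.M g e) i) ∈ G.R
  · rcases hl with hl | ⟨h', j, β, rfl⟩
    · exact absurd hi (hl _ h)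
    · have h1 := G.miss_sp h' j β _ h hi
      have h2 : on (G.bs h' j β) (G.M g e) := h1 ▸ rfl
      obtain rfl : h' = g := by
        rcases G.bs_cases h' j β with h3 | ⟨e', c, -, -, h3⟩ <;>
          exact G.eq_of_b_on (h3 ▸ h2)
      exact ⟨_, by rw [G.f_sh h' e j, G.sh_on_sp h2]⟩
  · exact ⟨i, by rw [G.f_M h, hi]⟩

lemma f_meets_f (g e g' e') : ∃ i, G.f g e i = G.f g' e' i := by
  by_cases h : g = g'
  · exact ⟨g, by rw [h, G.f_self, G.f_self]⟩
  obtain ⟨i, hi⟩ := exists_meet (G.M g e) (G.M g' e')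
  have h1 : (i, ev (G.M g e) i) ∉ G.R := by
    intro h1
    obtain ⟨k, β, h2⟩ := (G.memR _).1 h1
    have h3 : on (G.b k β) (G.M g e) := by rw [h2]; rfl
    have h4 : on (G.b k β) (G.M g' e') := by rw [h2]; exact hi.symm
    exact h ((G.eq_of_b_on h3).symm.trans (G.eq_of_b_on h4))
  exact ⟨i, by rw [G.f_M h1, G.f_M (hi ▸ h1), hi]⟩

/-- An uncovered special line through an uncovered point of `L` is covered off `L`. -/
lemma exists_off {S : Finset (Pt F)} (hS : ∀ l, G.edge l → ∃ x ∈ S, on x l) {L : Gl F} {g j β}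
    (h1 : inc (G.bs g j β) L) (h2 : G.bs g j β ∉ S) (h3 : Sum.inl (G.sp g j β) ≠ L) :
    ∃ x ∈ S, ¬ inc x L ∧ on x (G.sp g j β) := by
  obtain ⟨x, hx, e⟩ := hS _ (Or.inr ⟨g, j, β, rfl⟩)
  exact ⟨x, hx, fun h => h3 (gl_unique (x := x) (y := G.bs g j β) (L := .inl _)
    (fun e' => h2 (e' ▸ hx)) e (G.on_sp g j β) h h1), e⟩

lemma count_nonM {S : Finset (Pt F)} (hS : ∀ l, G.edge l → ∃ x ∈ S, on x l) {L : Gl F}
    (hL : ∀ g e, L ≠ .inl (G.M g e)) :
    9 * #(G.R.filter fun x => inc x L ∧ x ∉ S) ≤ 8 * #(S.filter fun x => ¬ inc x L) := by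
  obtain ⟨T, hT⟩ : ∃ T : Finset ((Option F × Fin 11) × Kp), T = univ.filter fun t =>
    valid t.2 t.1.2 ∧ inc (G.b t.1.1 t.2) L ∧ G.b t.1.1 t.2 ∉ S ∧
      Sum.inl (G.sp t.1.1 t.1.2 t.2) ≠ L := ⟨_, rfl⟩
  have hm : ∀ g j β, ((g, j), β) ∈ T ↔ valid β j ∧ inc (G.b g β) L ∧ G.b g β ∉ S ∧
      Sum.inl (G.sp g j β) ≠ L := fun g j β => by simp [hT]
  refine le_trans (b := #T) ?_ ?_
  · refine mul_card_image_le_card_of_maps_to (f := fun t => G.b t.1.1 t.2) ?_ 9 ?_
    · rintro ⟨⟨g, j⟩, β⟩ ht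
      exact mf.2 ⟨G.b_mem _ _, ((hm g j β).1 ht).2.1, ((hm g j β).1 ht).2.2.1⟩
    · intro z hz
      obtain ⟨h1, h2, h3⟩ := mf.1 hz
      obtain ⟨g, β, rfl⟩ := (G.memR z).1 h1
      have e1 := Pre.card_valid β
      have e2 : #(univ.filter fun j => valid β j ∧ Sum.inl (G.sp g j β) = L) ≤ 1 := by
        refine card_le_one.2 fun j hj j' hj' => ?_
        by_contra hne
        exact G.nd g j j' β β hne
          (by rw [G.bs_valid (mf.1 hj).2.1, G.bs_valid (mf.1 hj').2.1])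
          (Sum.inl_injective ((mf.1 hj).2.2.trans (mf.1 hj').2.2.symm))
      have e3 : #(univ.filter fun j => valid β j ∧ Sum.inl (G.sp g j β) ≠ L) ≤
          #(T.filter fun t => G.b t.1.1 t.2 = G.b g β) := by
        refine card_le_card_of_injOn (fun j => ((g, j), β)) (fun j hj => ?_) ?_
        · exact mf.2 ⟨(hm g j β).2 ⟨(mf.1 hj).2.1, h2, h3, (mf.1 hj).2.2⟩, rfl⟩
        · intro j _ j' _ h; simpa using h
      have e4 : (univ.filter fun j => valid β j) ⊆
          (univ.filter fun j => valid β j ∧ Sum.inl (G.sp g j β) = L) ∪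
          (univ.filter fun j => valid β j ∧ Sum.inl (G.sp g j β) ≠ L) := by
        intro j hj
        by_cases h : Sum.inl (G.sp g j β) = L
        · exact mem_union_left _ (mf.2 ⟨mem_univ _, (mf.1 hj).2, h⟩)
        · exact mem_union_right _ (mf.2 ⟨mem_univ _, (mf.1 hj).2, h⟩)
      have e5 := (card_le_card e4).trans (card_union_le _ _)
      omega
  · have e1 : T ⊆ (S.filter fun x => ¬ inc x L).biUnion fun x =>
        T.filter fun t => on x (G.sp t.1.1 t.1.2 t.2) := by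
      rintro ⟨⟨g, j⟩, β⟩ ht
      obtain ⟨h1, h2, h3, h4⟩ := (hm g j β).1 ht
      obtain ⟨x, hx, e1, e2⟩ := G.exists_off hS (G.bs_valid h1 ▸ h2) (G.bs_valid h1 ▸ h3) h4
      exact mem_biUnion.2 ⟨x, mf.2 ⟨hx, e1⟩, mf.2 ⟨ht, e2⟩⟩
    rw [mul_comm]
    refine (card_le_card e1).trans (card_biUnion_le_card_mul _ _ _ fun x hx => ?_)
    refine le_trans (card_le_mul_card_image_of_maps_to (f := Prod.fst) ?_ 2 ?_)
      (Nat.mul_le_mul_left 2 (G.gen L x (mf.1 hx).2))
    · rintro ⟨⟨g, j⟩, β⟩ ht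
      obtain ⟨h1, h2, -⟩ := (hm g j β).1 (mf.1 ht).1
      exact mf.2 ⟨mem_univ _, β, G.bs_valid h1 ▸ h2, (mf.1 ht).2⟩
    · rintro ⟨g, j⟩ -
      refine le_trans (card_le_card_of_injOn (t := (univ : Finset Bool))
        (fun t => (G.b_on t.1.1 t.2).choose) (fun _ _ => mem_univ _) ?_) (by simp)
      rintro ⟨⟨g1, j1⟩, β1⟩ h1 ⟨⟨g2, j2⟩, β2⟩ h2 h
      obtain ⟨h3, h4⟩ := mf.1 (mem_coe.1 h1)
      obtain ⟨h5, h6⟩ := mf.1 (mem_coe.1 h2)
      obtain ⟨rfl, rfl⟩ := Prod.ext_iff.1 (h4.trans h6.symm)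
      by_contra hne
      have e1 := (G.b_on g1 β1).choose_spec
      have e2 := (G.b_on g1 β2).choose_spec
      simp only at h
      rw [← h] at e2
      exact hL _ _ (gl_unique (fun e => hne (by rw [(G.b_inj e).2]))
        ((hm _ _ _).1 (mf.1 h3).1).2.1 ((hm _ _ _).1 (mf.1 h5).1).2.1 (L' := .inl _) e1 e2)

lemma count_M {S : Finset (Pt F)} (hS : ∀ l, G.edge l → ∃ x ∈ S, on x l) (g : Option F) (e : Bool)
    (h : #(S.filter fun x => ¬ on x (G.M g e)) + 1 ≤
      #(G.R.filter fun x => on x (G.M g e) ∧ x ∉ S)) (j : Fin 11) : G.sh g e j ∈ S := by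
  obtain ⟨B, hB⟩ : ∃ B : Finset Kp, B = univ.filter fun β =>
    on (G.b g β) (G.M g e) ∧ G.b g β ∉ S := ⟨_, rfl⟩
  have hBm : ∀ β, β ∈ B ↔ on (G.b g β) (G.M g e) ∧ G.b g β ∉ S := fun β => by simp [hB]
  obtain ⟨O, hO⟩ : ∃ O, O = S.filter fun x => ¬ on x (G.M g e) := ⟨_, rfl⟩
  have hOm : ∀ x, x ∈ O ↔ x ∈ S ∧ ¬ on x (G.M g e) := fun β => by simp [hO]
  have hBc : #O + 1 ≤ #B := by
    rw [hO]
    refine h.trans (le_trans (card_le_card fun x hx => ?_) (card_image_le (f := G.b g)))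
    obtain ⟨h1, h2, h3⟩ := mf.1 hx
    obtain ⟨g', β, rfl⟩ := (G.memR x).1 h1
    obtain rfl := G.eq_of_b_on h2
    exact mem_image.2 ⟨β, (hBm β).2 ⟨h2, h3⟩, rfl⟩
  have hoff : ∀ β j, β ∈ B → valid β j → ∃ x ∈ O, on x (G.sp g j β) := by
    intro β j hβ hv
    obtain ⟨x, hx, e1, e2⟩ := G.exists_off hS (L := .inl (G.M g e)) (g := g) (j := j) (β := β)
      (G.bs_valid hv ▸ ((hBm β).1 hβ).1) (G.bs_valid hv ▸ ((hBm β).1 hβ).2)
      (fun h => G.sp_ne_M g j β e (Sum.inl_injective h))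
    exact ⟨x, (hOm x).2 ⟨hx, e1⟩, e2⟩
  choose! c hc using hoff
  have hinj : ∀ j β β', G.sh g e j ∉ S → β ∈ B → β' ∈ B → valid β j → valid β' j →
      c β j = c β' j → β = β' := by
    intro j β β' hj hβ hβ' hv hv' hcc
    by_contra hne
    have e1 : on (G.bs g j β) (G.M g e) := G.bs_valid hv ▸ ((hBm β).1 hβ).1
    have e2 : on (G.bs g j β') (G.M g e) := G.bs_valid hv' ▸ ((hBm β').1 hβ').1
    have e3 : G.sp g j β = G.sp g j β' :=
      line_unique (x := c β j) (y := G.sh g e j)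
        (fun h => hj (h ▸ ((hOm _).1 (hc β j hβ hv).1).1)) (hc β j hβ hv).2 (G.sh_on_sp e1)
        (hcc ▸ (hc β' j hβ' hv').2) (G.sh_on_sp e2)
    refine G.sp_ne_M g j β e (line_unique (x := G.bs g j β) (y := G.bs g j β') ?_ (G.on_sp _ _ _)
      (e3 ▸ G.on_sp _ _ _) e1 e2)
    rw [G.bs_valid hv, G.bs_valid hv']
    exact fun h => hne (G.b_inj h).2
  by_contra hj
  have hnone : ∀ j', G.sh g e j' ∉ S := by
    intro j' hj'
    have hne : j ≠ j' := fun h => hj (h ▸ hj')
    have e1 : #(B.filter fun β => valid β j) ≤ #(O.erase (G.sh g e j')) := by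
      refine card_le_card_of_injOn (fun β => c β j) (fun β hβ => ?_) fun β hβ β' hβ' h =>
        hinj j β β' hj (mf.1 hβ).1 (mf.1 hβ').1 (mf.1 hβ).2 (mf.1 hβ').2 h
      obtain ⟨h1, h2⟩ := mf.1 (mem_coe.1 hβ)
      refine mem_erase.2 ⟨fun h3 => ?_, (hc β j h1 h2).1⟩
      have h4 := (hc β j h1 h2).2
      simp only at h3
      rw [h3] at h4
      have h5 := ((hBm β).1 h1).1
      have h6 : G.sh g e j' ≠ G.b g β := fun h => G.sh_not_on g e j' e (h ▸ h5)
      have h7 : on (G.b g β) (G.sp g j β) := G.bs_valid h2 ▸ G.on_sp g j β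
      by_cases hv : valid β j'
      · exact G.nd g j j' β β hne (by rw [G.bs_valid h2, G.bs_valid hv])
          (line_unique h6 h4 h7 (G.sh_on_sp (G.bs_valid hv ▸ h5))
            (G.bs_valid hv ▸ G.on_sp g j' β))
      · simp only [valid, not_forall, not_not] at hv
        obtain ⟨e', rfl⟩ := hv
        obtain ⟨-, rfl⟩ := G.u_on _ _ _ _ _ h5
        exact h6 (eq_of_on_of_part h4 h7 rfl)
    have e2 : #(B.filter fun β => ¬ valid β j) ≤ 1 := by
      refine card_le_one.2 fun β hβ β' hβ' => ?_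
      have e1 := (mf.1 hβ).2
      have e2 := (mf.1 hβ').2
      simp only [valid, not_forall, not_not] at e1 e2
      obtain ⟨e1, rfl⟩ := e1
      obtain ⟨e2, rfl⟩ := e2
      rw [(G.u_on _ _ _ _ _ ((hBm _).1 (mf.1 hβ).1).1).2,
        (G.u_on _ _ _ _ _ ((hBm _).1 (mf.1 hβ').1).1).2]
    have e3 := card_filter_add_card_filter_not (s := B) fun β => valid β j
    have e4 := card_erase_add_one ((hOm _).2 ⟨hj', G.sh_not_on g e j' e⟩)
    omega
  obtain ⟨T, hT⟩ : ∃ T : Finset (Kp × Fin 11), T = univ.filter fun t =>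
    t.1 ∈ B ∧ valid t.1 t.2 := ⟨_, rfl⟩
  have hm : ∀ t, t ∈ T ↔ t.1 ∈ B ∧ valid t.1 t.2 := fun t => by simp [hT]
  have e1 : 10 * #B ≤ #T := by
    refine mul_card_image_le_card_of_maps_to (f := Prod.fst) (fun t ht => ((hm t).1 ht).1) 10
      fun β hβ => (Pre.card_valid β).trans ?_
    refine card_le_card_of_injOn (fun j => (β, j)) (fun j hj => ?_) ?_
    · exact mf.2 ⟨(hm _).2 ⟨hβ, (mf.1 hj).2⟩, rfl⟩
    · intro j _ j' _ h; simpa using h
  have e2 : #T ≤ 4 * #O := by
    refine card_le_mul_card_image_of_maps_to (f := fun t => c t.1 t.2)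
      (fun t ht => (hc _ _ ((hm t).1 ht).1 ((hm t).1 ht).2).1) 4 fun x hx => ?_
    refine le_trans ?_ (G.gen (.inl (G.M g e)) x ((hOm x).1 hx).2)
    refine card_le_card_of_injOn (fun t => (g, t.2)) (fun t ht => ?_) ?_
    · obtain ⟨h1, h2⟩ := mf.1 (mem_coe.1 ht)
      obtain ⟨h3, h4⟩ := (hm t).1 h1
      exact mf.2 ⟨mem_univ _, t.1, G.bs_valid h4 ▸ ((hBm _).1 h3).1, h2 ▸ (hc _ _ h3 h4).2⟩
    · rintro ⟨β, j1⟩ h1 ⟨β', j2⟩ h2 h
      obtain rfl : j1 = j2 := by simpa using h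
      obtain ⟨h3, h4⟩ := mf.1 (mem_coe.1 h1)
      obtain ⟨h5, h6⟩ := mf.1 (mem_coe.1 h2)
      rw [hinj j1 β β' (hnone j1) ((hm _).1 h3).1 ((hm _).1 h5).1 ((hm _).1 h3).2 ((hm _).1 h5).2
        (h4.trans h6.symm)]
  omega

theorem main (hstab : ∀ S : Finset (Pt F), #S ≤ Fintype.card F →
      (∀ l, kept G.R l → ∃ x ∈ S, on x l) → ∃ L : Gl F, ∀ x, inc x L → x ∉ G.R → x ∈ S) :
    ∃ E : Finset (Option F → Option F), (∀ f ∈ E, ∀ g ∈ E, ∃ i, f i = g i) ∧
      ∀ S : Finset (Option F × Option F), (∀ f ∈ E, ∃ i, (i, f i) ∈ S) →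
        Fintype.card F + 1 ≤ #S := by
  refine ⟨univ.filter fun φ => (∃ l, G.edge l ∧ φ = fun i => some (ev l i)) ∨
    ∃ g e, φ = G.f g e, ?_, ?_⟩
  · intro φ hφ ψ hψ
    rcases (mf.1 hφ).2 with ⟨l, hl, rfl⟩ | ⟨g, e, rfl⟩ <;>
      rcases (mf.1 hψ).2 with ⟨l', hl', rfl⟩ | ⟨g', e', rfl⟩
    · obtain ⟨i, hi⟩ := exists_meet l l'
      exact ⟨i, congrArg some hi⟩
    · exact G.line_meets_f hl g' e'
    · obtain ⟨i, hi⟩ := G.line_meets_f hl' g e
      exact ⟨i, hi.symm⟩
    · exact G.f_meets_f _ _ _ _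
  intro S' hS'
  by_contra hlt
  obtain ⟨S, hS⟩ : ∃ S : Finset (Pt F), S = univ.filter fun x => (x.1, some x.2) ∈ S' := ⟨_, rfl⟩
  have hSm : ∀ x, x ∈ S ↔ (x.1, some x.2) ∈ S' := fun x => by simp [hS]
  have hinj : Function.Injective fun x : Pt F => (x.1, some x.2) := by
    intro x y h
    simp only [Prod.mk.injEq, Option.some.injEq] at h
    exact Prod.ext h.1 h.2
  have hSc : #S ≤ Fintype.card F := by
    have : #S ≤ #S' := card_le_card_of_injOn _ (fun x hx => (hSm x).1 hx) hinj.injOn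
    omega
  have big : ∀ T ⊆ S, Fintype.card F ≤ #T → ∀ g e, ∃ x ∈ T, G.f g e x.1 = some x.2 := by
    intro T hT hc g e
    obtain ⟨i, hi⟩ := hS' (G.f g e) (mf.2 ⟨mem_univ _, Or.inr ⟨g, e, rfl⟩⟩)
    have h1 : T.image (fun x : Pt F => (x.1, some x.2)) = S' := by
      refine eq_of_subset_of_card_le (fun v hv => ?_) ?_
      · obtain ⟨x, hx, rfl⟩ := mem_image.1 hv
        exact (hSm x).1 (hT hx)
      · rw [card_image_of_injective _ hinj]; omega
    rw [← h1] at hi
    obtain ⟨x, hx, h2⟩ := mem_image.1 hi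
    obtain ⟨rfl, h3⟩ := Prod.ext_iff.1 h2
    exact ⟨x, hx, h3.symm⟩
  have hcov : ∀ l, G.edge l → ∃ x ∈ S, on x l := by
    intro l hl
    obtain ⟨i, hi⟩ := hS' _ (mf.2 ⟨mem_univ _, Or.inl ⟨l, hl, rfl⟩⟩)
    exact ⟨(i, ev l i), (hSm _).2 hi, rfl⟩
  obtain ⟨L, hL⟩ := hstab S hSc fun l hl => hcov l (Or.inl hl)
  have hcount : #(univ.filter fun x => inc x L) + #(S.filter fun x => ¬ inc x L) ≤
      Fintype.card F + #(G.R.filter fun x => inc x L ∧ x ∉ S) := by
    have e1 : (univ.filter fun x => inc x L) ⊆ (S.filter fun x => inc x L) ∪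
        G.R.filter fun x => inc x L ∧ x ∉ S := by
      intro x hx
      by_cases h : x ∈ S
      · exact mem_union_left _ (mf.2 ⟨h, (mf.1 hx).2⟩)
      · exact mem_union_right _ (mf.2 ⟨by_contra fun h' => h (hL x (mf.1 hx).2 h'),
          (mf.1 hx).2, h⟩)
    have e2 := (card_le_card e1).trans (card_union_le _ _)
    have e3 := card_filter_add_card_filter_not (s := S) fun x => inc x L
    omega
  by_cases hM : ∀ g e, L ≠ .inl (G.M g e)
  · have h1 := G.count_nonM hcov hM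
    rcases L with l | i
    · have h2 : #(univ.filter fun x : Pt F => inc x (.inl l)) = Fintype.card F + 1 := by
        exact card_line l
      omega
    · have h2 : #(univ.filter fun x : Pt F => inc x (.inr i)) = Fintype.card F := by
        convert card_part i; rfl
      have h3 : #(G.R.filter fun x => inc x (.inr i) ∧ x ∉ S) = 0 := by omega
      obtain ⟨x, hx, h4⟩ := big (univ.filter fun x : Pt F => inc x (.inr i)) (fun x hx => by
        by_contra h
        have : x ∈ G.R.filter fun x => inc x (.inr i) ∧ x ∉ S :=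
          mf.2 ⟨by_contra fun h' => h (hL x (mf.1 hx).2 h'), (mf.1 hx).2, h⟩
        rw [card_eq_zero.1 h3] at this
        simp at this) h2.ge i false
      rw [show x.1 = i from (mf.1 hx).2, G.f_self] at h4
      simp at h4
  · push Not at hM
    obtain ⟨g, e, rfl⟩ := hM
    have h2 : #(univ.filter fun x : Pt F => inc x (.inl (G.M g e))) = Fintype.card F + 1 := by
      exact card_line (G.M g e)
    have h3 := G.count_M hcov g e (by
      have : #(S.filter fun x => ¬ inc x (.inl (G.M g e))) + 1 ≤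
        #(G.R.filter fun x => inc x (.inl (G.M g e)) ∧ x ∉ S) := by omega
      exact this)
    obtain ⟨x, hx, h4⟩ := big ((univ.filter fun x : Pt F => on x (G.M g e) ∧ x ∉ G.R) ∪
      univ.image (G.sh g e)) (by
        intro x hx
        rcases mem_union.1 hx with h | h
        · exact hL x (mf.1 h).2.1 (mf.1 h).2.2
        · obtain ⟨j, -, rfl⟩ := mem_image.1 h
          exact h3 j) (by
        rw [card_union_of_disjoint, card_image_of_injective]
        · have e1 : (univ.filter fun x : Pt F => inc x (.inl (G.M g e))) ⊆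
              (univ.filter fun x : Pt F => on x (G.M g e) ∧ x ∉ G.R) ∪
              insert (G.b g none) (univ.image fun c => G.b g (some (e, c))) := by
            intro x hx
            by_cases h : x ∈ G.R
            · obtain ⟨g', β, rfl⟩ := (G.memR x).1 h
              obtain rfl := G.eq_of_b_on (mf.1 hx).2
              refine mem_union_right _ ?_
              rcases β with _ | ⟨e', c⟩
              · exact mem_insert_self _ _
              · obtain ⟨-, rfl⟩ := G.u_on _ _ _ _ _ (mf.1 hx).2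
                exact mem_insert_of_mem (mem_image.2 ⟨c, mem_univ _, rfl⟩)
            · exact mem_union_left _ (mf.2 ⟨mem_univ _, (mf.1 hx).2, h⟩)
          have e2 := (card_le_card e1).trans (card_union_le _ _)
          have e3 := card_insert_le (G.b g none) (univ.image fun c => G.b g (some (e, c)))
          have e4 := card_image_le (s := univ) (f := fun c => G.b g (some (e, c)))
          omega
        · exact fun j j' h => (G.part_inj g e j e j' (congrArg Prod.fst h :)).2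
        · refine disjoint_left.2 fun x h1 h2 => ?_
          obtain ⟨j, -, rfl⟩ := mem_image.1 h2
          exact G.sh_not_on g e j e (mf.1 h1).2.1) g (!e)
    rcases G.f_cases g (!e) x.1 with h | ⟨j, h⟩ | ⟨h, h'⟩
    · rw [h] at h4; simp at h4
    · rw [h4] at h
      obtain rfl : x = G.sh g (!e) j := hinj h
      rcases mem_union.1 hx with h | h
      · exact G.sh_not_on _ _ _ _ (mf.1 h).2.1
      · obtain ⟨j', -, h⟩ := mem_image.1 h
        have := (G.part_inj g e j' (!e) j (congrArg Prod.fst h :)).1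
        simp at this
    · have h5 : on x (G.M g (!e)) := Option.some_injective _ (h'.symm.trans h4)
      rcases mem_union.1 hx with h6 | h6
      · have h7 : G.M g e = G.M g (!e) :=
          line_ext (j := (G.b g none).1) (by rwa [G.part_w]) ((mf.1 h6).2.1.trans h5.symm)
            ((G.on_w g e).trans (G.on_w g (!e)).symm)
        have := (G.u_on _ _ _ _ _ (h7 ▸ G.on_u g e 0)).2
        simp at this
      · obtain ⟨j', -, rfl⟩ := mem_image.1 h6
        exact G.sh_not_on _ _ _ _ h5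

end Gad

end Crest.Agent.R34
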