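import Mathlib

/-! The truncated projective plane over a field `F`: parts `Option F`, points `Option F × F`,
lines `(m, b)`, generalized lines (lines or parts). -/

set_option linter.unusedSectionVars false

open Finset

namespace Crest.Agent.R34

abbrev Pt (F : Type*) := Option F × F
abbrev Ln (F : Type*) := F × F
abbrev Gl (F : Type*) := (F × F) ⊕ Option F

variable {F : Type*} [Field F]

/-- The value of the line `y = m x + b` in a part (`none` is the part of slopes). -/
def ev (l : Ln F) : Option F → F
  | none => l.1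
  | some c => l.1 * c + l.2

def on (x : Pt F) (l : Ln F) : Prop := ev l x.1 = x.2

def inc (x : Pt F) : Gl F → Prop
  | .inl l => on x l
  | .inr i => x.1 = i

instance [DecidableEq F] (x : Pt F) (l : Ln F) : Decidable (on x l) :=
  inferInstanceAs (Decidable (ev l x.1 = x.2))

instance [DecidableEq F] (x : Pt F) : ∀ L : Gl F, Decidable (inc x L)
  | .inl l => inferInstanceAs (Decidable (on x l))
  | .inr i => inferInstanceAs (Decidable (x.1 = i))

@[simp] lemma inc_inl (x : Pt F) (l : Ln F) : inc x (.inl l) ↔ on x l := Iff.rfl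
@[simp] lemma inc_inr (x : Pt F) (i : Option F) : inc x (.inr i) ↔ x.1 = i := Iff.rfl

lemma on_ev (l : Ln F) (i : Option F) : on (i, ev l i) l := rfl

lemma eq_of_on {x : Pt F} {l : Ln F} (h : on x l) : x = (x.1, ev l x.1) :=
  Prod.ext rfl h.symm

lemma eq_of_on_of_part {x y : Pt F} {l : Ln F} (hx : on x l) (hy : on y l) (h : x.1 = y.1) :
    x = y := by
  rw [eq_of_on hx, eq_of_on hy, h]

lemma line_ext {l l' : Ln F} {i j : Option F} (hij : i ≠ j) (hi : ev l i = ev l' i)
    (hj : ev l j = ev l' j) : l = l' := by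
  obtain ⟨m, b⟩ := l
  obtain ⟨m', b'⟩ := l'
  rcases i with _ | i <;> rcases j with _ | j <;> simp only [ev] at hi hj
  · exact absurd rfl hij
  · subst hi; simpa using hj
  · subst hj; simpa using hi
  · have hne : i - j ≠ 0 := sub_ne_zero.2 fun h => hij (by rw [h])
    have h1 : (m - m') * (i - j) = 0 := by linear_combination hi - hj
    have h2 : m = m' := sub_eq_zero.1 ((mul_eq_zero.1 h1).resolve_right hne)
    subst h2
    simpa using hi

lemma line_unique {x y : Pt F} {l l' : Ln F} (hxy : x ≠ y) (hx : on x l) (hy : on y l)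
    (hx' : on x l') (hy' : on y l') : l = l' :=
  line_ext (fun h => hxy (eq_of_on_of_part hx hy h)) (hx.trans hx'.symm) (hy.trans hy'.symm)

lemma gl_unique {x y : Pt F} {L L' : Gl F} (hxy : x ≠ y) (hx : inc x L) (hy : inc y L)
    (hx' : inc x L') (hy' : inc y L') : L = L' := by
  rcases L with l | i <;> rcases L' with l' | i'
  · rw [line_unique hxy hx hy hx' hy']
  · exact absurd (eq_of_on_of_part hx hy (hx'.trans hy'.symm)) hxy
  · exact absurd (eq_of_on_of_part hx' hy' (hx.trans hy.symm)) hxy
  · rw [← (show x.1 = i from hx), ← (show x.1 = i' from hx')]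

lemma exists_join {x y : Pt F} (h : x.1 ≠ y.1) : ∃ l, on x l ∧ on y l := by
  obtain ⟨i, s⟩ := x
  obtain ⟨j, t⟩ := y
  rcases i with _ | i <;> rcases j with _ | j
  · exact absurd rfl h
  · exact ⟨(s, t - s * j), rfl, by simp [on, ev]⟩
  · exact ⟨(t, s - t * i), by simp [on, ev], rfl⟩
  · have hne : i - j ≠ 0 := sub_ne_zero.2 fun e => h (by rw [e])
    refine ⟨((s - t) / (i - j), s - (s - t) / (i - j) * i), by simp [on, ev], ?_⟩
    simp only [on, ev]
    field_simp
    ring

open Classical in
/-- The line through two points of different parts. -/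
noncomputable def join (x y : Pt F) : Ln F :=
  if h : x.1 ≠ y.1 then (exists_join h).choose else (0, 0)

lemma on_join_left {x y : Pt F} (h : x.1 ≠ y.1) : on x (join x y) := by
  rw [join, dif_pos h]; exact (exists_join h).choose_spec.1

lemma on_join_right {x y : Pt F} (h : x.1 ≠ y.1) : on y (join x y) := by
  rw [join, dif_pos h]; exact (exists_join h).choose_spec.2

lemma exists_meet (l l' : Ln F) : ∃ i, ev l i = ev l' i := by
  by_cases h : l.1 = l'.1
  · exact ⟨none, h⟩
  · have hne : l.1 - l'.1 ≠ 0 := sub_ne_zero.2 h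
    refine ⟨some ((l'.2 - l.2) / (l.1 - l'.1)), ?_⟩
    simp only [ev]
    field_simp
    ring

variable [Fintype F] [DecidableEq F]

lemma card_pencil (x : Pt F) : #(univ.filter fun l : Ln F => on x l) = Fintype.card F := by
  obtain ⟨i, hi⟩ : ∃ i : Option F, x.1 ≠ i := by
    rcases x.1 with _ | c
    · exact ⟨some 0, by simp⟩
    · exact ⟨none, by simp⟩
  rw [← Finset.card_univ (α := F)]
  refine Finset.card_bij (fun l _ => ev l i) (fun _ _ => mem_univ _) ?_ ?_
  · intro l hl l' hl' h
    exact line_ext hi (((mem_filter.1 hl).2).trans ((mem_filter.1 hl').2).symm) h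
  · intro t _
    obtain ⟨l, h1, h2⟩ := exists_join (x := x) (y := (i, t)) hi
    exact ⟨l, mem_filter.2 ⟨mem_univ _, h1⟩, h2⟩

lemma card_part (i : Option F) : #(univ.filter fun x : Pt F => x.1 = i) = Fintype.card F := by
  rw [← Finset.card_univ (α := F)]
  refine Finset.card_bij (fun x _ => x.2) (fun _ _ => mem_univ _) ?_ ?_
  · intro x hx y hy h
    exact Prod.ext ((mem_filter.1 hx).2.trans (mem_filter.1 hy).2.symm) h
  · intro t _
    exact ⟨(i, t), mem_filter.2 ⟨mem_univ _, rfl⟩, rfl⟩

lemma card_line (l : Ln F) : #(univ.filter fun x : Pt F => on x l) = Fintype.card F + 1 := by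
  rw [← Fintype.card_option, ← Finset.card_univ]
  refine Finset.card_bij (fun x _ => x.1) (fun _ _ => mem_univ _) ?_ ?_
  · intro x hx y hy h
    exact eq_of_on_of_part (mem_filter.1 hx).2 (mem_filter.1 hy).2 h
  · intro i _
    exact ⟨(i, ev l i), mem_filter.2 ⟨mem_univ _, rfl⟩, rfl⟩

end Crest.Agent.R34
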