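import Crest.Agent.R34.SumProd
import Crest.Agent.R34.Geo

/-! An incidence bound in the truncated plane over a field without large subfields. -/

set_option autoImplicit false
set_option linter.unusedSectionVars false

open Finset
open scoped Pointwise

namespace Crest.Agent.R34

lemma cube_sum_card_le {ι α : Type*} [DecidableEq α] (Δ : Finset ι) (U : Finset α)
    (P : ι → Finset α) (hP : ∀ d ∈ Δ, P d ⊆ U) :
    (∑ d ∈ Δ, (#(P d) : ℝ)) ^ 3 ≤
      #U ^ 2 * ∑ a ∈ Δ, ∑ b ∈ Δ, ∑ c ∈ Δ, (#(P c ∩ (P a ∩ P b)) : ℝ) := by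
  have h1 : ∑ d ∈ Δ, (#(P d) : ℝ) = ∑ u ∈ U, ∑ d ∈ Δ, if u ∈ P d then (1 : ℝ) else 0 := by
    rw [Finset.sum_comm]
    refine sum_congr rfl fun d hd => ?_
    rw [← card_filter_real, filter_mem_eq_inter, inter_eq_right.2 (hP d hd)]
  have h0 : ∀ f : ι → ℝ, (∑ d ∈ Δ, f d) ^ 3 = ∑ a ∈ Δ, ∑ b ∈ Δ, ∑ c ∈ Δ, f a * f b * f c := by
    intro f
    rw [pow_succ, sq, sum_mul_sum, sum_mul]
    refine sum_congr rfl fun a _ => ?_
    rw [sum_mul_sum]
  have h2 : ∑ a ∈ Δ, ∑ b ∈ Δ, ∑ c ∈ Δ, (#(P c ∩ (P a ∩ P b)) : ℝ) =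
      ∑ u ∈ U, (∑ d ∈ Δ, if u ∈ P d then (1 : ℝ) else 0) ^ 3 := by
    simp only [h0]
    rw [Finset.sum_comm (s := U)]
    refine sum_congr rfl fun a _ => ?_
    rw [Finset.sum_comm (s := U)]
    refine sum_congr rfl fun b _ => ?_
    rw [Finset.sum_comm (s := U)]
    refine sum_congr rfl fun c hc => ?_
    rw [← inter_eq_right.2 (inter_subset_left.trans (hP c hc)), ← filter_mem_eq_inter,
      card_filter_real]
    refine sum_congr rfl fun u _ => ?_
    by_cases x : u ∈ P a <;> by_cases y : u ∈ P b <;> by_cases z : u ∈ P c <;> simp [x, y, z]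
  rw [h1, h2]
  exact pow_sum_le_card_mul_sum_pow (fun u _ => sum_nonneg fun d _ => by positivity) 2

variable {F : Type*} [Field F] [Fintype F] [DecidableEq F]

/-- the point of `L` in the part `some c` -/
def pt (L : Ln F) (c : F) : Pt F := (some c, ev L (some c))

/-- projective coordinates sending `L` to infinity -/
def su (L : Ln F) (y : Pt F) : F × F :=
  match y.1 with
  | none => ((y.2 - ev L none)⁻¹, 0)
  | some x => (x / (y.2 - ev L (some x)), 1 / (y.2 - ev L (some x)))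

/-- projection from `pt L c` -/
def psi (L : Ln F) (c : F) (y : Pt F) : F := (su L y).1 - c * (su L y).2

lemma psi_eq {L l : Ln F} {c : F} {y : Pt F} (h0 : ¬ on y L) (h1 : on y l) (h2 : on (pt L c) l) :
    psi L c y = (l.1 - L.1)⁻¹ := by
  obtain ⟨i, t⟩ := y
  rcases i with _ | x
  · simp only [on, ev] at h1
    simp [psi, su, ev, h1]
  · simp only [on, ev, pt] at h0 h1 h2
    have h3 : t - (L.1 * x + L.2) ≠ 0 := sub_ne_zero.2 (Ne.symm h0)
    refine eq_inv_of_mul_eq_one_left ?_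
    simp only [psi, su, ev]
    rw [mul_one_div, ← sub_div, div_mul_eq_mul_div, div_eq_one_iff_eq h3]
    linear_combination h1 - h2

lemma su_inj {L : Ln F} {y y' : Pt F} (h0 : ¬ on y L) (h1 : ¬ on y' L) (h : su L y = su L y') :
    y = y' := by
  obtain ⟨i, t⟩ := y
  obtain ⟨i', t'⟩ := y'
  have a0 : t - ev L i ≠ 0 := sub_ne_zero.2 (Ne.symm h0)
  have a1 : t' - ev L i' ≠ 0 := sub_ne_zero.2 (Ne.symm h1)
  rcases i with _ | x <;> rcases i' with _ | x' <;> simp only [su, Prod.mk.injEq] at h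
  · rw [inv_inj, sub_left_inj] at h
    rw [h.1]
  · exact absurd h.2.symm (one_div_ne_zero a1)
  · exact absurd h.2 (one_div_ne_zero a0)
  · have e := h.2
    rw [one_div, one_div, inv_inj] at e
    have e2 := h.1
    rw [e, div_left_inj' a1] at e2
    subst e2
    rw [sub_left_inj] at e
    rw [e]

section
variable (S : Finset (Pt F)) (r K : ℝ)

/-- rich lines through a point -/
noncomputable def rl (x : Pt F) : Finset (Ln F) :=
  univ.filter fun l => on x l ∧ r / K + 1 ≤ (#(S.filter fun x => on x l) : ℝ)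

/-- neighbours of a point -/
noncomputable def nb (x : Pt F) : Finset (Pt F) :=
  S.filter fun y => x ≠ y ∧ ∃ l : Ln F, on x l ∧ on y l ∧
    r / K + 1 ≤ (#(S.filter fun x => on x l) : ℝ)

variable {S r K}

lemma card_rl (hr : 0 < r) (hK : 0 < K) (hS : (#S : ℝ) ≤ r ^ 2) (x : Pt F) :
    (#(rl S r K x) : ℝ) ≤ r * K := by
  have key := card_nsmul_le_card_nsmul (R := ℝ) (s := rl S r K x) (t := S) (m := r / K) (n := 1)
    (fun l y => on y l ∧ y ≠ x) ?_ ?_
  · rw [nsmul_eq_mul, nsmul_eq_mul, mul_one, mul_div_assoc', div_le_iff₀ hK] at key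
    refine le_of_mul_le_mul_right (key.trans ?_) hr
    nlinarith
  · intro l hl
    have h1 := (mem_filter.1 hl).2.2
    have h2 : S.bipartiteAbove (fun l y => on y l ∧ y ≠ x) l = (S.filter fun y => on y l).erase x := by
      ext y
      simp only [mem_bipartiteAbove, mem_erase, mem_filter]
      tauto
    have h3 : (#(S.filter fun y => on y l) : ℝ) ≤ #((S.filter fun y => on y l).erase x) + 1 := by
      exact_mod_cast Nat.le_add_of_sub_le pred_card_le_card_erase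
    rw [h2]
    linarith
  · intro y _
    rw [Nat.cast_le_one, card_le_one]
    intro l hl l' hl'
    obtain ⟨a1, a2, a3⟩ := (mem_bipartiteBelow _).1 hl
    obtain ⟨a4, a5, -⟩ := (mem_bipartiteBelow _).1 hl'
    exact line_unique a3 a2 (mem_filter.1 a1).2.1 a5 (mem_filter.1 a4).2.1

lemma card_nb (hcol : ∀ l : Ln F, (#(S.filter fun x => on x l) : ℝ) ≤ r * K) (x : Pt F) :
    (#(nb S r K x) : ℝ) ≤ #(rl S r K x) * (r * K) := by
  have key := card_nsmul_le_card_nsmul (R := ℝ) (s := nb S r K x) (t := rl S r K x) (m := 1)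
    (n := r * K) (fun y l => on y l) ?_ ?_
  · simpa using key
  · intro y hy
    obtain ⟨-, -, l, a1, a2, a3⟩ := mem_filter.1 hy
    rw [Nat.one_le_cast, one_le_card]
    exact ⟨l, (mem_bipartiteAbove _).2 ⟨mem_filter.2 ⟨mem_univ _, a1, a3⟩, a2⟩⟩
  · intro l _
    refine le_trans (Nat.cast_le.2 (card_le_card fun y hy => ?_)) (hcol l)
    obtain ⟨a1, a2⟩ := (mem_bipartiteBelow _).1 hy
    exact mem_filter.2 ⟨(mem_filter.1 a1).1, a2⟩

lemma exists_line (hr : 0 < r) (hK : 0 < K) (hS : (#S : ℝ) ≤ r ^ 2)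
    (hcol : ∀ l : Ln F, (#(S.filter fun x => on x l) : ℝ) ≤ r * K)
    (hE : r ^ 4 / K ≤ ∑ x ∈ S, (#(nb S r K x) : ℝ)) :
    ∃ L : Ln F, r ^ 3 / K ^ 5 ≤ ∑ x ∈ S.filter fun x => on x L, (#(nb S r K x) : ℝ) := by
  set R : Finset (Ln F) := univ.filter fun l => r / K + 1 ≤ (#(S.filter fun x => on x l) : ℝ)
    with hR
  have hRx : ∀ x, R.filter (fun l => on x l) = rl S r K x := fun x => by
    rw [hR, filter_filter, rl]
    exact filter_congr fun l _ => and_comm
  have h1 : (#R : ℝ) ≤ r ^ 2 * K ^ 2 := by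
    have key := card_nsmul_le_card_nsmul (R := ℝ) (s := R) (t := S) (m := r / K) (n := r * K)
      (fun l y => on y l) ?_ ?_
    · rw [nsmul_eq_mul, nsmul_eq_mul, mul_div_assoc', div_le_iff₀ hK] at key
      refine le_of_mul_le_mul_right (key.trans ?_) hr
      calc #S * (r * K) * K ≤ r ^ 2 * (r * K) * K := by gcongr
        _ = _ := by ring
    · intro l hl
      have := (mem_filter.1 hl).2
      exact le_trans (by linarith) this
    · intro y _
      have := card_rl (K := K) hr hK hS y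
      rwa [← hRx] at this
  have h2 : ∑ l ∈ R, ∑ x ∈ S.filter fun x => on x l, (#(nb S r K x) : ℝ) =
      ∑ x ∈ S, #(rl S r K x) * (#(nb S r K x) : ℝ) := by
    simp only [sum_filter]
    rw [Finset.sum_comm]
    refine sum_congr rfl fun x _ => ?_
    rw [← sum_filter, hRx, sum_const, nsmul_eq_mul]
  have h3 : ∑ x ∈ S, (#(nb S r K x) : ℝ) ^ 2 ≤
      (∑ x ∈ S, #(rl S r K x) * (#(nb S r K x) : ℝ)) * (r * K) := by
    rw [sum_mul]
    refine sum_le_sum fun x _ => ?_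
    have := mul_le_mul_of_nonneg_right (card_nb hcol x) (Nat.cast_nonneg #(nb S r K x))
    nlinarith
  have h4 := (pow_le_pow_left₀ (by positivity) hE 2).trans (sq_sum_le_card_mul_sum_sq.trans
    (mul_le_mul hS h3 (sum_nonneg fun _ _ => by positivity) (by positivity)))
  rw [← h2] at h4
  have h5 : r ^ 3 / K ^ 5 * (r ^ 2 * K ^ 2) ≤
      ∑ l ∈ R, ∑ x ∈ S.filter fun x => on x l, (#(nb S r K x) : ℝ) := by
    generalize ∑ l ∈ R, ∑ x ∈ S.filter fun x => on x l, (#(nb S r K x) : ℝ) = Z at h4 ⊢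
    refine le_of_mul_le_mul_right ?_ (show 0 < r ^ 3 * K by positivity)
    calc _ = (r ^ 4 / K) ^ 2 := by field_simp
      _ ≤ _ := h4
      _ = _ := by ring
  obtain ⟨L, -, h⟩ := exists_ge_avg R
    (fun l => ∑ x ∈ S.filter fun x => on x l, (#(nb S r K x) : ℝ)) _ _ (by positivity) h1 h5
    (by positivity)
  exact ⟨L, h⟩

lemma exists_pair (hr : 0 < r) (hK : 2 ≤ K) (hKr : K ^ 25 ≤ r) (hS : (#S : ℝ) ≤ r ^ 2)
    (hcol : ∀ l : Ln F, (#(S.filter fun x => on x l) : ℝ) ≤ r * K) {L : Ln F}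
    (hL : r ^ 3 / K ^ 5 ≤ ∑ x ∈ S.filter fun x => on x L, (#(nb S r K x) : ℝ))
    {P : F → Finset (Pt F)} (hP : ∀ c, P c = (nb S r K (pt L c)).filter fun y => ¬ on y L) :
    ∃ (c₁ c₂ : F) (C : Finset F), c₁ ≠ c₂ ∧ r / (64 * K ^ 17) ≤ #C ∧
      ∀ c ∈ C, c ≠ c₁ ∧ c ≠ c₂ ∧ r ^ 2 / (32 * K ^ 18) ≤ #(P c ∩ (P c₁ ∩ P c₂)) := by
  have hK0 : 0 < K := by linarith
  have hK1 : 1 ≤ K := by linarith
  have hp : ∀ a b : ℕ, a + b ≤ 25 → 2 ^ a * K ^ b ≤ r := fun a b h =>
    calc 2 ^ a * K ^ b ≤ K ^ a * K ^ b := by gcongr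
      _ = K ^ (a + b) := by ring
      _ ≤ K ^ 25 := pow_le_pow_right₀ hK1 h
      _ ≤ r := hKr
  set C₀ : Finset F := univ.filter fun c => pt L c ∈ S with hC₀
  have hinj : Function.Injective (pt L) := fun a b h => by simpa [pt] using congrArg Prod.fst h
  have hC : (#C₀ : ℝ) ≤ r * K := le_trans (Nat.cast_le.2 (card_le_card_of_injOn (pt L)
    (fun c hc => mem_filter.2 ⟨(mem_filter.1 hc).2, on_ev _ _⟩) hinj.injOn)) (hcol L)
  have hPS : ∀ c, P c ⊆ S := fun c => by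
    rw [hP]
    exact (filter_subset _ _).trans (filter_subset _ _)
  have hsub : ∀ T ⊆ S, (#T : ℝ) ≤ r ^ 2 := fun T hT => le_trans (Nat.cast_le.2 (card_le_card hT)) hS
  have h1 : ∑ x ∈ S.filter fun x => on x L, (#(nb S r K x) : ℝ) ≤
      r ^ 2 + ∑ c ∈ C₀, (#(nb S r K (pt L c)) : ℝ) := by
    have a1 : (S.filter fun x => on x L) ⊆ insert (none, ev L none) (C₀.image (pt L)) := by
      rintro ⟨i, t⟩ hx
      obtain ⟨b1, b2⟩ := mem_filter.1 hx
      have b3 : ev L i = t := b2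
      subst b3
      rcases i with _ | c
      · exact mem_insert_self _ _
      · exact mem_insert_of_mem (mem_image_of_mem _ (mem_filter.2 ⟨mem_univ _, b1⟩))
    refine (sum_le_sum_of_subset_of_nonneg a1 fun _ _ _ => Nat.cast_nonneg _).trans ?_
    rw [sum_insert (by simp [pt]), sum_image hinj.injOn]
    exact add_le_add_left (hsub _ (filter_subset _ _)) _
  have h2 : ∑ c ∈ C₀, (#(nb S r K (pt L c)) : ℝ) ≤ ∑ c ∈ C₀, (#(P c) : ℝ) + r * K * (r * K) := by
    have a1 : ∀ c ∈ C₀, (#(nb S r K (pt L c)) : ℝ) ≤ #(P c) + r * K := fun c _ => by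
      have b1 := card_filter_add_card_filter_not (s := nb S r K (pt L c)) fun y => on y L
      have b2 : (#((nb S r K (pt L c)).filter fun y => on y L) : ℝ) ≤ r * K :=
        le_trans (Nat.cast_le.2 (card_le_card (filter_subset_filter _ (filter_subset _ _)))) (hcol L)
      rw [← b1, hP]
      push_cast
      linarith
    refine (sum_le_sum a1).trans ?_
    rw [sum_add_distrib, sum_const, nsmul_eq_mul]
    gcongr
  have h3 : r ^ 3 / (2 * K ^ 5) ≤ ∑ c ∈ C₀, (#(P c) : ℝ) := by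
    have a1 : r ^ 2 + r * K * (r * K) ≤ r ^ 3 / (2 * K ^ 5) := by
      rw [le_div_iff₀ (by positivity)]
      have b1 := hp 2 7 (by norm_num)
      calc (r ^ 2 + r * K * (r * K)) * (2 * K ^ 5) ≤ (r ^ 2 * K ^ 2 + r * K * (r * K)) * (2 * K ^ 5) := by
            gcongr
            exact le_mul_of_one_le_right (by positivity) (one_le_pow₀ hK1)
        _ = r ^ 2 * (2 ^ 2 * K ^ 7) := by ring
        _ ≤ r ^ 2 * r := by gcongr
        _ = _ := by ring
    have a2 : r ^ 3 / K ^ 5 = r ^ 3 / (2 * K ^ 5) + r ^ 3 / (2 * K ^ 5) := by field_simp; ring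
    linarith
  obtain ⟨g, hg⟩ : ∃ g : F → F → ℝ, ∀ a b, g a b = ∑ c ∈ C₀, (#(P c ∩ (P a ∩ P b)) : ℝ) :=
    ⟨_, fun _ _ => rfl⟩
  have hg0 : ∀ a b, 0 ≤ g a b := fun a b => by
    rw [hg]
    exact sum_nonneg fun _ _ => Nat.cast_nonneg _
  have hg1 : ∀ a b, g a b ≤ r * K * r ^ 2 := fun a b => by
    rw [hg]
    refine (sum_le_card_nsmul _ _ (r ^ 2) fun c _ => hsub _ (inter_subset_left.trans (hPS c))).trans ?_
    rw [nsmul_eq_mul]
    gcongr
  have h4 : r ^ 5 / (8 * K ^ 15) ≤ ∑ a ∈ C₀, ∑ b ∈ C₀, g a b := by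
    have a1 := cube_sum_card_le C₀ S P fun c _ => hPS c
    simp only [← hg] at a1
    have a2 : 0 ≤ ∑ a ∈ C₀, ∑ b ∈ C₀, g a b := sum_nonneg fun _ _ => sum_nonneg fun _ _ => hg0 _ _
    generalize ∑ a ∈ C₀, ∑ b ∈ C₀, g a b = Z at a1 a2 ⊢
    refine le_of_mul_le_mul_left ?_ (show 0 < (r ^ 2) ^ 2 by positivity)
    calc _ = (r ^ 3 / (2 * K ^ 5)) ^ 3 := by field_simp; ring
      _ ≤ _ := pow_le_pow_left₀ (by positivity) h3 3
      _ ≤ _ := a1
      _ ≤ _ := by gcongr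
  have h5 : r ^ 3 / (16 * K ^ 17) * (r * K * (r * K)) ≤
      ∑ p ∈ C₀ ×ˢ C₀, if p.1 = p.2 then 0 else g p.1 p.2 := by
    have a1 : ∑ a ∈ C₀, ∑ b ∈ C₀, g a b =
        ∑ p ∈ C₀ ×ˢ C₀, (if p.1 = p.2 then 0 else g p.1 p.2) + ∑ a ∈ C₀, g a a := by
      rw [sum_product, ← sum_add_distrib]
      refine sum_congr rfl fun a ha => ?_
      have : g a a = ∑ b ∈ C₀, if a = b then g a b else 0 := by simp [ha]
      rw [this, ← sum_add_distrib]
      refine sum_congr rfl fun b _ => ?_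
      split_ifs <;> simp
    have a2 : ∑ a ∈ C₀, g a a ≤ r * K * (r * K * r ^ 2) := by
      refine (sum_le_card_nsmul _ _ _ fun a _ => hg1 a a).trans ?_
      rw [nsmul_eq_mul]
      gcongr
    have a3 : r * K * (r * K * r ^ 2) ≤ r ^ 5 / (16 * K ^ 15) := by
      rw [le_div_iff₀ (by positivity)]
      calc _ = r ^ 4 * (2 ^ 4 * K ^ 17) := by ring
        _ ≤ r ^ 4 * r := by gcongr; exact hp 4 17 (by norm_num)
        _ = _ := by ring
    have a4 : r ^ 3 / (16 * K ^ 17) * (r * K * (r * K)) = r ^ 5 / (16 * K ^ 15) := by field_simp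
    have a5 : r ^ 5 / (8 * K ^ 15) = r ^ 5 / (16 * K ^ 15) + r ^ 5 / (16 * K ^ 15) := by
      field_simp; ring
    linarith
  obtain ⟨⟨c₁, c₂⟩, -, h6⟩ := exists_ge_avg (C₀ ×ˢ C₀)
    (fun p => if p.1 = p.2 then 0 else g p.1 p.2) _ _ (by positivity)
    (by rw [card_product, Nat.cast_mul]; gcongr) h5 (by positivity)
  have h7 : c₁ ≠ c₂ := by
    intro h
    simp only [h, if_true] at h6
    exact absurd h6 (not_le.2 (by positivity))
  simp only [h7, if_false, hg] at h6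
  have h8 := card_popular C₀ (fun c => (#(P c ∩ (P c₁ ∩ P c₂)) : ℝ)) (r ^ 2) (r * K) _
    (by positivity) (by positivity) hC (fun c _ => hsub _ (inter_subset_left.trans (hPS c))) h6
  set C₁ := C₀.filter fun c => r ^ 3 / (16 * K ^ 17) / (2 * (r * K)) ≤
    (#(P c ∩ (P c₁ ∩ P c₂)) : ℝ) with hC₁
  refine ⟨c₁, c₂, (C₁.erase c₁).erase c₂, h7, ?_, fun c hc => ?_⟩
  · have a1 : (#C₁ : ℝ) ≤ #(C₁.erase c₁) + 1 := by
      exact_mod_cast Nat.le_add_of_sub_le pred_card_le_card_erase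
    have a2 : (#(C₁.erase c₁) : ℝ) ≤ #((C₁.erase c₁).erase c₂) + 1 := by
      exact_mod_cast Nat.le_add_of_sub_le pred_card_le_card_erase
    have a3 : r / (64 * K ^ 17) + r / (64 * K ^ 17) ≤ #C₁ := by
      refine le_of_mul_le_mul_left (le_trans (le_of_eq ?_) h8) (pow_pos hr 2)
      field_simp
      ring
    have a4 : 2 ≤ r / (64 * K ^ 17) := by
      rw [le_div_iff₀ (by positivity)]
      linarith [hp 7 17 (by norm_num)]
    linarith
  · obtain ⟨a1, a2⟩ := mem_erase.1 hc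
    obtain ⟨a3, a4⟩ := mem_erase.1 a2
    refine ⟨a3, a1, le_trans (le_of_eq ?_) (mem_filter.1 a4).2⟩
    field_simp
    ring

end

theorem incidence {F : Type*} [Field F] [Fintype F] [DecidableEq F]
    (hsub : ∀ K : Subfield F, K ≠ ⊤ → Nat.card K ^ 3 ≤ Fintype.card F) (r K : ℝ) (hr0 : 0 < r)
    (hr : r ^ 2 = Fintype.card F) (hK : 2 ^ 17 ≤ K) (hKr : K ^ 1000000 ≤ r) (S : Finset (Pt F))
    (hS : #S ≤ Fintype.card F) (hcol : ∀ l : Ln F, (#(S.filter fun x => on x l) : ℝ) ≤ r * K) :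
    (#((S ×ˢ S).filter fun p => p.1 ≠ p.2 ∧ ∃ l : Ln F, on p.1 l ∧ on p.2 l ∧
      r / K + 1 ≤ (#(S.filter fun x => on x l) : ℝ)) : ℝ) ≤ r ^ 4 / K := by
  by_contra hcon
  have hK2 : 64 ≤ K := le_trans (by norm_num) hK
  have hK0 : 0 < K := by linarith
  have hK1 : 1 ≤ K := by linarith
  have hS' : (#S : ℝ) ≤ r ^ 2 := by rw [hr]; exact_mod_cast hS
  have hE : r ^ 4 / K ≤ ∑ x ∈ S, (#(nb S r K x) : ℝ) := by
    refine (not_le.1 hcon).le.trans (le_of_eq ?_)
    simp only [nb, card_filter_real]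
    rw [sum_product]
  obtain ⟨L, hL⟩ := exists_line hr0 hK0 hS' hcol hE
  obtain ⟨P, hP⟩ : ∃ P : F → Finset (Pt F),
    ∀ c, P c = (nb S r K (pt L c)).filter fun y => ¬ on y L := ⟨_, fun _ => rfl⟩
  obtain ⟨c₁, c₂, C, h12, hC, h⟩ := exists_pair hr0 (by linarith)
    ((pow_le_pow_right₀ hK1 (by norm_num)).trans hKr) hS' hcol hL hP
  have hoff : ∀ c, ∀ y ∈ P c, ¬ on y L := fun c y hy => by
    rw [hP] at hy
    exact (mem_filter.1 hy).2
  have him : ∀ c, (#((P c).image (psi L c)) : ℝ) ≤ r * K := fun c => by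
    refine le_trans (Nat.cast_le.2 ((card_le_card ?_).trans (card_image_le
      (f := fun l : Ln F => (l.1 - L.1)⁻¹)))) (card_rl hr0 hK0 hS' (pt L c))
    intro z hz
    obtain ⟨y, hy, rfl⟩ := mem_image.1 hz
    have h0 := hoff c y hy
    rw [hP] at hy
    obtain ⟨-, -, l, a1, a2, a3⟩ := mem_filter.1 (mem_filter.1 hy).1
    exact mem_image.2 ⟨l, mem_filter.2 ⟨mem_univ _, a1, a3⟩, (psi_eq h0 a2 a1).symm⟩
  have h12' : c₁ - c₂ ≠ 0 := sub_ne_zero.2 h12
  have hZ : ((K ^ 21) ^ 33) ^ 700 * K ≤ r := by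
    rw [← pow_mul, ← pow_mul, ← pow_succ]
    exact (pow_le_pow_right₀ hK1 (by norm_num)).trans hKr
  have hZ0 : 0 < ((K ^ 21) ^ 33) ^ 700 := by positivity
  have hZ1 : ((K ^ 21) ^ 33) ^ 700 ≤ r := (le_mul_of_one_le_right hZ0.le hK1).trans hZ
  refine sumprod hsub (A := (P c₁).image (psi L c₁)) (B := (P c₂).image (psi L c₂))
    (Δ := C.image fun c => (c₁ - c) / (c - c₂)) (K := K ^ 21) (N := r * K)
    (hK.trans (le_self_pow₀ hK1 (by norm_num))) (him _) (him _) ?_ ?_ ?_ ?_ ?_ ?_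
  · intro d hd
    obtain ⟨c, hc, rfl⟩ := mem_image.1 hd
    exact div_ne_zero (sub_ne_zero.2 (h c hc).1.symm) (sub_ne_zero.2 (h c hc).2.1)
  · rw [card_image_of_injOn]
    · refine le_trans ?_ hC
      rw [div_le_div_iff₀ (by positivity) (by positivity)]
      calc r * K * (64 * K ^ 17) ≤ r * K * (K * K ^ 17) := by gcongr
        _ = r * K ^ 19 := by ring
        _ ≤ _ := by gcongr; norm_num
    · intro a ha b hb e
      have a1 := sub_ne_zero.2 (h a ha).2.1
      have a2 := sub_ne_zero.2 (h b hb).2.1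
      simp only at e
      rw [div_eq_div_iff a1 a2] at e
      refine mul_left_cancel₀ h12' ?_
      linear_combination -e
  · intro d hd
    obtain ⟨c, hc, rfl⟩ := mem_image.1 hd
    obtain ⟨a1, a2, a3⟩ := h c hc
    have b1 := sub_ne_zero.2 a1.symm
    have b2 := sub_ne_zero.2 a2
    refine ⟨(P c ∩ (P c₁ ∩ P c₂)).image fun y => (psi L c₁ y, (c₁ - c) / (c - c₂) * psi L c₂ y),
      ?_, ?_, ?_⟩
    · intro z hz
      obtain ⟨y, hy, rfl⟩ := mem_image.1 hz
      obtain ⟨e1, e2⟩ := mem_inter.1 (mem_inter.1 hy).2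
      exact mem_product.2 ⟨mem_image_of_mem _ e1, smul_mem_smul_finset (mem_image_of_mem _ e2)⟩
    · rw [card_image_of_injOn]
      · refine le_trans ?_ a3
        rw [div_le_div_iff₀ (by positivity) (by positivity)]
        calc (r * K) ^ 2 * (32 * K ^ 18) ≤ (r * K) ^ 2 * (K * K ^ 18) := by gcongr; linarith
          _ = _ := by ring
      · intro y hy y' hy' e
        simp only [Prod.mk.injEq] at e
        have e1 := e.1
        have e2 := mul_left_cancel₀ (div_ne_zero b1 b2) e.2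
        simp only [psi] at e1 e2
        have e3 : (su L y).2 = (su L y').2 := mul_left_cancel₀ h12' (by linear_combination e2 - e1)
        rw [e3, sub_left_inj] at e1
        exact su_inj (hoff c y (mem_inter.1 hy).1) (hoff c y' (mem_inter.1 hy').1) (Prod.ext e1 e3)
    · refine le_trans (Nat.cast_le.2 ((card_le_card ?_).trans (card_smul_finset_le
        (a := (c₁ - c₂) / (c - c₂))))) (him c)
      intro z hz
      obtain ⟨_, hw, rfl⟩ := mem_image.1 hz
      obtain ⟨y, hy, rfl⟩ := mem_image.1 hw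
      refine mem_smul_finset.2 ⟨_, mem_image_of_mem _ (mem_inter.1 hy).1, ?_⟩
      simp only [psi, smul_eq_mul]
      field_simp
      ring
  · exact hZ1.trans (le_mul_of_one_le_right hr0.le hK1)
  · rw [← hr]
    generalize ((K ^ 21) ^ 33) ^ 700 = Z at hZ ⊢
    nlinarith
  · rw [← hr]
    generalize ((K ^ 21) ^ 33) ^ 700 = Z at hZ1 ⊢
    calc r ^ 2 * Z ≤ r ^ 2 * r := by gcongr
      _ = r ^ 3 * 1 := by ring
      _ ≤ r ^ 3 * K ^ 3 := by gcongr; exact one_le_pow₀ hK1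
      _ = _ := by ring

end Crest.Agent.R34
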