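import Crest.Agent.R34.Grid

/-! Stability: a small cover of the kept lines contains a generalized line minus `R`. -/

set_option linter.unusedSectionVars false

open Finset
open scoped BigOperators Classical

namespace Crest.Agent.R34

variable {F : Type*} [Field F] [Fintype F]

def IncAt (F : Type*) [Field F] [Fintype F] (r K : ℝ) : Prop :=
  ∀ S : Finset (Pt F), #S ≤ Fintype.card F →
    (∀ l : Ln F, (#(S.filter fun x => on x l) : ℝ) ≤ r * K) →
    (#((S ×ˢ S).filter fun p => p.1 ≠ p.2 ∧ ∃ l : Ln F, on p.1 l ∧ on p.2 l ∧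
      r / K + 1 ≤ (#(S.filter fun x => on x l) : ℝ)) : ℝ) ≤ r ^ 4 / K

lemma Dg_eq {R : Finset (Pt F)} (wt : Ln F → ℝ) {x : Pt F} (hx : x ∉ R) :
    Dg R wt x = ∑ l ∈ (univ.filter (kept R)).filter (fun l => on x l), wt l := by
  unfold Dg
  refine Finset.sum_congr ?_ fun _ _ => rfl
  ext l
  simp only [mf, mem_univ, true_and]
  exact ⟨fun h => ⟨kept_of_miss hx h.2, h.1⟩, fun h => ⟨h.2, fun y hy e => absurd e (h.1 y hy)⟩⟩

lemma sum_Dg {R : Finset (Pt F)} (wt : Ln F → ℝ) (T : Finset (Pt F)) (hT : ∀ x ∈ T, x ∉ R) :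
    ∑ x ∈ T, Dg R wt x = ∑ l ∈ univ.filter (kept R), wt l * #(T.filter fun x => on x l) := by
  rw [Finset.sum_congr rfl fun x hx => Dg_eq wt (hT x hx)]
  simp only [Finset.sum_filter (p := fun l => on _ l), card_filter]
  rw [Finset.sum_comm]
  refine Finset.sum_congr rfl fun l _ => ?_
  push_cast
  rw [Finset.mul_sum]
  refine Finset.sum_congr rfl fun x _ => ?_
  split_ifs <;> simp

lemma excess {R : Finset (Pt F)} {wt : Ln F → ℝ} {τ r : ℝ} (hN : Num F τ r) (hbig : τ ^ 50 ≤ r)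
    (hwt : ∀ l, kept R l → 1 ≤ wt l)
    (hD : ∀ x, x ∉ R → |Dg R wt x - Fintype.card F| ≤ 4 * r * τ ^ 3)
    (hcol : ∀ L : Gl F, (#(R.filter fun x => inc x L) : ℝ) ≤ 2 * τ ^ 2)
    (S : Finset (Pt F)) (hSR : ∀ x ∈ S, x ∉ R) (hS : #S ≤ Fintype.card F)
    (hcov : ∀ l, kept R l → ∃ x ∈ S, on x l) :
    ∑ l ∈ univ.filter (kept R), ((#(S.filter fun x => on x l) : ℝ) - 1) ≤ r ^ 3 * τ ^ 4 ∧
      r ^ 2 / 2 ≤ #S := by
  have hτ := hN.hτ
  have hτ1 : 1 ≤ τ := by linarith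
  have hr3 : 100 * τ ^ 3 ≤ r := by
    refine le_trans ?_ hbig
    calc 100 * τ ^ 3 ≤ τ * τ ^ 3 := by gcongr
      _ = τ ^ 4 := by ring
      _ ≤ _ := pow_le_pow_right₀ hτ1 (by norm_num)
  have hτ3 : τ ^ 2 ≤ τ ^ 3 := pow_le_pow_right₀ hτ1 (by norm_num)
  have hτ2 : 1 ≤ τ ^ 2 := one_le_pow₀ hτ1
  have hr1 : 1 ≤ r := by linarith
  have hSq : (#S : ℝ) ≤ r ^ 2 := by rw [hN.hq]; exact_mod_cast hS
  rw [← hN.hq] at hD
  obtain ⟨lam, hlam⟩ : ∃ lam, lam = 4 * r * τ ^ 3 := ⟨_, rfl⟩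
  rw [← hlam] at hD
  have hlam0 : 0 ≤ lam := by rw [hlam]; positivity
  have hlam1 : lam ≤ r ^ 2 / 10 := by rw [hlam]; nlinarith
  obtain ⟨T, hT⟩ : ∃ T : Finset (Pt F), T = (univ.filter fun x : Pt F => x.1 = none) \ R :=
    ⟨_, rfl⟩
  have hTm : ∀ x, x ∈ T ↔ x.1 = none ∧ x ∉ R := fun x => by simp [hT]
  have hTc : r ^ 2 - 2 * τ ^ 2 ≤ #T := by
    have e1 : (univ.filter fun x : Pt F => x.1 = none) ⊆ T ∪ R.filter fun x => inc x (.inr none) := by
      intro x hx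
      by_cases h : x ∈ R
      · exact mem_union_right _ (mf.2 ⟨h, (mf.1 hx).2⟩)
      · exact mem_union_left _ ((hTm x).2 ⟨(mf.1 hx).2, h⟩)
    have e2 := (card_le_card e1).trans (card_union_le _ _)
    rw [card_part] at e2
    have e3 := (Nat.cast_le (α := ℝ)).2 e2
    push_cast at e3
    linarith [hcol (.inr none), hN.hq]
  have h1 : (r ^ 2 - 2 * τ ^ 2) * (r ^ 2 - lam) ≤ ∑ l ∈ univ.filter (kept R), wt l := by
    have e1 := sum_Dg wt T fun x hx => ((hTm x).1 hx).2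
    have e2 : #T • (r ^ 2 - lam) ≤ ∑ x ∈ T, Dg R wt x :=
      Finset.card_nsmul_le_sum _ _ _ fun x hx => by
        linarith [(abs_le.1 (hD x ((hTm x).1 hx).2)).1]
    rw [nsmul_eq_mul, e1] at e2
    refine le_trans (mul_le_mul_of_nonneg_right hTc (by nlinarith)) (e2.trans ?_)
    refine Finset.sum_le_sum fun l hl => ?_
    have e3 : #(T.filter fun x => on x l) ≤ 1 := card_le_one.2 fun x hx y hy =>
      eq_of_on_of_part (mf.1 hx).2 (mf.1 hy).2
        (((hTm x).1 (mf.1 hx).1).1.trans ((hTm y).1 (mf.1 hy).1).1.symm)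
    have e4 := hwt l (mf.1 hl).2
    exact mul_le_of_le_one_right (by linarith) (by exact_mod_cast e3)
  have h2 : ∑ l ∈ univ.filter (kept R), wt l * #(S.filter fun x => on x l)
      ≤ #S * (r ^ 2 + lam) := by
    rw [← sum_Dg wt S hSR, ← nsmul_eq_mul]
    exact Finset.sum_le_card_nsmul _ _ _ fun x hx => by linarith [(abs_le.1 (hD x (hSR x hx))).2]
  have hi : ∀ l ∈ univ.filter (kept R), (1 : ℝ) ≤ #(S.filter fun x => on x l) := by
    intro l hl
    obtain ⟨x, hx, e⟩ := hcov l (mf.1 hl).2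
    exact_mod_cast card_pos.2 ⟨x, mf.2 ⟨hx, e⟩⟩
  have h3 : ∑ l ∈ univ.filter (kept R), ((#(S.filter fun x => on x l) : ℝ) - 1) +
      ∑ l ∈ univ.filter (kept R), wt l ≤
      ∑ l ∈ univ.filter (kept R), wt l * #(S.filter fun x => on x l) := by
    rw [← Finset.sum_add_distrib]
    refine Finset.sum_le_sum fun l hl => ?_
    nlinarith [hi l hl, hwt l (mf.1 hl).2]
  have h4 : 0 ≤ ∑ l ∈ univ.filter (kept R), ((#(S.filter fun x => on x l) : ℝ) - 1) :=
    Finset.sum_nonneg fun l hl => by linarith [hi l hl]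
  have hq0 : 0 < r ^ 2 := by positivity
  have ht : 2 * τ ^ 2 ≤ r ^ 2 / 10 := by nlinarith
  constructor
  · have e1 : (#S : ℝ) * (r ^ 2 + lam) ≤ r ^ 2 * (r ^ 2 + lam) := by gcongr
    have e2 : 2 * r ^ 2 * lam + 2 * τ ^ 2 * r ^ 2 ≤ r ^ 3 * τ ^ 4 := by
      have : τ ^ 2 ≤ r * τ ^ 3 := by nlinarith
      have e3 : 10 * (r * τ ^ 3) ≤ r * τ ^ 4 := by
        have : 0 ≤ r * τ ^ 3 := by positivity
        nlinarith
      rw [hlam]; nlinarith
    nlinarith
  · by_contra hlt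
    push Not at hlt
    have e1 : (#S : ℝ) * (r ^ 2 + lam) ≤ r ^ 2 / 2 * (r ^ 2 + r ^ 2 / 10) := by gcongr
    have e2 : (r ^ 2 - r ^ 2 / 10) * (r ^ 2 - r ^ 2 / 10) ≤
        (r ^ 2 - 2 * τ ^ 2) * (r ^ 2 - lam) := by
      gcongr <;> linarith
    nlinarith

lemma card_pairs_le (X Y : Finset (Pt F)) (A : Finset (Ln F)) :
    (#((X ×ˢ Y).filter fun p => p.1 ≠ p.2 ∧ ∃ l ∈ A, on p.1 l ∧ on p.2 l) : ℝ) ≤
      ∑ l ∈ A, (#(((X.filter fun x => on x l) ×ˢ (Y.filter fun x => on x l)).filter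
        fun p => p.1 ≠ p.2) : ℝ) := by
  norm_cast
  refine le_trans (card_le_card fun p hp => ?_) card_biUnion_le
  obtain ⟨h1, h2, l, hl, h3, h4⟩ := mf.1 hp
  exact mem_biUnion.2 ⟨l, hl, mf.2 ⟨mem_product.2 ⟨mf.2 ⟨(mem_product.1 h1).1, h3⟩,
    mf.2 ⟨(mem_product.1 h1).2, h4⟩⟩, h2⟩⟩

theorem stab {R : Finset (Pt F)} {wt : Ln F → ℝ} {τ r : ℝ} (hN : Num F τ r) (hbig : τ ^ 50 ≤ r)
    (hinc : IncAt F r (τ ^ 10)) (hwt : ∀ l, kept R l → 1 ≤ wt l ∧ wt l ≤ τ)
    (hD : ∀ x, x ∉ R → |Dg R wt x - Fintype.card F| ≤ 4 * r * τ ^ 3)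
    (hcol : ∀ L : Gl F, (#(R.filter fun x => inc x L) : ℝ) ≤ 2 * τ ^ 2)
    {a : ℕ} (ha : (a : ℝ) = τ ^ 4)
    (hG : ∀ X Y : Finset (Pt F), Generic a X Y → (∀ x ∈ X, x ∉ R) → (∀ y ∈ Y, y ∉ R) →
      ∃ l ∈ grid X Y, kept R l)
    (S₀ : Finset (Pt F)) (hS₀ : #S₀ ≤ Fintype.card F) (hcov₀ : ∀ l, kept R l → ∃ x ∈ S₀, on x l) :
    ∃ L : Gl F, ∀ x, inc x L → x ∉ R → x ∈ S₀ := by
  have hτ := hN.hτ
  have hτ1 : 1 ≤ τ := by linarith
  have hτ0 : 0 < τ := by linarith
  have hp : ∀ i j : ℕ, i + 1 ≤ j → 100 * τ ^ i ≤ τ ^ j := fun i j h => by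
    calc 100 * τ ^ i ≤ τ * τ ^ i := by gcongr
      _ = τ ^ (i + 1) := by ring
      _ ≤ _ := pow_le_pow_right₀ hτ1 h
  have hp' : ∀ i : ℕ, 1 ≤ τ ^ i := fun i => one_le_pow₀ hτ1
  have hr1 : 1 ≤ r := (hp' 50).trans hbig
  have hr0 : 0 < r := by linarith
  have ha1 : 1 ≤ a := by exact_mod_cast (show (1 : ℝ) ≤ a by rw [ha]; exact hp' 4)
  obtain ⟨S, hSe⟩ : ∃ S, S = S₀ \ R := ⟨_, rfl⟩
  have hSm : ∀ x, x ∈ S ↔ x ∈ S₀ ∧ x ∉ R := fun x => by simp [hSe]
  have hSR : ∀ x ∈ S, x ∉ R := fun x hx => ((hSm x).1 hx).2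
  have hS : #S ≤ Fintype.card F := (card_le_card fun x hx => ((hSm x).1 hx).1).trans hS₀
  have hcov : ∀ l, kept R l → ∃ x ∈ S, on x l := fun l hl => by
    obtain ⟨x, hx, e⟩ := hcov₀ l hl
    exact ⟨x, (hSm x).2 ⟨hx, fun h => hl x h e⟩, e⟩
  obtain ⟨hE, hn⟩ := excess hN hbig (fun l hl => (hwt l hl).1) hD hcol S hSR hS hcov
  have hi : ∀ l, kept R l → (1 : ℝ) ≤ #(S.filter fun x => on x l) := by
    intro l hl
    obtain ⟨x, hx, e⟩ := hcov l hl
    exact_mod_cast card_pos.2 ⟨x, mf.2 ⟨hx, e⟩⟩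
  obtain ⟨L₀, -, hL₀⟩ := exists_max_image (univ : Finset (Gl F))
    (fun L => #(S.filter fun x => inc x L)) ⟨.inr none, mem_univ _⟩
  obtain ⟨X, hX⟩ : ∃ X, X = S.filter fun x => inc x L₀ := ⟨_, rfl⟩
  obtain ⟨Y, hY⟩ : ∃ Y, Y = S.filter fun x => ¬ inc x L₀ := ⟨_, rfl⟩
  have hXm : ∀ x, x ∈ X ↔ x ∈ S ∧ inc x L₀ := fun x => by simp [hX]
  have hYm : ∀ x, x ∈ Y ↔ x ∈ S ∧ ¬ inc x L₀ := fun x => by simp [hY]
  rw [← hX] at hL₀
  by_cases c1 : (#Y : ℝ) < r ^ 2 / (2 * τ)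
  · refine ⟨L₀, fun x hx hxR => ?_⟩
    by_contra hxS
    have e1 := (abs_le.1 (hD x hxR)).1
    rw [Dg_eq wt hxR, ← hN.hq] at e1
    have e2 := Finset.sum_le_card_nsmul ((univ.filter (kept R)).filter (fun l => on x l)) wt τ
      fun l hl => (hwt l (mf.1 (mf.1 hl).1).2).2
    have e3 : #((univ.filter (kept R)).filter (fun l => on x l)) ≤ #Y + 1 := by
      have e4 : (univ.filter (kept R)).filter (fun l => on x l) ⊆
          Y.image (join x) ∪ univ.filter fun l => Sum.inl l = L₀ := by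
        intro l hl
        by_cases h : Sum.inl l = L₀
        · exact mem_union_right _ (mf.2 ⟨mem_univ _, h⟩)
        · obtain ⟨y, hy, e⟩ := hcov l (mf.1 (mf.1 hl).1).2
          have hne : x ≠ y := fun e' => hxS ((hSm x).1 (e' ▸ hy)).1
          have hpt : x.1 ≠ y.1 := fun e' => hne (eq_of_on_of_part (mf.1 hl).2 e e')
          refine mem_union_left _ (mem_image.2 ⟨y, (hYm y).2 ⟨hy, fun hy' => h ?_⟩,
            line_unique hne (on_join_left hpt) (on_join_right hpt) (mf.1 hl).2 e⟩)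
          exact gl_unique (L := .inl l) hne (mf.1 hl).2 e hx hy'
      refine (card_le_card e4).trans ((card_union_le _ _).trans (add_le_add card_image_le ?_))
      exact card_le_one.2 fun l hl l' hl' => Sum.inl_injective ((mf.1 hl).2.trans (mf.1 hl').2.symm)
    have e5 := (Nat.cast_le (α := ℝ)).2 e3
    push_cast at e5
    rw [nsmul_eq_mul] at e2
    have e6 : (#Y + 1 : ℝ) * τ ≤ r ^ 2 / 2 + τ := by
      rw [lt_div_iff₀ (by positivity)] at c1
      linarith
    have e7 : 100 * τ ^ 3 ≤ r := (hp 3 50 (by norm_num)).trans hbig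
    have e8 : τ ≤ τ ^ 3 := le_self_pow₀ hτ1 (by norm_num)
    have e9 := mul_le_mul_of_nonneg_right e5 hτ0.le
    nlinarith
  exfalso
  push Not at c1
  have hkp : ∀ U V : Finset (Pt F), ((U ×ˢ V).filter fun p => kp R p.1 p.2) =
      (U ×ˢ V).filter fun p => p.1 ≠ p.2 ∧ ∃ l ∈ univ.filter (kept R), on p.1 l ∧ on p.2 l := by
    intro U V
    refine Finset.filter_congr fun p _ => ?_
    simp [kp]
  by_cases c2 : r * τ ^ 10 ≤ #X
  · refine no_grid ha1 hG X Y (fun x hx => hSR x ((hXm x).1 hx).1)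
      (fun x hx => hSR x ((hYm x).1 hx).1) (fun L hL => ?_) ?_ ?_ ?_
    · obtain ⟨y, hy⟩ : (Y.filter fun y => inc y L).Nonempty := by
        rw [← card_pos, ← Nat.cast_pos (α := ℝ)]
        exact lt_of_le_of_lt (by positivity) hL
      refine card_le_one.2 fun x hx x' hx' => ?_
      by_contra hne
      have := gl_unique hne (mf.1 hx).2 (mf.1 hx').2 ((hXm x).1 (mf.1 hx).1).2
        ((hXm x').1 (mf.1 hx').1).2
      exact ((hYm y).1 (mf.1 hy).1).2 (this ▸ (mf.1 hy).2)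
    · refine le_trans ?_ c1
      rw [le_div_iff₀ (by positivity), ha]
      have := hp 21 50 (by norm_num)
      nlinarith [hp' 21]
    · refine le_trans ?_ c2
      rw [ha]
      have := hp 40 50 (by norm_num)
      have := hp 0 10 (by norm_num)
      nlinarith [hp' 40]
    · rw [hkp]
      refine (card_pairs_le _ _ _).trans (le_trans (Finset.sum_le_sum fun l hl => ?_) (hE.trans ?_))
      · have e0 := hi l (mf.1 hl).2
        rcases (X.filter fun x => on x l).eq_empty_or_nonempty with e | ⟨x, hx⟩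
        · rw [e]; simpa using e0
        rcases (Y.filter fun x => on x l).eq_empty_or_nonempty with e | ⟨y, hy⟩
        · rw [e]; simpa using e0
        have e1 : #(X.filter fun x => on x l) ≤ 1 := by
          refine card_le_one.2 fun x hx x' hx' => ?_
          by_contra hne
          have := gl_unique (L := .inl l) hne (mf.1 hx).2 (mf.1 hx').2 ((hXm x).1 (mf.1 hx).1).2
            ((hXm x').1 (mf.1 hx').1).2
          exact ((hYm y).1 (mf.1 hy).1).2 (this ▸ (mf.1 hy).2)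
        have e2 : #(Y.filter fun x => on x l) < #(S.filter fun x => on x l) := by
          refine card_lt_card ⟨fun z hz => mf.2 ⟨((hYm z).1 (mf.1 hz).1).1, (mf.1 hz).2⟩, fun h => ?_⟩
          exact ((hYm x).1 (mf.1 (h (mf.2 ⟨((hXm x).1 (mf.1 hx).1).1, (mf.1 hx).2⟩))).1).2
            ((hXm x).1 (mf.1 hx).1).2
        have e3 : #(((X.filter fun x => on x l) ×ˢ (Y.filter fun x => on x l)).filter
            fun p => p.1 ≠ p.2) + 1 ≤ #(S.filter fun x => on x l) := by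
          have := card_filter_le ((X.filter fun x => on x l) ×ˢ (Y.filter fun x => on x l))
            fun p => p.1 ≠ p.2
          rw [card_product] at this
          nlinarith
        have e4 := (Nat.cast_le (α := ℝ)).2 e3
        push_cast at e4
        linarith
      · rw [le_div_iff₀ (by rw [ha]; positivity), ha]
        calc _ ≤ r * τ ^ 10 * (r ^ 2 / (2 * τ)) := by
              rw [mul_div_assoc', le_div_iff₀ (by positivity)]
              have := hp 9 10 (by norm_num)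
              have h3 : 0 ≤ r ^ 3 := by positivity
              nlinarith [hp' 9]
          _ ≤ _ := by gcongr
  · push Not at c2
    have hm : ∀ L : Gl F, (#(S.filter fun x => inc x L) : ℝ) ≤ r * τ ^ 10 := fun L =>
      le_trans (by exact_mod_cast hL₀ L (mem_univ _)) c2.le
    refine no_grid ha1 hG S S hSR hSR (fun L hL => ?_) ?_ ?_ ?_
    · exfalso
      have e1 := hL.trans_le (hm L)
      rw [div_lt_iff₀ (by rw [ha]; positivity), ha] at e1
      have := hp 30 50 (by norm_num)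
      nlinarith [hp' 30]
    · rw [ha]
      have := hp 20 50 (by norm_num)
      nlinarith [hp' 20]
    · rw [ha]
      have := hp 40 50 (by norm_num)
      have := hp 0 50 (by norm_num)
      nlinarith [hp' 40]
    · have e1 := hinc S hS fun l => hm (.inl l)
      obtain ⟨A, hA⟩ : ∃ A, A = (univ.filter (kept R)).filter fun l =>
        (#(S.filter fun x => on x l) : ℝ) < r / τ ^ 10 + 1 := ⟨_, rfl⟩
      have e2 := card_pairs_le S S A
      have e3 : ((S ×ˢ S).filter fun p => kp R p.1 p.2) ⊆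
          ((S ×ˢ S).filter fun p => p.1 ≠ p.2 ∧ ∃ l ∈ A, on p.1 l ∧ on p.2 l) ∪
          (S ×ˢ S).filter fun p => p.1 ≠ p.2 ∧ ∃ l : Ln F, on p.1 l ∧ on p.2 l ∧
            r / τ ^ 10 + 1 ≤ (#(S.filter fun x => on x l) : ℝ) := by
        intro p hp
        obtain ⟨h1, h2, l, h3, h4, h5⟩ := mf.1 hp
        by_cases h : r / τ ^ 10 + 1 ≤ (#(S.filter fun x => on x l) : ℝ)
        · exact mem_union_right _ (mf.2 ⟨h1, h2, l, h4, h5, h⟩)
        · exact mem_union_left _ (mf.2 ⟨h1, h2, l,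
            hA ▸ mf.2 ⟨mf.2 ⟨mem_univ _, h3⟩, not_le.1 h⟩, h4, h5⟩)
      have e4 := (Nat.cast_le (α := ℝ)).2 ((card_le_card e3).trans (card_union_le _ _))
      push_cast at e4
      have e5 : ∑ l ∈ A, (#(((S.filter fun x => on x l) ×ˢ (S.filter fun x => on x l)).filter
          fun p => p.1 ≠ p.2) : ℝ) ≤ (r / τ ^ 10 + 1) * (r ^ 3 * τ ^ 4) := by
        calc _ ≤ ∑ l ∈ A, (r / τ ^ 10 + 1) * ((#(S.filter fun x => on x l) : ℝ) - 1) := by
              refine Finset.sum_le_sum fun l hl => ?_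
              rw [hA] at hl
              have f1 := (mf.1 hl).2
              have f2 := hi l (mf.1 (mf.1 hl).1).2
              have f3 : ((S.filter fun x => on x l) ×ˢ (S.filter fun x => on x l)).filter
                  (fun p => p.1 ≠ p.2) = (S.filter fun x => on x l).offDiag := by
                ext p; simp [mem_offDiag, and_assoc]
              rw [f3, offDiag_card, Nat.cast_sub (Nat.le_mul_self _)]
              push_cast
              nlinarith
          _ ≤ ∑ l ∈ univ.filter (kept R),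
                (r / τ ^ 10 + 1) * ((#(S.filter fun x => on x l) : ℝ) - 1) :=
              Finset.sum_le_sum_of_subset_of_nonneg (hA ▸ filter_subset _ _) fun l hl _ =>
                mul_nonneg (by positivity) (by linarith [hi l (mf.1 hl).2])
          _ ≤ _ := by rw [← Finset.mul_sum]; gcongr
      have e6 : 1 ≤ r / τ ^ 10 := by
        rw [le_div_iff₀ (by positivity), one_mul]
        exact (pow_le_pow_right₀ hτ1 (by norm_num)).trans hbig
      have e7 : (r / τ ^ 10 + 1) * (r ^ 3 * τ ^ 4) ≤ 2 * τ ^ 4 * (r ^ 4 / τ ^ 10) := by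
        calc _ ≤ (2 * (r / τ ^ 10)) * (r ^ 3 * τ ^ 4) := by gcongr; linarith
          _ = _ := by ring
      have e8 : 3 * τ ^ 4 * (r ^ 4 / τ ^ 10) ≤ #S * #S / (5 * a) := by
        calc _ ≤ r ^ 2 / 2 * (r ^ 2 / 2) / (5 * a) := by
              rw [ha, mul_div_assoc', div_le_div_iff₀ (by positivity) (by positivity)]
              have := hp 8 10 (by norm_num)
              have h3 : 0 ≤ r ^ 4 := by positivity
              nlinarith [hp' 8]
          _ ≤ _ := by gcongr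
      have e9 : 0 ≤ r ^ 4 / τ ^ 10 := by positivity
      nlinarith [hp' 4]

end Crest.Agent.R34
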