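import Crest.Agent.R34.Build
import Crest.Agent.R34.Stab
import Crest.Agent.R34.Incid

/-! Assembly of the construction. -/

set_option linter.unusedSectionVars false

open Finset
open scoped BigOperators Classical

namespace Crest.Agent.R34

variable {F : Type*} [Field F] [Fintype F]

lemma exp_four : Real.exp 4 ≤ 55 := by
  have h : Real.exp 4 = Real.exp 1 ^ 4 := by rw [← Real.exp_nat_mul]; norm_num
  have h1 : Real.exp 1 ^ 4 ≤ 2.72 ^ 4 := by
    gcongr; linarith [Real.exp_one_lt_d9]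
  rw [h]; refine h1.trans (by norm_num)

lemma half_le_floor {x : ℝ} (hx : 1 ≤ x) : x / 2 ≤ ⌊x⌋₊ := by
  have h1 := Nat.lt_floor_add_one x
  have h2 : (1 : ℝ) ≤ ⌊x⌋₊ := by exact_mod_cast Nat.le_floor (by simpa using hx)
  linarith

theorem build (T : ℕ) {r ε C : ℝ} (hN : Num F T r) (hbig : (T : ℝ) ^ 50 ≤ r)
    (hinc : IncAt F r ((T : ℝ) ^ 10)) (hε : ε = Real.exp (-(2 * 2400))) (hC : C = 4400 / ε)
    (hT : Real.exp (100 * C) ≤ T) :
    ∃ E : Finset (Option F → Option F), (∀ f ∈ E, ∀ g ∈ E, ∃ i, f i = g i) ∧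
      ∀ S : Finset (Option F × Option F), (∀ f ∈ E, ∃ i, (i, f i) ∈ S) →
        Fintype.card F + 1 ≤ #S := by
  obtain ⟨τ, hτe⟩ : ∃ τ : ℝ, τ = T := ⟨_, rfl⟩
  have ha : ((T ^ 4 : ℕ) : ℝ) = τ ^ 4 := by rw [hτe]; push_cast; rfl
  have hb : ((T ^ 2 : ℕ) : ℝ) = τ ^ 2 := by rw [hτe]; push_cast; rfl
  rw [← hτe] at hN hbig hinc hT
  have hτ := hN.hτ
  have hτ1 : 1 ≤ τ := by linarith
  have hτ0 : 0 < τ := by linarith
  have hp : ∀ i j : ℕ, i + 1 ≤ j → 100 * τ ^ i ≤ τ ^ j := fun i j h => by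
    calc 100 * τ ^ i ≤ τ * τ ^ i := by gcongr
      _ = τ ^ (i + 1) := by ring
      _ ≤ _ := pow_le_pow_right₀ hτ1 h
  have hp' : ∀ i : ℕ, 1 ≤ τ ^ i := fun i => one_le_pow₀ hτ1
  have hr1 : 1 ≤ r := (hp' 50).trans hbig
  have hr0 : 0 < r := by linarith
  have hq := hN.q_ge
  have hqr := hN.hq
  have hε0 : 0 < ε := by rw [hε]; positivity
  have hε1 : ε ≤ 1 := by rw [hε]; exact Real.exp_le_one_iff.2 (by norm_num)
  clear hτe
  have hCε : C * ε = 4400 := by rw [hC]; field_simp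
  have hC1 : 4400 ≤ C := by rw [hC, le_div_iff₀ hε0]; linarith
  have hexp : ∀ y, y ≤ 100 * C → Real.exp y ≤ τ := fun y hy => (Real.exp_le_exp.2 hy).trans hT
  have hCτ : C ≤ τ := by linarith [hexp C (by linarith), Real.add_one_le_exp C]
  have hK : (Fintype.card Kp : ℝ) = 23 := by simp
  have ha1 : 1 ≤ T ^ 4 := by exact_mod_cast (show (1 : ℝ) ≤ (T ^ 4 : ℕ) by rw [ha]; exact hp' 4)
  have hr4 : 100 * (r * τ ^ 3 * τ) ≤ r ^ 2 := by
    have := (hp 4 50 (by norm_num)).trans hbig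
    nlinarith
  have hr3 : 100 * (r * τ ^ 3) ≤ r ^ 2 := by
    have : 0 ≤ r * τ ^ 3 := by positivity
    nlinarith
  have hr17 : τ ^ 17 ≤ r ^ 2 := by
    have := (pow_le_pow_right₀ hτ1 (show 17 ≤ 50 by norm_num)).trans hbig
    nlinarith
  have hcast : ∀ n : ℕ, τ ^ 16 ≤ n → (T ^ 4) ^ 4 ≤ n := fun n h => by
    have : (((T ^ 4) ^ 4 : ℕ) : ℝ) ≤ n := by rw [Nat.cast_pow, ha, ← pow_mul]; exact h
    exact_mod_cast this
  -- stage 0
  have hπ₀ : Proc (∅ : Finset (Pt F)) (fun (g : Option F) (a : F) => (g, a)) := by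
    refine ⟨fun j a j' a' h => by simpa using h, ?_, fun z => ?_⟩
    · rintro l ⟨j, a, a', hne, h, h'⟩
      exact absurd (h.symm.trans h') hne
    · rw [Finset.filter_false_of_mem]
      · simp
      · rintro l - ⟨⟨j, a, a', hne, h, h'⟩, -⟩
        exact hne (h.symm.trans h')
  obtain ⟨ω₀, h0⟩ := step (St.init (F := F) Kp (T ^ 4)) (π := fun (g : Option F) (a : F) => (g, a))
    (C := 2) hN hπ₀ (by linarith) (by linarith)
    (by linarith) (by linarith [hN.card_opt_le]) (by nlinarith [hN.card_opt_le]) (by nlinarith)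
    (by rw [one_mul]; exact hexp _ (by linarith)) (by linarith) ha1
    (hcast _ (by rw [← hqr]; exact (pow_le_pow_right₀ hτ1 (by norm_num)).trans hr17)) (by
      rw [ha, Real.exp_neg, show (2 : ℝ) * 2 = 4 by norm_num, inv_mul_eq_div,
        le_div_iff₀ (Real.exp_pos _)]
      have := hp 5 7 (by norm_num)
      have := hp 7 8 (by norm_num)
      have := exp_four
      nlinarith [hp' 5, hp 5 6 (by norm_num), hp 6 7 (by norm_num)]) (by linarith) hb.ge (by
      rintro (l | i)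
      · refine Or.inl fun j => card_le_one.2 fun a ha a' ha' => ?_
        exact (show ev l j = a from (mf.1 ha).2).symm.trans (mf.1 ha').2
      · refine Or.inr (le_trans (card_le_one.2 fun j hj j' hj' => ?_) ?_)
        · obtain ⟨a, ha⟩ := (mf.1 hj).2
          obtain ⟨a', ha'⟩ := (mf.1 hj').2
          exact (show j = i from ha).trans (show j' = i from ha').symm
        · exact_mod_cast (show (1 : ℝ) ≤ (T ^ 2 : ℕ) by rw [hb]; exact hp' 2))
  obtain ⟨Ω, hΩ⟩ : ∃ Ω, Ω = nxt ∅ (fun (g : Option F) (a : F) => (g, a)) ω₀ := ⟨_, rfl⟩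
  obtain ⟨wt, hwt⟩ : ∃ wt, wt = nwt (fun _ => 1) (fun (g : Option F) (a : F) => (g, a)) := ⟨_, rfl⟩
  rw [← hΩ, ← hwt] at h0
  have hΩm : ∀ x, x ∈ Ω ↔ ∃ g, (g, ω₀ g) = x := fun x => by simp [hΩ, mem_nxt]
  -- stage 1
  have hf1 := half_le_floor (x := r ^ 2 / 300) (by linarith)
  obtain ⟨M, hM1, hM2, hM3⟩ := stage1 hN (fun g => (g, ω₀ g)) (fun _ => rfl) ⌊r ^ 2 / 300⌋₊
    (Nat.le_floor (by push_cast; linarith)) 2400 (by linarith) (by
      intro g
      have e1 := (abs_le.1 (h0.hD (g, ω₀ g) (by simp))).1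
      have e2 := Finset.sum_le_card_nsmul
        (univ.filter (fun l => on (g, ω₀ g) l ∧ miss Ω (g, ω₀ g) l)) wt 55 fun l _ =>
          (h0.hwt l (by simp [kept])).2.trans (by norm_num; exact exp_four)
      have e3 : #(univ.filter (fun l => on (g, ω₀ g) l ∧ miss Ω (g, ω₀ g) l)) ≤
          #(univ.filter fun l => on (g, ω₀ g) l ∧ ∀ h, on (h, ω₀ h) l → h = g) :=
        card_le_card fun l hl => mf.2 ⟨mem_univ _, (mf.1 hl).2.1, fun h e =>
          congrArg Prod.fst ((mf.1 hl).2.2 _ ((hΩm _).2 ⟨h, rfl⟩) e)⟩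
      have e4 := (Nat.cast_le (α := ℝ)).2 e3
      have e5 := Nat.floor_le (show 0 ≤ r ^ 2 / 300 by positivity)
      rw [nsmul_eq_mul] at e2
      unfold Dg at e1
      exact_mod_cast (show 2 * (⌊r ^ 2 / 300⌋₊ : ℝ) < #(univ.filter fun l =>
        on (g, ω₀ g) l ∧ ∀ h, on (h, ω₀ h) l → h = g) by linarith))
  rw [← hε] at hM3
  -- stage 2
  have hεr : 44 * (r ^ 2 * ε / 100) * C = 1936 * r ^ 2 := by linear_combination 44 * r ^ 2 / 100 * hCε
  have hεr' : r ^ 2 ≤ τ * (r ^ 2 * ε / 100) := by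
    have : C * (r ^ 2 * ε / 100) ≤ τ * (r ^ 2 * ε / 100) := by gcongr
    linarith
  have hεr2 : τ ^ 16 ≤ r ^ 2 * ε / 100 := by
    refine le_of_mul_le_mul_left ?_ hτ0
    calc τ * τ ^ 16 = τ ^ 17 := by ring
      _ ≤ _ := hr17.trans hεr'
  have hεr3 : 100 * (r * τ ^ 3) ≤ r ^ 2 * ε / 100 := by
    refine le_of_mul_le_mul_left ?_ hτ0
    linarith
  have h16 := hp 0 16 (by norm_num)
  have hf2 := half_le_floor (x := r ^ 2 * ε / 50) (by linarith)
  have hf2' := Nat.floor_le (show 0 ≤ r ^ 2 * ε / 50 by positivity)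
  obtain ⟨n, hn⟩ : ∃ n, n = ⌊r ^ 2 * ε / 50⌋₊ := ⟨_, rfl⟩
  rw [← hn] at hf2 hf2'
  have : Nonempty (Fin n) := ⟨⟨0, by exact_mod_cast (show (0 : ℝ) < n by linarith)⟩⟩
  obtain ⟨π, hπ, hπL, hπP⟩ := stage2 (fun g => (g, ω₀ g)) (fun _ => rfl) Ω hΩm M hM1 hM2 n
    (fun g e => by
      have := hM3 g e
      have h : 0 < r * τ ^ 3 := by positivity
      exact_mod_cast (show 22 * (n : ℝ) < #(univ.filter fun i : Option F =>
        i ≠ g ∧ ∀ g' e', on (i, ev (M g e) i) (M g' e') → g = g' ∧ e = e') by linarith))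
  have hJ : (Fintype.card (Option F × Bool × Fin 11) : ℝ) ≤ 44 * r ^ 2 := by
    rw [Fintype.card_prod]
    simp only [Fintype.card_prod, Fintype.card_bool, Fintype.card_fin]
    push_cast
    linarith [hN.card_opt_le]
  have hcn : (Fintype.card (Fin n) : ℝ) = n := by simp
  have h11 : 11 ≤ T ^ 2 := by
    exact_mod_cast (show (11 : ℝ) ≤ (T ^ 2 : ℕ) by rw [hb]; linarith [hp 0 2 (by norm_num)])
  obtain ⟨ω, h2⟩ := step (h0.self (empty_subset _)) (C := C) hN hπ (by linarith) (by linarith)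
    (by linarith) (by
      have : C * (r ^ 2 * ε / 50 / 2) ≤ C * n := by gcongr
      rw [hcn]; linarith) (by nlinarith) (by
      have : τ * (r ^ 2 * ε / 50 / 2) ≤ τ * n := by gcongr
      rw [hcn]; linarith)
    (by rw [one_mul, ← Real.exp_add]; exact hexp _ (by linarith)) (by nlinarith) ha1
    (by rw [Fintype.card_fin]; exact hcast _ (by linarith)) (by
      have e1 := hexp (2 * C + 2 * 2) (by linarith)
      rw [ha, Real.exp_neg, Real.exp_neg]
      rw [Real.exp_add] at e1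
      have e2 : 40 * τ ^ 4 * τ ≤ (τ ^ 4) ^ 2 / 4 / τ := by
        rw [le_div_iff₀ hτ0]
        nlinarith [hp' 6, hp 6 7 (by norm_num), hp 7 8 (by norm_num)]
      refine e2.trans (le_trans (div_le_div_of_nonneg_left (by positivity) (by positivity) e1)
        (le_of_eq ?_))
      field_simp) hCτ hb.ge (fun L => (hπL L).imp id fun h =>
        le_trans (card_le_card fun j hj => mf.2 (mf.1 hj)) (h.trans h11))
  obtain ⟨P, hP⟩ := hπP ω
  rw [← hP] at h2
  have h3 := h2.self (hP ▸ subset_union_left)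
  have hcol : ∀ L : Gl F, (#(P.R.filter fun x => inc x L) : ℝ) ≤ 2 * τ ^ 2 := fun L => by
    have := (Nat.cast_le (α := ℝ)).2 (h3.hcol L)
    rw [Nat.cast_add, Nat.cast_add, hb] at this
    simp only [Nat.cast_zero] at this
    linarith
  -- stage 3
  obtain ⟨G, hG⟩ := stage3 hN hbig P ⌈r ^ 2 / τ⌉₊ (by
      rw [← div_le_iff₀' hτ0]; exact Nat.le_ceil _) (by
      intro z₀ z p hv
      have e1 := h3.hS z₀ z p hv
      have e2 := Nat.ceil_lt_add_one (show 0 ≤ r ^ 2 / τ by positivity)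
      rw [hK, ← hqr] at e1
      obtain ⟨u, hu⟩ : ∃ u, u = Real.exp (-(2 * 2 * 23)) := ⟨_, rfl⟩
      obtain ⟨v, hv⟩ : ∃ v, v = Real.exp (-(2 * C * 23)) := ⟨_, rfl⟩
      rw [← hu, ← hv] at e1
      have hu0 : 0 < u := by rw [hu]; positivity
      have hv0 : 0 < v := by rw [hv]; positivity
      have hu1 : u ≤ 1 := by rw [hu]; exact Real.exp_le_one_iff.2 (by norm_num)
      have hv1 : v ≤ 1 := by rw [hv]; exact Real.exp_le_one_iff.2 (by linarith)
      have e3 : 20000 / τ ≤ u * v := by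
        have e4 := hexp (5 * C + (2 * 2 * 23 + 2 * C * 23)) (by linarith)
        have e5 := Real.add_one_le_exp (5 * C)
        rw [div_le_iff₀ hτ0, hu, hv, ← Real.exp_add]
        calc (20000 : ℝ) ≤ Real.exp (5 * C) := by linarith
          _ = Real.exp (-(2 * 2 * 23) + -(2 * C * 23)) *
              Real.exp (5 * C + (2 * 2 * 23 + 2 * C * 23)) := by
              rw [← Real.exp_add]; congr 1; ring
          _ ≤ _ := by gcongr
      have e4 : 100 * (r * τ ^ 3) ≤ r ^ 2 / τ := by rw [le_div_iff₀ hτ0]; linarith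
      have e5 : 100 ≤ r * τ ^ 3 := by nlinarith [hp 0 3 (by norm_num)]
      have e6 : 20000 * (r ^ 2 / τ) ≤ r ^ 2 * (u * v) := by
        calc _ = r ^ 2 * (20000 / τ) := by ring
          _ ≤ _ := by gcongr
      have e7 : u * v ≤ 1 := mul_le_one₀ hu1 hv0.le hv1
      have e8 : r * τ ^ 3 * v ≤ r * τ ^ 3 := mul_le_of_le_one_right (by positivity) hv1
      exact_mod_cast (show 5819 * (⌈r ^ 2 / τ⌉₊ : ℝ) < #(good P.R z₀ z p) by nlinarith)) hcol
  refine G.main fun S hS hcov => ?_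
  rw [hG] at hcov ⊢
  refine stab hN hbig hinc (fun l hl => ⟨(h3.hwt l hl).1, (h3.hwt l hl).2.trans ?_⟩)
    (fun x hx => (h3.hD x hx).trans (by linarith)) hcol ha (fun X Y h4 h5 h6 => ?_) S hS hcov
  · rw [one_mul, ← Real.exp_add]; exact hexp _ (by linarith)
  · have e1 := h3.hG X Y h4 h5 h6
    obtain ⟨l, hl⟩ : ((grid X Y).filter (kept P.R)).Nonempty := by
      rw [← card_pos, ← Nat.cast_pos (α := ℝ)]
      refine lt_of_lt_of_le ?_ e1
      rw [ha]; positivity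
    exact ⟨l, (mf.1 hl).1, (mf.1 hl).2⟩

theorem main_field : ∃ q₀ : ℕ, ∀ (F : Type) [Field F] [Fintype F], q₀ ≤ Fintype.card F →
    (∀ K : Subfield F, K ≠ ⊤ → Nat.card K ^ 3 ≤ Fintype.card F) →
    ∃ E : Finset (Option F → Option F), (∀ f ∈ E, ∀ g ∈ E, ∃ i, f i = g i) ∧
      ∀ S : Finset (Option F × Option F), (∀ f ∈ E, ∃ i, (i, f i) ∈ S) →
        Fintype.card F + 1 ≤ #S := by
  obtain ⟨ε, hε⟩ : ∃ ε, ε = Real.exp (-(2 * 2400)) := ⟨_, rfl⟩
  obtain ⟨C, hC⟩ : ∃ C, C = 4400 / ε := ⟨_, rfl⟩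
  obtain ⟨B, hB⟩ : ∃ B : ℕ, B = 10000000 := ⟨_, rfl⟩
  have h1 : ∀ᶠ t : ℝ in Filter.atTop, (t + 1) ^ (2 * B) ≤ Real.exp t := by
    have h := (Real.tendsto_pow_mul_exp_neg_atTop_nhds_zero (2 * B)).comp
      (Filter.tendsto_atTop_add_const_right Filter.atTop (1 : ℝ) Filter.tendsto_id)
    filter_upwards [h.eventually (gt_mem_nhds (Real.exp_pos (-1)))] with t ht
    simp only [Function.comp, id] at ht
    have h2 := mul_lt_mul_of_pos_right ht (Real.exp_pos (t + 1))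
    rw [mul_assoc, ← Real.exp_add, ← Real.exp_add] at h2
    simpa using h2.le
  have hlog := Real.tendsto_log_atTop.comp tendsto_natCast_atTop_atTop
  obtain ⟨q₀, hq₀⟩ := Filter.eventually_atTop.1 ((hlog.eventually h1).and
    ((hlog.eventually_ge_atTop (max 100 (Real.exp (100 * C)))).and (Filter.eventually_ge_atTop 1)))
  refine ⟨q₀, fun F _ _ hq hsub => ?_⟩
  obtain ⟨h2, h3, h4⟩ := hq₀ _ hq
  simp only [Function.comp] at h2 h3
  have hq0 : (0 : ℝ) < Fintype.card F := by exact_mod_cast h4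
  rw [Real.exp_log hq0] at h2
  obtain ⟨T, hT⟩ : ∃ T, T = ⌈Real.log (Fintype.card F)⌉₊ := ⟨_, rfl⟩
  have h5 : Real.log (Fintype.card F) ≤ T := hT ▸ Nat.le_ceil _
  have h6 : (100 : ℝ) ≤ T := (le_max_left _ _).trans (h3.trans h5)
  have h7 : (T : ℝ) ≤ Real.log (Fintype.card F) + 1 :=
    hT ▸ (Nat.ceil_lt_add_one (Real.log_natCast_nonneg _)).le
  have h8 : (T : ℝ) ^ B ≤ √(Fintype.card F) := by
    refine Real.le_sqrt_of_sq_le ?_
    rw [← pow_mul, mul_comm]
    exact (pow_le_pow_left₀ (by positivity) h7 _).trans h2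
  have h9 : ∀ k ≤ B, (T : ℝ) ^ k ≤ √(Fintype.card F) := fun k hk =>
    (pow_le_pow_right₀ (by linarith) hk).trans h8
  refine build T (r := √(Fintype.card F)) ⟨h6, by simpa using h9 1 (by omega), Real.sq_sqrt hq0.le,
    ?_⟩ (h9 50 (by omega)) ?_ hε hC ((le_max_right _ _).trans (h3.trans h5))
  · rw [← Real.exp_log hq0]; exact Real.exp_le_exp.2 h5
  · intro S hS hcol
    refine incidence hsub _ _ (Real.sqrt_pos.2 hq0) (Real.sq_sqrt hq0.le) ?_ ?_ S hS hcol
    · calc (2 : ℝ) ^ 17 ≤ 100 ^ 10 := by norm_num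
        _ ≤ _ := by gcongr
    · rw [← pow_mul]; exact h9 _ (by omega)

theorem transport {V : Type} [Fintype V] {q : ℕ} (hV : Fintype.card V = q + 1)
    (E : Finset (V → V)) (h1 : ∀ f ∈ E, ∀ g ∈ E, ∃ i, f i = g i)
    (h2 : ∀ S : Finset (V × V), (∀ f ∈ E, ∃ i, (i, f i) ∈ S) → q + 1 ≤ #S) :
    ∃ (N : ℕ) (part : Fin N → Fin (q + 1)) (E : Finset (Finset (Fin N))),
      E.Nonempty ∧
      (∀ e ∈ E, ∀ i : Fin (q + 1), (e.filter (fun v => part v = i)).card = 1) ∧
      (∀ e ∈ E, ∀ f ∈ E, (e ∩ f).Nonempty) ∧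
      (∀ i : Fin (q + 1), (Finset.univ.filter (fun v => part v = i)).card = q + 1) ∧
      (∀ v : Fin N, ∃ e ∈ E, v ∈ e) ∧
      (∀ S : Finset (Fin N), (∀ e ∈ E, (e ∩ S).Nonempty) → q + 1 ≤ S.card) := by
  let a : V ≃ Fin (q + 1) := Fintype.equivFinOfCardEq hV
  let b : V × V ≃ Fin (Fintype.card (V × V)) := Fintype.equivFin _
  let ed : (V → V) → Finset (Fin (Fintype.card (V × V))) := fun f => univ.image fun i => b (i, f i)
  have hed : ∀ f v, v ∈ ed f ↔ ∃ i, b (i, f i) = v := fun f v => by simp [ed]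
  refine ⟨_, fun v => a (b.symm v).1, E.image ed, ?_, ?_, ?_, ?_, ?_, ?_⟩
  · rcases E.eq_empty_or_nonempty with rfl | h
    · simpa using h2 ∅ (by simp)
    · exact h.image _
  · intro e he i
    obtain ⟨f, -, rfl⟩ := mem_image.1 he
    refine card_eq_one.2 ⟨b (a.symm i, f (a.symm i)), ?_⟩
    ext v
    simp only [mem_filter, hed, mem_singleton]
    constructor
    · rintro ⟨⟨j, rfl⟩, h⟩
      simp only [Equiv.symm_apply_apply] at h
      simp [← h]
    · rintro rfl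
      exact ⟨⟨_, rfl⟩, by simp⟩
  · intro e he e' he'
    obtain ⟨f, hf, rfl⟩ := mem_image.1 he
    obtain ⟨g, hg, rfl⟩ := mem_image.1 he'
    obtain ⟨i, hi⟩ := h1 f hf g hg
    exact ⟨b (i, f i), mem_inter.2 ⟨(hed _ _).2 ⟨i, rfl⟩, (hed _ _).2 ⟨i, by rw [hi]⟩⟩⟩
  · intro i
    refine Eq.trans ?_ (card_univ.trans hV)
    refine Finset.card_bij (fun v _ => (b.symm v).2) (fun _ _ => mem_univ _) ?_ ?_
    · intro v hv w hw h
      refine b.symm.injective (Prod.ext (a.injective ?_) h)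
      exact (mem_filter.1 hv).2.trans (mem_filter.1 hw).2.symm
    · intro y _
      exact ⟨b (a.symm i, y), by simp, by simp⟩
  · intro v
    by_contra hne
    push Not at hne
    have := h2 ((univ.erase (b.symm v).2).image fun y => ((b.symm v).1, y)) fun f hf =>
      ⟨(b.symm v).1, mem_image.2 ⟨_, mem_erase.2 ⟨fun h => hne _ (mem_image_of_mem _ hf)
        ((hed _ _).2 ⟨(b.symm v).1, by rw [h]; simp⟩), mem_univ _⟩, rfl⟩⟩
    have h3 := this.trans card_image_le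
    rw [card_erase_of_mem (mem_univ _), card_univ, hV] at h3
    omega
  · intro S hS
    refine (h2 (S.image b.symm) fun f hf => ?_).trans card_image_le
    obtain ⟨v, hv⟩ := hS _ (mem_image_of_mem _ hf)
    obtain ⟨i, rfl⟩ := (hed _ _).1 (mem_inter.1 hv).1
    exact ⟨i, mem_image.2 ⟨_, (mem_inter.1 hv).2, by simp⟩⟩

/-- In a field whose order is an odd power of a prime, proper subfields are small. -/
lemma subfield_small {F : Type} [Field F] [Fintype F] {p n : ℕ} (hp : p.Prime) (hn : Odd n)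
    (hF : Fintype.card F = p ^ n) (K : Subfield F) (hK : K ≠ ⊤) :
    Nat.card K ^ 3 ≤ Fintype.card F := by
  have h1 : Fintype.card F = Nat.card K ^ Module.finrank K F := by
    rw [← Nat.card_eq_fintype_card]; exact Module.natCard_eq_pow_finrank
  have h2 : 0 < Nat.card K := Nat.card_pos
  have h3 : Module.finrank K F ≠ 1 := fun h => hK (by
    rw [h, pow_one, ← Nat.card_eq_fintype_card] at h1
    refine SetLike.coe_injective ?_
    rw [Subfield.coe_top]
    refine Set.eq_of_subset_of_ncard_le (Set.subset_univ _) ?_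
    rw [Set.ncard_univ, h1]
    exact le_of_eq (Nat.card_coe_set_eq (K : Set F)))
  have h4 : Module.finrank K F ≠ 0 := Module.finrank_pos.ne'
  have h5 : Module.finrank K F ≠ 2 := by
    intro h
    rw [h, hF] at h1
    have := congrArg (fun m => m.factorization p) h1
    simp only [Nat.factorization_pow, Finsupp.smul_apply, hp.factorization_self, smul_eq_mul,
      mul_one] at this
    rw [this] at hn
    exact (Nat.not_odd_iff_even.2 (even_two_mul _)) hn
  rw [h1]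
  exact Nat.pow_le_pow_right h2 (by omega)

theorem ryser : ∃ q₀ : ℕ, ∀ p n : ℕ, p.Prime → Odd n → q₀ ≤ p ^ n →
    ∃ (N : ℕ) (part : Fin N → Fin (p ^ n + 1)) (E : Finset (Finset (Fin N))),
      E.Nonempty ∧
      (∀ e ∈ E, ∀ i : Fin (p ^ n + 1), (e.filter (fun v => part v = i)).card = 1) ∧
      (∀ e ∈ E, ∀ f ∈ E, (e ∩ f).Nonempty) ∧
      (∀ i : Fin (p ^ n + 1), (Finset.univ.filter (fun v => part v = i)).card = p ^ n + 1) ∧
      (∀ v : Fin N, ∃ e ∈ E, v ∈ e) ∧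
      (∀ S : Finset (Fin N), (∀ e ∈ E, (e ∩ S).Nonempty) → p ^ n + 1 ≤ S.card) := by
  obtain ⟨q₀, h⟩ := main_field
  refine ⟨q₀, fun p n hp hn hq => ?_⟩
  have := Fact.mk hp
  have := Fintype.ofFinite (GaloisField p n)
  have hF : Fintype.card (GaloisField p n) = p ^ n := by
    rw [← Nat.card_eq_fintype_card]; exact GaloisField.card p n hn.pos.ne'
  obtain ⟨E, h1, h2⟩ := h (GaloisField p n) (hF ▸ hq) (subfield_small hp hn hF)
  exact transport (by rw [Fintype.card_option, hF]) E h1 (hF ▸ h2)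

end Crest.Agent.R34
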