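import Mathlib

/-! Probability on finite products: McDiarmid, a Poisson-type tail bound and a
negative-association bound. -/

set_option linter.unusedSectionVars false

open Finset Function
open scoped BigOperators

namespace Crest.Agent.R34

open Classical in
noncomputable def Pr {Ω : Type*} [Fintype Ω] (E : Ω → Prop) : ℝ :=
  𝔼 ω, if E ω then (1 : ℝ) else 0

section basic
variable {Ω : Type*} [Fintype Ω]

lemma Pr_eq (E : Ω → Prop) [DecidablePred E] : Pr E = 𝔼 ω, if E ω then (1 : ℝ) else 0 := by
  unfold Pr; congr!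

lemma Pr_eq_card (E : Ω → Prop) [DecidablePred E] :
    Pr E = #(univ.filter E) / Fintype.card Ω := by
  rw [Pr_eq, Fintype.expect_eq_sum_div_card, Finset.card_filter]; push_cast; rfl

lemma Pr_nonneg (E : Ω → Prop) : 0 ≤ Pr E := by
  classical rw [Pr_eq_card]; positivity

lemma Pr_le_expect (E : Ω → Prop) (f : Ω → ℝ) (h0 : ∀ ω, 0 ≤ f ω) (h1 : ∀ ω, E ω → 1 ≤ f ω) :
    Pr E ≤ 𝔼 ω, f ω := by
  unfold Pr
  refine Finset.expect_le_expect fun ω _ => ?_
  split_ifs with h
  exacts [h1 ω h, h0 ω]

lemma Pr_mono {E E' : Ω → Prop} (h : ∀ ω, E ω → E' ω) : Pr E ≤ Pr E' := by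
  classical
  refine Pr_le_expect _ _ (fun ω => by split_ifs <;> norm_num) fun ω hω => ?_
  rw [if_pos (h ω hω)]

lemma Pr_or (E E' : Ω → Prop) : Pr (fun ω => E ω ∨ E' ω) ≤ Pr E + Pr E' := by
  classical
  unfold Pr
  rw [← Finset.expect_add_distrib]
  refine Finset.expect_le_expect fun ω _ => ?_
  by_cases h : E ω <;> by_cases h' : E' ω <;> simp [h, h']

lemma Pr_exists {ι : Type*} [Fintype ι] (E : ι → Ω → Prop) (ε : ℝ) (h : ∀ i, Pr (E i) ≤ ε) :
    Pr (fun ω => ∃ i, E i ω) ≤ Fintype.card ι * ε := by
  classical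
  have h1 : Pr (fun ω => ∃ i, E i ω) ≤ 𝔼 ω, ∑ i, if E i ω then (1 : ℝ) else 0 := by
    refine Pr_le_expect _ _ (fun ω => Finset.sum_nonneg fun i _ => by split_ifs <;> norm_num) ?_
    rintro ω ⟨i, hi⟩
    have := Finset.single_le_sum (f := fun i => if E i ω then (1 : ℝ) else 0)
      (fun i _ => by split_ifs <;> norm_num) (mem_univ i)
    simpa [hi] using this
  rw [Finset.expect_sum_comm] at h1
  refine h1.trans ?_
  rw [← nsmul_eq_mul, ← Finset.card_univ]
  refine Finset.sum_le_card_nsmul _ _ _ fun i _ => ?_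
  rw [← Pr_eq]; exact h i

lemma Pr_not [Nonempty Ω] (E : Ω → Prop) : Pr (fun ω => ¬ E ω) = 1 - Pr E := by
  classical
  unfold Pr
  rw [← Fintype.expect_const (ι := Ω) (1 : ℝ), ← Finset.expect_sub_distrib]
  refine Finset.expect_congr rfl fun ω _ => ?_
  by_cases h : E ω <;> simp [h]

lemma Pr_le_one [Nonempty Ω] (E : Ω → Prop) : Pr E ≤ 1 := by
  have := Pr_nonneg (fun ω => ¬ E ω)
  rw [Pr_not] at this; linarith

lemma exists_not_of_Pr [Nonempty Ω] (E : Ω → Prop) (h : Pr E < 1) : ∃ ω, ¬ E ω := by
  by_contra hne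
  push Not at hne
  have : Pr E = 1 := by
    unfold Pr
    simp only [hne, if_true]
    exact Fintype.expect_const _
  linarith

lemma Pr_false {E : Ω → Prop} (h : ∀ ω, ¬ E ω) : Pr E = 0 := by
  unfold Pr; simp [h]

end basic

variable {J α : Type*} [Fintype J] [DecidableEq J] [Fintype α] [Nonempty α]

lemma expect_update (j : J) (g : (J → α) → ℝ) :
    𝔼 ω, g ω = 𝔼 ω, 𝔼 a, g (update ω j a) := by
  have h1 : 𝔼 ω : J → α, 𝔼 a : α, g (update ω j a)
      = 𝔼 p : (J → α) × α, g (update p.1 j p.2) := by
    rw [← Finset.expect_product' univ univ fun ω a => g (update ω j a), univ_product_univ]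
  have h2 : 𝔼 p : (J → α) × α, g p.1 = 𝔼 ω, g ω := by
    rw [← univ_product_univ, Finset.expect_product' univ univ fun ω (_ : α) => g ω]
    simp only [Fintype.expect_const]
  have hinv : Involutive fun p : (J → α) × α => (update p.1 j p.2, p.1 j) := by
    rintro ⟨ω, a⟩; simp
  rw [h1, ← h2]
  exact (Fintype.expect_bijective _ hinv.bijective _ _ fun p => rfl).symm

lemma expect_prod (s : Finset J) (φ : J → α → ℝ) :
    𝔼 ω : J → α, ∏ j ∈ s, φ j (ω j) = ∏ j ∈ s, 𝔼 a, φ j a := by
  induction s using Finset.induction_on with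
  | empty => simp
  | insert j s hj ih =>
    rw [expect_update j, prod_insert hj, ← ih, Finset.mul_expect]
    refine Finset.expect_congr rfl fun ω _ => ?_
    rw [Finset.expect_mul]
    refine Finset.expect_congr rfl fun a _ => ?_
    rw [prod_insert hj, update_self]
    congr 1
    exact Finset.prod_congr rfl fun j' hj' => by rw [update_of_ne (ne_of_mem_of_not_mem hj' hj)]

lemma hoeffding_step (g : α → ℝ) (c t : ℝ) (hg : ∀ a a', |g a - g a'| ≤ c) :
    𝔼 a, Real.exp (t * g a) ≤ Real.exp (t * (𝔼 a, g a) + t ^ 2 * c ^ 2 / 2) := by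
  obtain ⟨m, hm⟩ : ∃ m, m = 𝔼 a, g a := ⟨_, rfl⟩
  rw [← hm]
  have hd : ∀ a, |g a - m| ≤ c := by
    intro a
    have : g a - m = 𝔼 a', (g a - g a') := by
      rw [Finset.expect_sub_distrib, Fintype.expect_const, hm]
    rw [this, abs_le]
    constructor
    · exact Finset.le_expect univ_nonempty fun a' _ => (abs_le.1 (hg a a')).1
    · exact Finset.expect_le univ_nonempty fun a' _ => (abs_le.1 (hg a a')).2
  have hc : 0 ≤ c := (abs_nonneg _).trans (hd (Classical.arbitrary α))
  rcases hc.eq_or_lt with rfl | hc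
  · have : ∀ a, g a = m := fun a => sub_eq_zero.1 (abs_nonpos_iff.1 (hd a))
    simp [this]
  have h1 : ∀ a, Real.exp (t * g a) ≤ Real.exp (t * m) *
      (Real.cosh (t * c) + (g a - m) * (Real.sinh (t * c) / c)) := by
    intro a
    have h2 := abs_le.1 (hd a)
    have h3 := convexOn_exp.2 (Set.mem_univ (t * c)) (Set.mem_univ (-(t * c)))
      (show 0 ≤ (c + (g a - m)) / (2 * c) by apply div_nonneg <;> linarith)
      (show 0 ≤ (c - (g a - m)) / (2 * c) by apply div_nonneg <;> linarith)
      (by field_simp; ring)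
    simp only [smul_eq_mul] at h3
    have e1 : (c + (g a - m)) / (2 * c) * (t * c) + (c - (g a - m)) / (2 * c) * -(t * c)
        = t * (g a - m) := by field_simp; ring
    rw [e1] at h3
    rw [show t * g a = t * m + t * (g a - m) by ring, Real.exp_add]
    gcongr
    refine h3.trans (le_of_eq ?_)
    rw [Real.cosh_eq, Real.sinh_eq]
    field_simp
    ring
  calc 𝔼 a, Real.exp (t * g a) ≤ 𝔼 a, Real.exp (t * m) *
        (Real.cosh (t * c) + (g a - m) * (Real.sinh (t * c) / c)) :=
        Finset.expect_le_expect fun a _ => h1 a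
    _ = Real.exp (t * m) * Real.cosh (t * c) := by
        rw [← Finset.mul_expect, Finset.expect_add_distrib, ← Finset.expect_mul,
          Finset.expect_sub_distrib, ← hm]
        simp only [Fintype.expect_const]
        ring
    _ ≤ _ := by
        rw [Real.exp_add]
        gcongr
        refine (Real.cosh_le_exp_half_sq _).trans (le_of_eq ?_)
        congr 1; ring

lemma mcd_mgf (s : Finset J) (c t : ℝ) : ∀ f : (J → α) → ℝ,
    (∀ ω ω', (∀ j ∈ s, ω j = ω' j) → f ω = f ω') →
    (∀ ω j a, |f ω - f (update ω j a)| ≤ c) →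
    𝔼 ω, Real.exp (t * f ω) ≤ Real.exp (t * (𝔼 ω, f ω) + #s * (t ^ 2 * c ^ 2 / 2)) := by
  induction s using Finset.induction_on with
  | empty =>
    intro f hf _
    have : ∀ ω, f ω = f (Classical.arbitrary _) := fun ω => hf _ _ (by simp)
    simp only [this, Fintype.expect_const]
    simp
  | insert j s hj ih =>
    intro f hf hc
    have h1 := ih (fun ω => 𝔼 a, f (update ω j a)) (by
      intro ω ω' h
      refine Finset.expect_congr rfl fun a _ => hf _ _ fun j' hj' => ?_
      by_cases e : j' = j
      · subst e; simp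
      · rw [update_of_ne e, update_of_ne e]
        exact h j' ((mem_insert.1 hj').resolve_left e)) (by
      intro ω j' a'
      rw [← Finset.expect_sub_distrib, abs_le]
      have key : ∀ a, |f (update ω j a) - f (update (update ω j' a') j a)| ≤ c := by
        intro a
        by_cases e : j' = j
        · subst e
          rw [update_idem, sub_self, abs_zero]
          exact (abs_nonneg _).trans (hc ω j' a)
        · rw [update_comm e]; exact hc _ _ _
      exact ⟨Finset.le_expect univ_nonempty fun a _ => (abs_le.1 (key a)).1,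
        Finset.expect_le univ_nonempty fun a _ => (abs_le.1 (key a)).2⟩)
    rw [← expect_update j f] at h1
    rw [expect_update j, card_insert_of_notMem hj]
    calc _ ≤ 𝔼 ω, Real.exp (t * (𝔼 a, f (update ω j a)) + t ^ 2 * c ^ 2 / 2) := by
          refine Finset.expect_le_expect fun ω _ => hoeffding_step _ c t fun a a' => ?_
          have := hc (update ω j a) j a'
          rwa [update_idem] at this
      _ = (𝔼 ω, Real.exp (t * (𝔼 a, f (update ω j a)))) * Real.exp (t ^ 2 * c ^ 2 / 2) := by
          rw [Finset.expect_mul]; simp only [Real.exp_add]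
      _ ≤ Real.exp (t * (𝔼 ω, f ω) + #s * (t ^ 2 * c ^ 2 / 2)) * Real.exp (t ^ 2 * c ^ 2 / 2) := by
          gcongr
      _ = _ := by rw [← Real.exp_add]; push_cast; ring_nf

/-- McDiarmid's inequality (with a weaker constant). -/
lemma mcd (f : (J → α) → ℝ) (c lam D : ℝ) (hc : ∀ ω j a, |f ω - f (update ω j a)| ≤ c)
    (hlam : 0 ≤ lam) (hD : 0 < D) (hJ : Fintype.card J * c ^ 2 ≤ D) :
    Pr (fun ω => lam ≤ |f ω - 𝔼 ω, f ω|) ≤ 2 * Real.exp (-(lam ^ 2 / (2 * D))) := by
  have one : ∀ f : (J → α) → ℝ, (∀ ω j a, |f ω - f (update ω j a)| ≤ c) →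
      Pr (fun ω => lam ≤ f ω - 𝔼 ω, f ω) ≤ Real.exp (-(lam ^ 2 / (2 * D))) := by
    intro f hc
    have h1 := mcd_mgf univ c (lam / D) f (fun ω ω' h => by
      rw [show ω = ω' from funext fun j => h j (mem_univ j)]) hc
    obtain ⟨m, hm⟩ : ∃ m, m = 𝔼 ω, f ω := ⟨_, rfl⟩
    rw [← hm] at h1 ⊢
    calc _ ≤ 𝔼 ω, Real.exp (lam / D * f ω) * Real.exp (-(lam / D * (m + lam))) := by
          refine Pr_le_expect _ _ (fun ω => by positivity) fun ω hω => ?_
          rw [← Real.exp_add]
          refine Real.one_le_exp ?_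
          have : 0 ≤ lam / D * (f ω - m - lam) := mul_nonneg (by positivity) (by linarith)
          linarith
      _ ≤ Real.exp (lam / D * m + #(univ : Finset J) * ((lam / D) ^ 2 * c ^ 2 / 2)) *
            Real.exp (-(lam / D * (m + lam))) := by
          rw [← Finset.expect_mul]; gcongr
      _ ≤ _ := by
          rw [← Real.exp_add, card_univ]
          refine Real.exp_le_exp.2 ?_
          have h2 : (Fintype.card J : ℝ) * ((lam / D) ^ 2 * c ^ 2 / 2) ≤ D * (lam / D) ^ 2 / 2 := by
            have : 0 ≤ (lam / D) ^ 2 / 2 := by positivity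
            nlinarith
          have h3 : D * (lam / D) ^ 2 / 2 - lam / D * lam = -(lam ^ 2 / (2 * D)) := by
            field_simp; ring
          linarith
  have h1 := one f hc
  have h2 := one (fun ω => -f ω) fun ω j a => by
    rw [show -f ω - -f (update ω j a) = -(f ω - f (update ω j a)) by ring, abs_neg]
    exact hc ω j a
  rw [Finset.expect_neg_distrib] at h2
  rw [two_mul]
  refine le_trans (Pr_mono fun ω hω => ?_) ((Pr_or _ _).trans (add_le_add h1 h2))
  rcases le_abs.1 hω with h | h
  · exact Or.inl h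
  · exact Or.inr (by linarith)

/-- Many independent rare events. -/
lemma tail (A : J → α → Prop) [∀ j a, Decidable (A j a)] (b : ℕ) (L μ : ℝ) (hL : 1 ≤ L)
    (hμ : ∑ j, Pr (A j) ≤ μ) :
    Pr (fun ω : J → α => b ≤ #(univ.filter fun j => A j (ω j))) ≤ Real.exp (L * μ) / L ^ b := by
  have hL0 : 0 < L := by linarith
  calc _ ≤ 𝔼 ω : J → α, (∏ j, (1 + (L - 1) * if A j (ω j) then (1 : ℝ) else 0)) / L ^ b := by
        have key : ∀ ω : J → α, (∏ j, (1 + (L - 1) * if A j (ω j) then (1 : ℝ) else 0))
            = L ^ #(univ.filter fun j => A j (ω j)) := by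
          intro ω
          rw [← Finset.prod_const, Finset.prod_filter]
          refine Finset.prod_congr rfl fun j _ => ?_
          split_ifs <;> ring
        refine Pr_le_expect _ _ (fun ω => by rw [key]; positivity) fun ω hω => ?_
        rw [key, le_div_iff₀ (by positivity), one_mul]
        exact pow_le_pow_right₀ hL hω
    _ = (∏ j, (1 + (L - 1) * Pr (A j))) / L ^ b := by
        rw [← Finset.expect_div,
          expect_prod univ fun j a => 1 + (L - 1) * if A j a then (1 : ℝ) else 0]
        congr 2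
        funext j
        rw [Finset.expect_add_distrib, Fintype.expect_const, ← Finset.mul_expect, Pr_eq]
    _ ≤ _ := by
        gcongr
        calc ∏ j, (1 + (L - 1) * Pr (A j)) ≤ ∏ j, Real.exp (L * Pr (A j)) := by
              refine Finset.prod_le_prod (fun j _ => ?_) fun j _ => ?_
              · have := Pr_nonneg (A j); nlinarith
              · have := Pr_nonneg (A j)
                have := Real.add_one_le_exp (L * Pr (A j))
                nlinarith
          _ = Real.exp (L * ∑ j, Pr (A j)) := by rw [← Real.exp_sum, Finset.mul_sum]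
          _ ≤ _ := by gcongr

section alive
variable {ι : Type*} (kill : J → α → ι → Prop)

/-- Item `i` survives all the variables. -/
def alive (ω : J → α) (i : ι) : Prop := ∀ j, ¬ kill j (ω j) i

/-- The survival probability. -/
noncomputable def surv (i : ι) : ℝ := ∏ j, (1 - Pr fun a => kill j a i)

lemma Pr_alive (i : ι) : Pr (fun ω => alive kill ω i) = surv kill i := by
  classical
  unfold surv
  simp only [← Pr_not]
  simp only [Pr_eq]
  rw [← expect_prod univ fun j a => if ¬ kill j a i then (1 : ℝ) else 0]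
  refine Finset.expect_congr rfl fun ω _ => ?_
  rw [Finset.prod_boole]
  simp [alive]

lemma surv_nonneg (i : ι) : 0 ≤ surv kill i := by rw [← Pr_alive]; exact Pr_nonneg _

lemma surv_le_one (i : ι) : surv kill i ≤ 1 := by rw [← Pr_alive]; exact Pr_le_one _

lemma exp_le_one_sub {x : ℝ} (h0 : 0 ≤ x) (h1 : x ≤ 1 / 2) : Real.exp (-(2 * x)) ≤ 1 - x := by
  rw [Real.exp_neg, inv_le_iff_one_le_mul₀ (Real.exp_pos _)]
  have := Real.add_one_le_exp (2 * x)
  nlinarith

lemma surv_ge (i : ι) (k C : ℝ) (hk : 0 ≤ k) (hk2 : 2 * k ≤ Fintype.card α)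
    (hJ : (Fintype.card J : ℝ) ≤ C * Fintype.card α)
    (h : ∀ j, Pr (fun a => kill j a i) ≤ k / Fintype.card α) :
    Real.exp (-(2 * C * k)) ≤ surv kill i := by
  have hn : (0 : ℝ) < Fintype.card α := by exact_mod_cast Fintype.card_pos
  have h1 : k / Fintype.card α ≤ 1 / 2 := by rw [div_le_div_iff₀ hn two_pos]; linarith
  calc Real.exp (-(2 * C * k)) ≤ Real.exp (∑ _j : J, -(2 * (k / Fintype.card α))) := by
        refine Real.exp_le_exp.2 ?_
        rw [sum_const, card_univ, nsmul_eq_mul]
        have : (Fintype.card J : ℝ) * (2 * (k / Fintype.card α))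
            ≤ C * Fintype.card α * (2 * (k / Fintype.card α)) := by gcongr
        have e : C * Fintype.card α * (2 * (k / Fintype.card α)) = 2 * C * k := by field_simp
        linarith
    _ ≤ _ := by
        rw [Real.exp_sum]
        refine Finset.prod_le_prod (fun _ _ => (Real.exp_pos _).le) fun j _ => ?_
        refine (exp_le_one_sub (by positivity) h1).trans ?_
        linarith [h j]

open Classical in
/-- Concentration of the weighted number of surviving items. -/
lemma mcd_alive (A : Finset ι) (w : ι → ℝ) (W lam D : ℝ) (b : ℕ) (hW : 0 ≤ W)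
    (hw0 : ∀ i ∈ A, 0 ≤ w i) (hw : ∀ i ∈ A, w i ≤ W)
    (hb : ∀ j a, #(A.filter fun i => kill j a i) ≤ b)
    (hlam : 0 ≤ lam) (hD : 0 < D) (hJ : Fintype.card J * (b * W) ^ 2 ≤ D) :
    Pr (fun ω => lam ≤ |∑ i ∈ A.filter (fun i => alive kill ω i), w i -
      ∑ i ∈ A, w i * surv kill i|) ≤ 2 * Real.exp (-(lam ^ 2 / (2 * D))) := by
  have hE : 𝔼 ω, ∑ i ∈ A.filter (fun i => alive kill ω i), w i = ∑ i ∈ A, w i * surv kill i := by
    simp only [Finset.sum_filter]
    rw [Finset.expect_sum_comm]
    refine Finset.sum_congr rfl fun i _ => ?_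
    rw [← Pr_alive, Pr_eq, Finset.mul_expect]
    refine Finset.expect_congr rfl fun ω _ => ?_
    split_ifs <;> simp
  rw [← hE]
  refine mcd _ (b * W) lam D ?_ hlam hD hJ
  have key : ∀ (ω ω' : J → α) (j : J), (∀ j', j' ≠ j → ω j' = ω' j') →
      ∑ i ∈ A.filter (fun i => alive kill ω i), w i -
        ∑ i ∈ A.filter (fun i => alive kill ω' i), w i ≤ b * W := by
    intro ω ω' j h
    have h1 : A.filter (fun i => alive kill ω i) ⊆
        A.filter (fun i => alive kill ω' i) ∪ A.filter fun i => kill j (ω' j) i := by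
      intro i hi
      obtain ⟨hiA, hi⟩ := mem_filter.1 hi
      by_cases hk : kill j (ω' j) i
      · exact mem_union_right _ (mem_filter.2 ⟨hiA, hk⟩)
      · refine mem_union_left _ (mem_filter.2 ⟨hiA, fun j' => ?_⟩)
        by_cases e : j' = j
        · rwa [e]
        · rw [← h j' e]; exact hi j'
    have h2 := Finset.sum_le_sum_of_subset_of_nonneg (f := w) h1 fun i hi _ => by
      rcases mem_union.1 hi with h | h <;> exact hw0 i (mem_filter.1 h).1
    have h3 := Finset.sum_union_inter (s₁ := A.filter (fun i => alive kill ω' i))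
      (s₂ := A.filter fun i => kill j (ω' j) i) (f := w)
    have h4 : 0 ≤ ∑ i ∈ A.filter (fun i => alive kill ω' i) ∩ A.filter fun i => kill j (ω' j) i,
        w i := Finset.sum_nonneg fun i hi => hw0 i (mem_filter.1 (mem_inter.1 hi).1).1
    have h5 : ∑ i ∈ A.filter fun i => kill j (ω' j) i, w i ≤ b * W := by
      refine (Finset.sum_le_card_nsmul _ _ W fun i hi => hw i (mem_filter.1 hi).1).trans ?_
      rw [nsmul_eq_mul]
      gcongr
      exact hb j _
    linarith
  intro ω j a
  rw [abs_sub_le_iff]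
  exact ⟨key _ _ j fun j' e => by rw [update_of_ne e], key _ _ j fun j' e => by rw [update_of_ne e]⟩

lemma one_add_sum_le_prod (A : Finset ι) (y : ι → ℝ) (hy : ∀ i ∈ A, 0 ≤ y i) :
    1 + ∑ i ∈ A, y i ≤ ∏ i ∈ A, (1 + y i) := by
  classical
  induction A using Finset.induction_on with
  | empty => simp
  | insert i A hi ih =>
    rw [sum_insert hi, prod_insert hi]
    have h1 := ih fun j hj => hy j (mem_insert_of_mem hj)
    have h2 := hy i (mem_insert_self _ _)
    have h3 : 0 ≤ ∑ i ∈ A, y i := Finset.sum_nonneg fun j hj => hy j (mem_insert_of_mem hj)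
    nlinarith

open Classical in
lemma na_step (A B : Finset ι) (hBA : B ⊆ A) (k : α → ι → Prop) (ok : α → Prop)
    (h2 : ∀ a, ok a → #(A.filter fun i => k a i) ≤ 2) (t : ι → ℝ)
    (ht : ∀ i, 1 / 2 ≤ t i ∧ t i ≤ 1) :
    𝔼 a, (if ok a then (1 : ℝ) else 0) * ∏ i ∈ B.filter (fun i => ¬ k a i), t i ≤
      (1 + Pr fun a => ok a ∧ 2 ≤ #(A.filter fun i => k a i)) *
        ∏ i ∈ B, (Pr (fun a => k a i) + (1 - Pr (fun a => k a i)) * t i) := by
  have ht0 : ∀ i, 0 < t i := fun i => by linarith [(ht i).1]
  obtain ⟨x, hx⟩ : ∃ x : ι → ℝ, ∀ i, x i = 1 / t i - 1 := ⟨_, fun _ => rfl⟩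
  have hx0 : ∀ i, 0 ≤ x i := fun i => by
    rw [hx, sub_nonneg, le_div_iff₀ (ht0 i)]; linarith [(ht i).2]
  have hx1 : ∀ i, x i ≤ 1 := fun i => by
    rw [hx, sub_le_iff_le_add, div_le_iff₀ (ht0 i)]; linarith [(ht i).1]
  have hP : 0 ≤ ∏ i ∈ B, t i := Finset.prod_nonneg fun i _ => (ht0 i).le
  have h1 : ∀ a, (if ok a then (1 : ℝ) else 0) * ∏ i ∈ B.filter (fun i => ¬ k a i), t i ≤
      (∏ i ∈ B, t i) * (1 + ∑ i ∈ B, (if k a i then (1 : ℝ) else 0) * x i +
        if ok a ∧ 2 ≤ #(A.filter fun i => k a i) then (1 : ℝ) else 0) := by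
    intro a
    have hs : ∑ i ∈ B, (if k a i then (1 : ℝ) else 0) * x i = ∑ i ∈ B.filter (k a ·), x i := by
      rw [Finset.sum_filter]
      refine Finset.sum_congr rfl fun i _ => ?_
      split_ifs <;> simp
    have hs0 : 0 ≤ ∑ i ∈ B.filter (k a ·), x i := Finset.sum_nonneg fun i _ => hx0 i
    rw [hs]
    by_cases ha : ok a
    swap
    · rw [if_neg ha, zero_mul]
      refine mul_nonneg hP ?_
      split_ifs <;> linarith
    rw [if_pos ha, one_mul]
    have e1 : ∏ i ∈ B.filter (fun i => ¬ k a i), t i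
        = (∏ i ∈ B, t i) * ∏ i ∈ B.filter (k a ·), (1 + x i) := by
      rw [← Finset.prod_filter_not_mul_prod_filter B (k a ·) t, mul_assoc,
        ← Finset.prod_mul_distrib]
      rw [Finset.prod_eq_one (s := B.filter (k a ·)), mul_one]
      intro i _
      rw [hx]; have := ht0 i; field_simp; ring
    rw [e1]
    gcongr
    have hle : #(B.filter (k a ·)) ≤ #(A.filter fun i => k a i) :=
      card_le_card (filter_subset_filter _ hBA)
    have hle2 := hle.trans (h2 a ha)
    generalize B.filter (k a ·) = H at hle hle2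
    have hif : (0 : ℝ) ≤ if ok a ∧ 2 ≤ #(A.filter fun i => k a i) then (1 : ℝ) else 0 := by
      split_ifs <;> norm_num
    rcases Nat.lt_or_ge #H 2 with h | h
    · rcases Nat.lt_or_ge #H 1 with h' | h'
      · rw [card_eq_zero.1 (by omega : #H = 0)]; simpa using hif
      · obtain ⟨i, rfl⟩ := card_eq_one.1 (by omega : #H = 1)
        simpa using hif
    · obtain ⟨i, i', hii, rfl⟩ := card_eq_two.1 (by omega : #H = 2)
      rw [if_pos ⟨ha, h.trans hle⟩, prod_pair hii, sum_pair hii]
      nlinarith [hx0 i, hx1 i, hx0 i', hx1 i']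
  refine (Finset.expect_le_expect fun a _ => h1 a).trans ?_
  rw [← Finset.mul_expect, Finset.expect_add_distrib, Finset.expect_add_distrib,
    Fintype.expect_const, Finset.expect_sum_comm, ← Pr_eq]
  have e2 : ∀ i, 𝔼 a, (if k a i then (1 : ℝ) else 0) * x i = Pr (fun a => k a i) * x i := by
    intro i; rw [← Finset.expect_mul, Pr_eq]
  simp only [e2]
  have h3 := one_add_sum_le_prod B (fun i => Pr (fun a => k a i) * x i)
    fun i _ => mul_nonneg (Pr_nonneg _) (hx0 i)
  have h4 : 0 ≤ ∑ i ∈ B, Pr (fun a => k a i) * x i :=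
    Finset.sum_nonneg fun i _ => mul_nonneg (Pr_nonneg _) (hx0 i)
  have h5 := Pr_nonneg fun a => ok a ∧ 2 ≤ #(A.filter fun i => k a i)
  have e3 : ∏ i ∈ B, (Pr (fun a => k a i) + (1 - Pr (fun a => k a i)) * t i)
      = (∏ i ∈ B, t i) * ∏ i ∈ B, (1 + Pr (fun a => k a i) * x i) := by
    rw [← Finset.prod_mul_distrib]
    refine Finset.prod_congr rfl fun i _ => ?_
    rw [hx]; have := ht0 i; field_simp; ring
  rw [e3, mul_left_comm]
  gcongr
  nlinarith

open Classical in
lemma na_mgf (A : Finset ι) (ok : J → α → Prop)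
    (h2 : ∀ j a, ok j a → #(A.filter fun i => kill j a i) ≤ 2) (s : Finset J) :
    ∀ t : ι → ℝ, (∀ i, 1 / 2 ≤ t i ∧ t i ≤ 1) →
    𝔼 ω : J → α, (if ∀ j ∈ s, ok j (ω j) then (1 : ℝ) else 0) *
        ∏ i ∈ A.filter (fun i => ∀ j ∈ s, ¬ kill j (ω j) i), t i ≤
      (∏ j ∈ s, (1 + Pr fun a => ok j a ∧ 2 ≤ #(A.filter fun i => kill j a i))) *
        ∏ i ∈ A, (1 - (1 - t i) * ∏ j ∈ s, (1 - Pr fun a => kill j a i)) := by
  induction s using Finset.induction_on with
  | empty => intro t _; simp
  | insert j s hj ih =>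
    intro t ht
    have h1 := ih (fun i => Pr (fun a => kill j a i) + (1 - Pr (fun a => kill j a i)) * t i)
      fun i => by
        have := Pr_nonneg fun a => kill j a i
        have := Pr_le_one fun a => kill j a i
        have := ht i
        constructor <;> nlinarith
    have hβ := Pr_nonneg fun a => ok j a ∧ 2 ≤ #(A.filter fun i => kill j a i)
    rw [expect_update j, prod_insert hj, mul_assoc]
    refine le_trans ?_ (mul_le_mul_of_nonneg_left (h1.trans (le_of_eq ?_)) (by linarith))
    · rw [Finset.mul_expect]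
      refine Finset.expect_le_expect fun ω _ => ?_
      have h3 := na_step A (A.filter (fun i => ∀ j ∈ s, ¬ kill j (ω j) i)) (filter_subset _ _)
        (kill j) (ok j) (h2 j) t ht
      have hup : ∀ a, ∀ j' ∈ s, update ω j a j' = ω j' :=
        fun a j' hj' => update_of_ne (ne_of_mem_of_not_mem hj' hj) _ _
      by_cases hs : ∀ j ∈ s, ok j (ω j)
      · rw [if_pos hs, one_mul]
        refine le_trans (le_of_eq ?_) h3
        refine Finset.expect_congr rfl fun a _ => ?_
        congr 1
        · refine if_congr ?_ rfl rfl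
          simp only [forall_mem_insert, update_self, and_iff_left_iff_imp]
          intro _ j' hj'
          rw [hup a j' hj']; exact hs j' hj'
        · rw [filter_filter]
          refine Finset.prod_congr (Finset.filter_congr fun i _ => ?_) fun _ _ => rfl
          simp only [forall_mem_insert, update_self]
          rw [and_comm]
          refine and_congr_left fun _ => forall₂_congr fun j' hj' => ?_
          rw [hup a j' hj']
      · rw [if_neg hs, zero_mul, mul_zero]
        refine le_of_eq (Finset.expect_eq_zero fun a _ => ?_)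
        rw [if_neg, zero_mul]
        intro h
        refine hs fun j' hj' => ?_
        rw [← hup a j' hj']; exact h j' (mem_insert_of_mem hj')
    · congr 1
      refine Finset.prod_congr rfl fun i _ => ?_
      rw [prod_insert hj]; ring

open Classical in
/-- Few survivors are unlikely when a value kills at most two items, and rarely two. -/
lemma na (A : Finset ι) (ok : J → α → Prop)
    (h2 : ∀ j a, ok j a → #(A.filter fun i => kill j a i) ≤ 2) (ρ β k : ℝ)
    (hρ : ∀ i ∈ A, ρ ≤ surv kill i)
    (hβ : ∑ j, Pr (fun a => ok j a ∧ 2 ≤ #(A.filter fun i => kill j a i)) ≤ β) :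
    Pr (fun ω : J → α => (∀ j, ok j (ω j)) ∧ (#(A.filter fun i => alive kill ω i) : ℝ) ≤ k) ≤
      Real.exp (k + β - ρ * #A / 2) := by
  have h1 := na_mgf kill A ok h2 univ (fun _ => 1 / 2) fun _ => by norm_num
  have hl : Real.log 2 ≤ 1 := by
    have := Real.log_le_sub_one_of_pos (show (0 : ℝ) < 2 by norm_num); linarith
  calc _ ≤ 𝔼 ω : J → α, Real.exp k * ((if ∀ j ∈ (univ : Finset J), ok j (ω j) then (1 : ℝ) else 0) *
        ∏ i ∈ A.filter (fun i => ∀ j ∈ (univ : Finset J), ¬ kill j (ω j) i), (1 / 2 : ℝ)) := by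
        refine Pr_le_expect _ _ (fun ω => by positivity) ?_
        rintro ω ⟨h3, h4⟩
        rw [if_pos fun j _ => h3 j, one_mul, prod_const]
        have e : A.filter (fun i => ∀ j ∈ (univ : Finset J), ¬ kill j (ω j) i)
            = A.filter fun i => alive kill ω i := by
          refine Finset.filter_congr fun i _ => ?_
          simp [alive]
        rw [e, one_div, inv_pow, ← div_eq_mul_inv, le_div_iff₀ (by positivity), one_mul,
          ← Real.exp_log (show (0 : ℝ) < 2 by norm_num), ← Real.exp_nat_mul]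
        refine Real.exp_le_exp.2 (le_trans ?_ h4)
        exact mul_le_of_le_one_right (by positivity) hl
    _ ≤ Real.exp k * (Real.exp β * Real.exp (-(ρ * #A / 2))) := by
        rw [← Finset.mul_expect]
        gcongr
        refine h1.trans (mul_le_mul ?_ ?_ (Finset.prod_nonneg fun i _ => ?_) (Real.exp_pos _).le)
        · refine le_trans ?_ (Real.exp_le_exp.2 hβ)
          rw [Real.exp_sum]
          refine Finset.prod_le_prod (fun j _ => ?_) fun j _ => ?_
          · linarith [Pr_nonneg fun a => ok j a ∧ 2 ≤ #(A.filter fun i => kill j a i)]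
          · rw [add_comm]; exact Real.add_one_le_exp _
        · rw [show -(ρ * #A / 2) = ∑ _i ∈ A, -(ρ / 2) by rw [sum_const, nsmul_eq_mul]; ring,
            Real.exp_sum]
          refine Finset.prod_le_prod (fun i _ => ?_) fun i hi => ?_
          · have := surv_le_one kill i
            unfold surv at this
            linarith
          · have := hρ i hi
            have h5 := Real.add_one_le_exp (-(ρ / 2))
            unfold surv at this
            linarith
        · have := surv_le_one kill i
          unfold surv at this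
          linarith
    _ = _ := by rw [← Real.exp_add, ← Real.exp_add]; ring_nf

end alive

end Crest.Agent.R34
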