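import Crest.Agent.R34.Geo
import Crest.Agent.R34.Prob

/-! One round of random removal of points. -/

set_option linter.unusedSectionVars false

open Finset
open scoped BigOperators Classical

namespace Crest.Agent.R34

lemma Pr_exists_mem {Ω ι : Type*} [Fintype Ω] (s : Finset ι) (E : ι → Ω → Prop) (ε : ℝ)
    (h : ∀ i ∈ s, Pr (E i) ≤ ε) : Pr (fun ω => ∃ i ∈ s, E i ω) ≤ #s * ε := by
  have := Pr_exists (ι := s) (fun i => E i) ε fun i => h i i.2
  rw [Fintype.card_coe] at this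
  exact le_trans (Pr_mono fun ω ⟨i, hi, hE⟩ => ⟨⟨i, hi⟩, hE⟩) this

lemma mf {α : Type*} {p : α → Prop} {_ : DecidablePred p} {s : Finset α} {a : α} :
    a ∈ s.filter p ↔ a ∈ s ∧ p a := mem_filter

lemma Pr_le_card {α : Type*} [Fintype α] (E : α → Prop) {inst : DecidablePred E} (k : ℕ)
    (h : #(univ.filter E) ≤ k) : Pr E ≤ k / Fintype.card α := by
  rw [Pr_eq_card]; gcongr

variable {F : Type*} [Field F] [Fintype F]

/-- The line meets `R` at most in `z`. -/
def miss (R : Finset (Pt F)) (z : Pt F) (l : Ln F) : Prop := ∀ x ∈ R, on x l → x = z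

def kept (R : Finset (Pt F)) (l : Ln F) : Prop := ∀ x ∈ R, ¬ on x l

noncomputable def Dg (R : Finset (Pt F)) (wt : Ln F → ℝ) (x : Pt F) : ℝ :=
  ∑ l ∈ univ.filter (fun l => on x l ∧ miss R x l), wt l

noncomputable def grid (X Y : Finset (Pt F)) : Finset (Ln F) :=
  univ.filter fun l => (∃ x ∈ X, on x l) ∧ ∃ y ∈ Y, on y l

def Generic (a : ℕ) (X Y : Finset (Pt F)) : Prop :=
  #X = a ∧ #Y = a ∧ #(grid X Y) = a ^ 2 ∧
    ∀ z, z ∉ X → z ∉ Y → #((grid X Y).filter fun l => on z l) ≤ 2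

noncomputable def spl (z : Pt F) (p : Option F) (N : Ln F) : Ln F := join z (p, ev N p)

noncomputable def good {κ : Type*} (R : Finset (Pt F)) (z₀ : Pt F) (z : κ → Pt F)
    (p : κ → Option F) : Finset (Ln F) :=
  univ.filter fun N => on z₀ N ∧ ∀ i, miss R (z i) (spl (z i) (p i) N)

lemma on_spl {z : Pt F} {p : Option F} (h : p ≠ z.1) (N : Ln F) : on z (spl z p N) :=
  on_join_left h.symm

lemma on_spl' {z : Pt F} {p : Option F} (h : p ≠ z.1) (N : Ln F) : on (p, ev N p) (spl z p N) :=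
  on_join_right (x := z) h.symm

lemma spl_inj {z z₀ : Pt F} {p : Option F} (h : p ≠ z.1) (h₀ : p ≠ z₀.1) {N N' : Ln F}
    (hN : on z₀ N) (hN' : on z₀ N') (e : spl z p N = spl z p N') : N = N' := by
  have h1 := on_spl' h N
  have h2 := on_spl' h N'
  rw [← e] at h2
  exact line_ext h₀ (h1.symm.trans h2) (hN.trans hN'.symm)

lemma card_multi (A : Finset (Ln F)) :
    #(univ.filter fun z : Pt F => 2 ≤ #(A.filter fun l => on z l)) ≤ #A ^ 2 := by
  have h1 : (univ.filter fun z : Pt F => 2 ≤ #(A.filter fun l => on z l)) ⊆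
      A.offDiag.biUnion fun p => univ.filter fun z => on z p.1 ∧ on z p.2 := by
    intro z hz
    obtain ⟨l, hl, l', hl', hne⟩ := one_lt_card.1 (mem_filter.1 hz).2
    exact mem_biUnion.2 ⟨(l, l'), mem_offDiag.2 ⟨(mem_filter.1 hl).1, (mem_filter.1 hl').1, hne⟩,
      mem_filter.2 ⟨mem_univ _, (mem_filter.1 hl).2, (mem_filter.1 hl').2⟩⟩
  refine (card_le_card h1).trans ((card_biUnion_le_card_mul _ _ 1 ?_).trans ?_)
  · intro p hp
    refine card_le_one.2 fun z hz z' hz' => ?_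
    by_contra hne
    exact (mem_offDiag.1 hp).2.2 (line_unique hne (mem_filter.1 hz).2.1 (mem_filter.1 hz').2.1
      (mem_filter.1 hz).2.2 (mem_filter.1 hz').2.2)
  · rw [mul_one, offDiag_card, sq]; omega

variable {J α : Type*} [Fintype J] [Fintype α] [Nonempty α]

def exc (π : J → α → Pt F) (l : Ln F) : Prop :=
  ∃ j a a', a ≠ a' ∧ on (π j a) l ∧ on (π j a') l

structure Proc (R : Finset (Pt F)) (π : J → α → Pt F) : Prop where
  inj : ∀ j a j' a', π j a = π j' a' → j = j' ∧ a = a'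
  exc1 : ∀ l, exc π l → ¬ kept R l
  exc2 : ∀ z, #(univ.filter fun l => exc π l ∧ miss R z l) ≤ 2

structure Num (F : Type*) [Fintype F] (τ r : ℝ) : Prop where
  hτ : 100 ≤ τ
  hr : τ ≤ r
  hq : r ^ 2 = Fintype.card F
  hexp : (Fintype.card F : ℝ) ≤ Real.exp τ

noncomputable def nxt (R : Finset (Pt F)) (π : J → α → Pt F) (ω : J → α) : Finset (Pt F) :=
  R ∪ univ.image fun j => π j (ω j)

lemma mem_nxt {R : Finset (Pt F)} {π : J → α → Pt F} {ω : J → α} {x : Pt F} :
    x ∈ nxt R π ω ↔ x ∈ R ∨ ∃ j, π j (ω j) = x := by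
  simp [nxt]

lemma miss_nxt {R : Finset (Pt F)} {π : J → α → Pt F} {ω : J → α} {z : Pt F} {l : Ln F} :
    miss (nxt R π ω) z l ↔ miss R z l ∧ ∀ j, ¬ (on (π j (ω j)) l ∧ π j (ω j) ≠ z) := by
  constructor
  · intro h
    exact ⟨fun x hx => h x (mem_nxt.2 (Or.inl hx)),
      fun j hj => hj.2 (h _ (mem_nxt.2 (Or.inr ⟨j, rfl⟩)) hj.1)⟩
  · rintro ⟨h1, h2⟩ x hx hl
    rcases mem_nxt.1 hx with hx | ⟨j, rfl⟩
    · exact h1 x hx hl
    · by_contra hne; exact h2 j ⟨hl, hne⟩

lemma kept_nxt {R : Finset (Pt F)} {π : J → α → Pt F} {ω : J → α} {l : Ln F} :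
    kept (nxt R π ω) l ↔ kept R l ∧ ∀ j, ¬ on (π j (ω j)) l := by
  constructor
  · intro h
    exact ⟨fun x hx => h x (mem_nxt.2 (Or.inl hx)), fun j => h _ (mem_nxt.2 (Or.inr ⟨j, rfl⟩))⟩
  · rintro ⟨h1, h2⟩ x hx
    rcases mem_nxt.1 hx with hx | ⟨j, rfl⟩
    exacts [h1 x hx, h2 j]

lemma kept_of_miss {R : Finset (Pt F)} {z : Pt F} {l : Ln F} (hz : z ∉ R) (h : miss R z l) :
    kept R l := fun x hx hl => hz (h x hx hl ▸ hx)

lemma card_on_le_one {π : J → α → Pt F} {l : Ln F} (h : ¬ exc π l) (j : J) :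
    #(univ.filter fun a => on (π j a) l) ≤ 1 := by
  refine card_le_one.2 fun a ha a' ha' => ?_
  by_contra hne
  exact h ⟨j, a, a', hne, (mem_filter.1 ha).2, (mem_filter.1 ha').2⟩

lemma Pr_on_le {π : J → α → Pt F} {l : Ln F} (h : ¬ exc π l) (j : J) :
    Pr (fun a => on (π j a) l) ≤ 1 / Fintype.card α := by
  simpa using Pr_le_card _ _ (card_on_le_one h j)

noncomputable def nwt (wt : Ln F → ℝ) (π : J → α → Pt F) (l : Ln F) : ℝ :=
  wt l / surv (fun j a l => on (π j a) l) l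

lemma surv_on_ge {π : J → α → Pt F} {l : Ln F} (h : ¬ exc π l) {C : ℝ}
    (hn : 2 ≤ (Fintype.card α : ℝ)) (hJ : (Fintype.card J : ℝ) ≤ C * Fintype.card α) :
    Real.exp (-(2 * C)) ≤ surv (fun j a l => on (π j a) l) l := by
  have := surv_ge (fun j a l => on (π j a) l) l 1 C zero_le_one (by linarith) hJ
    fun j => Pr_on_le h j
  rwa [mul_one] at this

lemma nwt_bounds {R : Finset (Pt F)} {π : J → α → Pt F} (hπ : Proc R π) {wt : Ln F → ℝ} {W C : ℝ}
    (hn : 2 ≤ (Fintype.card α : ℝ)) (hJ : (Fintype.card J : ℝ) ≤ C * Fintype.card α)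
    (hwt : ∀ l, kept R l → 1 ≤ wt l ∧ wt l ≤ W) (l : Ln F) (hl : kept R l) :
    1 ≤ nwt wt π l ∧ nwt wt π l ≤ W * Real.exp (2 * C) := by
  have h1 := surv_on_ge (fun h => hπ.exc1 l h hl) hn hJ
  have h2 := surv_le_one (fun j a l => on (π j a) l) l
  have h3 : 0 < surv (fun j a l => on (π j a) l) l := (Real.exp_pos _).trans_le h1
  obtain ⟨h4, h5⟩ := hwt l hl
  unfold nwt
  constructor
  · rw [le_div_iff₀ h3]; linarith
  · rw [div_le_iff₀ h3]
    calc wt l ≤ W * (Real.exp (2 * C) * Real.exp (-(2 * C))) := by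
          rw [← Real.exp_add]; simpa using h5
      _ ≤ _ := by
          rw [mul_assoc]
          have : 0 ≤ W := by linarith
          gcongr

namespace Num
variable {τ r : ℝ} (h : Num F τ r)
include h

lemma q_ge : (10000 : ℝ) ≤ Fintype.card F := by
  rw [← h.hq]; nlinarith [h.hτ, h.hr]

lemma card_opt : (Fintype.card (Option F) : ℝ) ≤ Real.exp (τ + 1) := by
  rw [Fintype.card_option, Real.exp_add]
  push_cast
  have := h.q_ge
  have h2 := h.hexp
  have h3 := Real.add_one_le_exp 1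
  nlinarith

lemma card_pt : (Fintype.card (Pt F) : ℝ) ≤ Real.exp (2 * τ + 1) := by
  rw [Fintype.card_prod, show 2 * τ + 1 = (τ + 1) + τ by ring, Real.exp_add]
  push_cast
  exact mul_le_mul h.card_opt h.hexp (by positivity) (by positivity)

lemma card_ln : (Fintype.card (Ln F) : ℝ) ≤ Real.exp (2 * τ) := by
  rw [Fintype.card_prod, two_mul, Real.exp_add]
  push_cast
  exact mul_le_mul h.hexp h.hexp (by positivity) (by positivity)

lemma card_gl : (Fintype.card (Gl F) : ℝ) ≤ Real.exp (2 * τ + 1) := by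
  have : Fintype.card (Gl F) ≤ 2 * Fintype.card (Ln F) := by
    rw [Fintype.card_sum, Fintype.card_option, Fintype.card_prod]
    have : 10000 ≤ Fintype.card F := by exact_mod_cast h.q_ge
    nlinarith
  have h1 : (Fintype.card (Gl F) : ℝ) ≤ 2 * Fintype.card (Ln F) := by exact_mod_cast this
  have h2 := h.card_ln
  have h3 := Real.add_one_le_exp 1
  rw [Real.exp_add]
  have := Real.exp_pos (2 * τ)
  nlinarith

end Num

lemma small {x y N : ℝ} (hN : N ≤ Real.exp x) (h : x + 3 ≤ y) : N * (2 * Real.exp (-y)) ≤ 1 / 5 := by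
  have h1 : Real.exp x * Real.exp (-y) ≤ Real.exp (-3) := by
    rw [← Real.exp_add]; exact Real.exp_le_exp.2 (by linarith)
  have h2 : Real.exp (-3) ≤ 1 / 10 := by
    rw [Real.exp_neg, inv_eq_one_div]
    gcongr
    have h3 := Real.exp_one_gt_d9
    have : Real.exp 3 = Real.exp 1 ^ 3 := by rw [← Real.exp_nat_mul]; norm_num
    rw [this]
    have : (2.7 : ℝ) ^ 3 ≤ Real.exp 1 ^ 3 := by gcongr; linarith
    norm_num at this ⊢
    linarith
  have h4 : N * Real.exp (-y) ≤ Real.exp x * Real.exp (-y) := by gcongr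
  linarith

end Crest.Agent.R34
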