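import Crest.Agent.R34.Step

/-! The four properties preserved by a round of random removal. -/

set_option linter.unusedSectionVars false

open Finset
open scoped BigOperators Classical

namespace Crest.Agent.R34

variable {F : Type*} [Field F] [Fintype F] {J α : Type*} [Fintype J] [Fintype α] [Nonempty α]
  {R : Finset (Pt F)} {π : J → α → Pt F} {τ r C : ℝ}

lemma surv_star (hπ : Proc R π) (hn : 2 ≤ (Fintype.card α : ℝ)) (x : Pt F) {l : Ln F}
    (hl : ¬ exc π l) :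
    surv (fun j a l => on (π j a) l) l ≤ surv (fun j a l => on (π j a) l ∧ π j a ≠ x) l ∧
    surv (fun j a l => on (π j a) l ∧ π j a ≠ x) l ≤
      (1 + 2 / Fintype.card α) * surv (fun j a l => on (π j a) l) l := by
  have hn0 : (0 : ℝ) < Fintype.card α := by linarith
  constructor
  · refine Finset.prod_le_prod (fun j _ => sub_nonneg.2 (Pr_le_one _)) fun j _ => ?_
    exact sub_le_sub_left (Pr_mono fun a h => h.1) _
  · have h1 : ∏ j : J, (if ∃ a, π j a = x then 1 + 2 / (Fintype.card α : ℝ) else 1)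
        ≤ 1 + 2 / Fintype.card α := by
      rw [← Finset.prod_filter, prod_const]
      have h2 : #(univ.filter fun j : J => ∃ a, π j a = x) ≤ 1 := by
        refine card_le_one.2 fun j hj j' hj' => ?_
        obtain ⟨a, ha⟩ := (mf.1 hj).2
        obtain ⟨a', ha'⟩ := (mf.1 hj').2
        exact (hπ.inj _ _ _ _ (ha.trans ha'.symm)).1
      have h3 : (1 : ℝ) ≤ 1 + 2 / Fintype.card α := le_add_of_nonneg_right (by positivity)
      exact (pow_le_pow_right₀ h3 h2).trans (le_of_eq (pow_one _))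
    refine le_trans ?_ (mul_le_mul_of_nonneg_right h1 (surv_nonneg _ _))
    unfold surv
    rw [← Finset.prod_mul_distrib]
    refine Finset.prod_le_prod (fun j _ => sub_nonneg.2 (Pr_le_one _)) fun j _ => ?_
    split_ifs with h
    · have h2 := Pr_on_le hl j
      have h3 := Pr_nonneg fun a => on (π j a) l ∧ π j a ≠ x
      have h4 : 1 / (Fintype.card α : ℝ) ≤ 1 / 2 := by gcongr
      have h5 : 0 ≤ 1 / (Fintype.card α : ℝ) := by positivity
      rw [show 2 / (Fintype.card α : ℝ) = 2 * (1 / Fintype.card α) by ring]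
      nlinarith
    · rw [one_mul]
      exact sub_le_sub_left (Pr_mono fun a ha => ⟨ha, fun e => h ⟨a, e⟩⟩) _

lemma expo (hN : Num F τ r) : (r * τ ^ 3) ^ 2 / (2 * (τ ^ 3 * r ^ 2)) = τ ^ 3 / 2 := by
  have : 0 < τ := by linarith [hN.hτ]
  have : 0 < r := by linarith [hN.hr]
  field_simp

lemma deg_step (hN : Num F τ r) (hπ : Proc R π) (hn : 2 ≤ (Fintype.card α : ℝ))
    (hJ : (Fintype.card J : ℝ) ≤ C * Fintype.card α) (hJq : (Fintype.card J : ℝ) ≤ τ * r ^ 2)
    (hqn : (Fintype.card F : ℝ) ≤ τ * Fintype.card α) {wt : Ln F → ℝ} {W lam : ℝ}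
    (hwt : ∀ l, kept R l → 1 ≤ wt l ∧ wt l ≤ W) (hW : W * Real.exp (2 * C) ≤ τ)
    (hlam : lam ≤ Fintype.card F) (hD : ∀ x, x ∉ R → |Dg R wt x - Fintype.card F| ≤ lam) :
    Pr (fun ω => ∃ x, x ∉ R ∧
      lam + 2 * r * τ ^ 3 < |Dg (nxt R π ω) (nwt wt π) x - Fintype.card F|) ≤ 1 / 5 := by
  have hτ := hN.hτ
  have hr := hN.hr
  have hτ0 : 0 < τ := by linarith
  have hr0 : 0 < r := by linarith
  have hn0 : (0 : ℝ) < Fintype.card α := by linarith
  refine (Pr_exists _ (2 * Real.exp (-(τ ^ 3 / 2))) fun x => ?_).trans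
    (small hN.card_pt (by nlinarith [sq_nonneg τ]))
  by_cases hx : x ∈ R
  · rw [Pr_false fun ω h => h.1 hx]; positivity
  obtain ⟨A, hA⟩ : ∃ A : Finset (Ln F), A = univ.filter (fun l => on x l ∧ miss R x l) := ⟨_, rfl⟩
  have hmem : ∀ l, l ∈ A ↔ on x l ∧ miss R x l := fun l => by simp [hA]
  have hk : ∀ l ∈ A, kept R l := fun l hl => kept_of_miss hx ((hmem l).1 hl).2
  have hb := fun l hl => nwt_bounds hπ hn hJ hwt l (hk l hl)
  have h1 := mcd_alive (fun j a l => on (π j a) l ∧ π j a ≠ x) A (nwt wt π) τ (r * τ ^ 3)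
    (τ ^ 3 * r ^ 2) 1 hτ0.le (fun l hl => by linarith [(hb l hl).1])
    (fun l hl => (hb l hl).2.trans hW) (fun j a => card_le_one.2 fun l hl l' hl' =>
      line_unique (mf.1 hl).2.2 (mf.1 hl).2.1 ((hmem l).1 (mf.1 hl).1).1
        (mf.1 hl').2.1 ((hmem l').1 (mf.1 hl').1).1)
    (by positivity) (by positivity) (by
      push_cast
      calc _ ≤ τ * r ^ 2 * (1 * τ) ^ 2 := by gcongr
        _ = _ := by ring)
  rw [expo hN] at h1
  refine le_trans (Pr_mono fun ω hω => ?_) h1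
  have e1 : Dg (nxt R π ω) (nwt wt π) x = ∑ l ∈ A.filter (fun l =>
      alive (fun j a l => on (π j a) l ∧ π j a ≠ x) ω l), nwt wt π l := by
    unfold Dg
    refine Finset.sum_congr ?_ fun _ _ => rfl
    ext l
    simp only [mem_filter, mem_univ, true_and, hmem, miss_nxt, alive, and_assoc]
  have e2 : Dg R wt x = ∑ l ∈ A, wt l := by rw [hA]; rfl
  have hpos : ∀ l ∈ A, 0 < surv (fun j a l => on (π j a) l) l := fun l hl =>
    (Real.exp_pos _).trans_le (surv_on_ge (fun h => hπ.exc1 l h (hk l hl)) hn hJ)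
  have h2 : Dg R wt x ≤ ∑ l ∈ A, nwt wt π l * surv (fun j a l => on (π j a) l ∧ π j a ≠ x) l := by
    rw [e2]
    refine Finset.sum_le_sum fun l hl => ?_
    have h3 := (surv_star hπ hn x fun h => hπ.exc1 l h (hk l hl)).1
    have h4 := hpos l hl
    calc wt l = nwt wt π l * surv (fun j a l => on (π j a) l) l := by unfold nwt; field_simp
      _ ≤ _ := mul_le_mul_of_nonneg_left h3 (by linarith [(hb l hl).1])
  have h3 : ∑ l ∈ A, nwt wt π l * surv (fun j a l => on (π j a) l ∧ π j a ≠ x) l ≤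
      (1 + 2 / Fintype.card α) * Dg R wt x := by
    rw [e2, Finset.mul_sum]
    refine Finset.sum_le_sum fun l hl => ?_
    have h3 := (surv_star hπ hn x fun h => hπ.exc1 l h (hk l hl)).2
    have h4 := hpos l hl
    calc _ ≤ nwt wt π l * ((1 + 2 / Fintype.card α) * surv (fun j a l => on (π j a) l) l) :=
          mul_le_mul_of_nonneg_left h3 (by linarith [(hb l hl).1])
      _ = _ := by unfold nwt; field_simp
  have h4 := abs_le.1 (hD x hx)
  have h5 : 2 / (Fintype.card α : ℝ) * Dg R wt x ≤ r * τ ^ 3 := by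
    calc _ ≤ 2 / (Fintype.card α : ℝ) * (2 * (τ * Fintype.card α)) := by gcongr; linarith
      _ = 4 * τ := by field_simp; ring
      _ ≤ r * τ ^ 3 := by
        have : 4 ≤ r * τ ^ 2 := by nlinarith
        nlinarith
  have h6 := hω.2
  rw [e1] at h6
  rcases lt_abs.1 h6 with h | h
  · exact le_abs.2 (Or.inl (by linarith))
  · exact le_abs.2 (Or.inr (by linarith))

lemma sh_step {κ : Type*} [Fintype κ] (hN : Num F τ r) (hπ : Proc R π)
    (hn : 2 * (Fintype.card κ : ℝ) ≤ Fintype.card α) (hκ : (Fintype.card κ : ℝ) ≤ τ)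
    (hJ : (Fintype.card J : ℝ) ≤ C * Fintype.card α) (hJq : (Fintype.card J : ℝ) ≤ τ * r ^ 2)
    {σ : ℝ} (hS : ∀ (z₀ : Pt F) (z : κ → Pt F) (p : κ → Option F),
      (∀ i, p i ≠ (z i).1 ∧ p i ≠ z₀.1) → σ ≤ #(good R z₀ z p)) :
    Pr (fun ω => ∃ c : Pt F × (κ → Pt F) × (κ → Option F),
      (∀ i, c.2.2 i ≠ (c.2.1 i).1 ∧ c.2.2 i ≠ c.1.1) ∧
      (#(good (nxt R π ω) c.1 c.2.1 c.2.2) : ℝ) <
        (σ - 2 * Fintype.card κ) * Real.exp (-(2 * C * Fintype.card κ)) - r * τ ^ 3) ≤ 1 / 5 := by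
  have hτ := hN.hτ
  have hr := hN.hr
  have hτ0 : 0 < τ := by linarith
  have hr0 : 0 < r := by linarith
  have hcard : (Fintype.card (Pt F × (κ → Pt F) × (κ → Option F)) : ℝ) ≤
      Real.exp ((2 * τ + 1) + (τ * (2 * τ + 1) + τ * (τ + 1))) := by
    have hk0 : (0 : ℝ) ≤ Fintype.card κ := by positivity
    rw [Fintype.card_prod, Fintype.card_prod (κ → Pt F), Fintype.card_fun, Fintype.card_fun,
      Real.exp_add, Real.exp_add (τ * _)]
    push_cast
    have h1 := hN.card_pt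
    have h2 := hN.card_opt
    gcongr
    · calc _ ≤ Real.exp (2 * τ + 1) ^ Fintype.card κ := by gcongr
        _ ≤ _ := by rw [← Real.exp_nat_mul]; gcongr
    · calc _ ≤ Real.exp (τ + 1) ^ Fintype.card κ := by gcongr
        _ ≤ _ := by rw [← Real.exp_nat_mul]; gcongr
  refine (Pr_exists _ (2 * Real.exp (-(τ ^ 3 / 2))) ?_).trans
    (small hcard (by nlinarith [sq_nonneg τ]))
  rintro ⟨z₀, z, p⟩
  by_cases hv : ∀ i, p i ≠ (z i).1 ∧ p i ≠ z₀.1
  swap
  · rw [Pr_false fun ω h => hv h.1]; positivity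
  obtain ⟨A, hA⟩ : ∃ A : Finset (Ln F),
    A = (good R z₀ z p).filter fun N => ∀ i, ¬ exc π (spl (z i) (p i) N) := ⟨_, rfl⟩
  have hmem : ∀ N, N ∈ A ↔ (on z₀ N ∧ ∀ i, miss R (z i) (spl (z i) (p i) N)) ∧
      ∀ i, ¬ exc π (spl (z i) (p i) N) := fun l => by simp [hA, good]
  have hAc : σ - 2 * Fintype.card κ ≤ #A := by
    have h1 : good R z₀ z p ⊆ A ∪ univ.biUnion fun i : κ =>
        (good R z₀ z p).filter fun N => exc π (spl (z i) (p i) N) := by
      intro N hN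
      by_cases h : ∀ i, ¬ exc π (spl (z i) (p i) N)
      · exact mem_union_left _ (hA ▸ mf.2 ⟨hN, h⟩)
      · push Not at h
        obtain ⟨i, hi⟩ := h
        exact mem_union_right _ (mem_biUnion.2 ⟨i, mem_univ _, mf.2 ⟨hN, hi⟩⟩)
    have h2 : #(univ.biUnion fun i : κ =>
        (good R z₀ z p).filter fun N => exc π (spl (z i) (p i) N)) ≤ Fintype.card κ * 2 := by
      refine card_biUnion_le_card_mul _ _ _ fun i _ => le_trans ?_ (hπ.exc2 (z i))
      refine card_le_card_of_injOn (spl (z i) (p i)) ?_ ?_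
      · intro N hN
        have h3 := mf.1 hN
        exact mf.2 ⟨mem_univ _, h3.2, (mf.1 h3.1).2.2 i⟩
      · intro N hN N' hN' e
        exact spl_inj (hv i).1 (hv i).2 (mf.1 (mf.1 hN).1).2.1
          (mf.1 (mf.1 hN').1).2.1 e
    have h3 := (card_le_card h1).trans ((card_union_le _ _).trans (Nat.add_le_add_left h2 _))
    have h4 : (#(good R z₀ z p) : ℝ) ≤ #A + Fintype.card κ * 2 := by exact_mod_cast h3
    linarith [hS z₀ z p hv]
  have h1 := mcd_alive (fun j a N => ∃ i, on (π j a) (spl (z i) (p i) N) ∧ π j a ≠ z i) A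
    (fun _ => 1) 1 (r * τ ^ 3) (τ ^ 3 * r ^ 2) (Fintype.card κ) zero_le_one
    (fun _ _ => zero_le_one) (fun _ _ => le_rfl) (by
      intro j a
      refine le_trans (card_le_card (t := univ.biUnion fun i : κ => A.filter fun N =>
        on (π j a) (spl (z i) (p i) N) ∧ π j a ≠ z i) ?_)
        ((card_biUnion_le_card_mul _ _ 1 ?_).trans (by simp))
      · intro N hN
        obtain ⟨i, hi⟩ := (mf.1 hN).2
        exact mem_biUnion.2 ⟨i, mem_univ _, mf.2 ⟨(mf.1 hN).1, hi⟩⟩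
      · intro i _
        refine card_le_one.2 fun N hN N' hN' => ?_
        obtain ⟨h1, h2, h3⟩ := mf.1 hN
        obtain ⟨h4, h5, -⟩ := mf.1 hN'
        exact spl_inj (hv i).1 (hv i).2 ((hmem N).1 h1).1.1 ((hmem N').1 h4).1.1
          (line_unique h3 h2 (on_spl (hv i).1 _) h5 (on_spl (hv i).1 _)))
    (by positivity) (by positivity) (by
      calc _ ≤ τ * r ^ 2 * (τ * 1) ^ 2 := by gcongr
        _ = _ := by ring)
  rw [expo hN] at h1
  refine le_trans (Pr_mono fun ω hω => ?_) h1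
  have h2 : #(A.filter fun N => alive
      (fun j a N => ∃ i, on (π j a) (spl (z i) (p i) N) ∧ π j a ≠ z i) ω N) ≤
      #(good (nxt R π ω) z₀ z p) := by
    refine card_le_card fun N hN => ?_
    obtain ⟨h3, h4⟩ := mf.1 hN
    refine mf.2 ⟨mem_univ _, ((hmem N).1 h3).1.1, fun i => miss_nxt.2
      ⟨((hmem N).1 h3).1.2 i, fun j hj => h4 j ⟨i, hj⟩⟩⟩
  have h3 : #A * Real.exp (-(2 * C * Fintype.card κ)) ≤ ∑ N ∈ A, 1 * surv
      (fun j a N => ∃ i, on (π j a) (spl (z i) (p i) N) ∧ π j a ≠ z i) N := by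
    rw [← nsmul_eq_mul]
    refine Finset.card_nsmul_le_sum _ _ _ fun N hN => ?_
    rw [one_mul]
    refine surv_ge _ _ _ _ (by positivity) hn hJ fun j => Pr_le_card _ (inst := Classical.decPred _) _ ?_
    refine le_trans (card_le_card (t := univ.biUnion fun i : κ => univ.filter fun a =>
        on (π j a) (spl (z i) (p i) N)) ?_)
        ((card_biUnion_le_card_mul _ _ 1 fun i _ => card_on_le_one (((hmem N).1 hN).2 i) j).trans
          (by simp))
    intro a ha
    obtain ⟨i, hi⟩ := (mf.1 ha).2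
    exact mem_biUnion.2 ⟨i, mem_univ _, mf.2 ⟨mem_univ _, hi.1⟩⟩
  have h4 := hω.2
  have h5 : (σ - 2 * Fintype.card κ) * Real.exp (-(2 * C * Fintype.card κ)) ≤
      #A * Real.exp (-(2 * C * Fintype.card κ)) := by gcongr
  have h6 := (Nat.cast_le (α := ℝ)).2 h2
  refine le_abs.2 (Or.inr ?_)
  rw [sum_const, nsmul_eq_mul, mul_one]
  simp only at h4
  linarith

lemma grid_step (hN : Num F τ r) (hπ : Proc R π) (hn : 2 ≤ (Fintype.card α : ℝ))
    (hJ : (Fintype.card J : ℝ) ≤ C * Fintype.card α) {a : ℕ} (ha : 1 ≤ a)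
    (han : a ^ 4 ≤ Fintype.card α) {γ : ℝ} (hγ : 40 * a * τ ≤ Real.exp (-(2 * C)) * γ)
    (hG : ∀ X Y : Finset (Pt F), Generic a X Y → (∀ x ∈ X, x ∉ R) → (∀ y ∈ Y, y ∉ R) →
      γ ≤ #((grid X Y).filter (kept R))) :
    Pr (fun ω => ∃ c ∈ powersetCard a (univ : Finset (Pt F)) ×ˢ powersetCard a univ,
      Generic a c.1 c.2 ∧ (∀ x ∈ c.1, x ∉ nxt R π ω) ∧ (∀ y ∈ c.2, y ∉ nxt R π ω) ∧
      (#((grid c.1 c.2).filter (kept (nxt R π ω))) : ℝ) < Real.exp (-(2 * C)) * γ / 4)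
      ≤ 1 / 5 := by
  have hτ := hN.hτ
  have hτ0 : 0 < τ := by linarith
  have hn0 : (0 : ℝ) < Fintype.card α := by linarith
  have ha1 : (1 : ℝ) ≤ a := by exact_mod_cast ha
  have hcard : (#(powersetCard a (univ : Finset (Pt F)) ×ˢ powersetCard a (univ : Finset (Pt F)))
      : ℝ) ≤ Real.exp (a * (2 * τ + 1) + a * (2 * τ + 1)) := by
    have h1 : (#(powersetCard a (univ : Finset (Pt F))) : ℝ) ≤ Real.exp (a * (2 * τ + 1)) := by
      rw [card_powersetCard, card_univ, Real.exp_nat_mul]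
      calc _ ≤ ((Fintype.card (Pt F) ^ a : ℕ) : ℝ) := by exact_mod_cast Nat.choose_le_pow _ _
        _ ≤ _ := by push_cast; gcongr; exact hN.card_pt
    rw [card_product, Real.exp_add]
    push_cast
    gcongr
  refine (Pr_exists_mem _ _ (2 * Real.exp (-(10 * a * τ - 1))) ?_).trans
    (small hcard (by nlinarith))
  rintro ⟨X, Y⟩ -
  by_cases hv : Generic a X Y ∧ (∀ x ∈ X, x ∉ R) ∧ ∀ y ∈ Y, y ∉ R
  swap
  · rw [Pr_false fun ω h => hv ⟨h.1, fun x hx hR => h.2.1 x hx (mem_nxt.2 (Or.inl hR)),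
      fun x hx hR => h.2.2.1 x hx (mem_nxt.2 (Or.inl hR))⟩]
    positivity
  obtain ⟨hg, hX, hY⟩ := hv
  have hA := hG X Y hg hX hY
  obtain ⟨A, hAe⟩ : ∃ A, A = (grid X Y).filter (kept R) := ⟨_, rfl⟩
  rw [← hAe] at hA
  have hsub : A ⊆ grid X Y := hAe ▸ filter_subset _ _
  have h1 := na (fun j a l => on (π j a) l) A (fun j a => π j a ∉ X ∧ π j a ∉ Y)
    (fun j b hb => le_trans (card_le_card fun l hl =>
      mf.2 ⟨hsub (mf.1 hl).1, (mf.1 hl).2⟩) (hg.2.2.2 _ hb.1 hb.2))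
    (Real.exp (-(2 * C))) 1 (Real.exp (-(2 * C)) * γ / 4)
    (fun l hl => surv_on_ge (fun h => hπ.exc1 l h (mf.1 (hAe ▸ hl)).2) hn hJ) (by
      simp only [Pr_eq_card]
      rw [← Finset.sum_div, div_le_one hn0]
      norm_cast
      rw [← card_sigma]
      refine le_trans ?_ han
      have h2 := card_multi A
      have h3 : #A ≤ a ^ 2 := (card_le_card hsub).trans hg.2.2.1.le
      refine le_trans ?_ (h2.trans ((Nat.pow_le_pow_left h3 2).trans (le_of_eq (by ring))))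
      refine card_le_card_of_injOn (fun t => π t.1 t.2) ?_ ?_
      · rintro ⟨j, b⟩ ht
        have h4 := (mf.1 (mem_sigma.1 ht).2).2.2
        refine mf.2 ⟨mem_univ _, h4.trans (le_of_eq ?_)⟩
        congr!
      · rintro ⟨j, b⟩ _ ⟨j', b'⟩ _ e
        obtain ⟨rfl, rfl⟩ := hπ.inj _ _ _ _ e
        rfl)
  refine le_trans (Pr_mono fun ω hω => ?_) (h1.trans ?_)
  · obtain ⟨-, h2, h3, h4⟩ := hω
    refine ⟨fun j => ⟨fun h => h2 _ h (mem_nxt.2 (Or.inr ⟨j, rfl⟩)),
      fun h => h3 _ h (mem_nxt.2 (Or.inr ⟨j, rfl⟩))⟩, le_trans ?_ h4.le⟩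
    refine Nat.cast_le.2 (card_le_card fun l hl => ?_)
    obtain ⟨h5, h6⟩ := mf.1 hl
    exact mf.2 ⟨hsub h5, kept_nxt.2 ⟨(mf.1 (hAe ▸ h5)).2, h6⟩⟩
  · have h2 : Real.exp (-(2 * C)) * γ ≤ Real.exp (-(2 * C)) * #A := by gcongr
    have h3 := Real.exp_le_exp.2 (show Real.exp (-(2 * C)) * γ / 4 + 1 -
      Real.exp (-(2 * C)) * #A / 2 ≤ -(10 * a * τ - 1) by linarith)
    linarith [Real.exp_pos (-(10 * a * τ - 1))]

lemma col_step (hN : Num F τ r) (hJ : (Fintype.card J : ℝ) ≤ C * Fintype.card α) (hC : C ≤ τ)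
    {t b : ℕ} (hb : τ ^ 2 ≤ b) (hcol : ∀ L : Gl F, #(R.filter fun x => inc x L) ≤ t)
    (hL : ∀ L : Gl F, (∀ j, #(univ.filter fun a => inc (π j a) L) ≤ 1) ∨
      #(univ.filter fun j => ∃ a, inc (π j a) L) ≤ b) :
    Pr (fun ω => ∃ L : Gl F, t + b < #((nxt R π ω).filter fun x => inc x L)) ≤ 1 / 5 := by
  have hτ := hN.hτ
  have hn0 : (0 : ℝ) < Fintype.card α := by exact_mod_cast Fintype.card_pos
  refine (Pr_exists _ (2 * Real.exp (-(τ ^ 2 - 3 * τ))) fun L => ?_).trans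
    (small hN.card_gl (by nlinarith))
  have key : ∀ ω : J → α, #((nxt R π ω).filter fun x => inc x L) ≤
      t + #(univ.filter fun j => inc (π j (ω j)) L) := by
    intro ω
    have h1 : (nxt R π ω).filter (fun x => inc x L) ⊆ R.filter (fun x => inc x L) ∪
        (univ.filter fun j => inc (π j (ω j)) L).image fun j => π j (ω j) := by
      intro x hx
      obtain ⟨h1, h2⟩ := mf.1 hx
      rcases mem_nxt.1 h1 with h | ⟨j, rfl⟩
      · exact mem_union_left _ (mf.2 ⟨h, h2⟩)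
      · exact mem_union_right _ (mem_image.2 ⟨j, mf.2 ⟨mem_univ _, h2⟩, rfl⟩)
    exact (card_le_card h1).trans ((card_union_le _ _).trans (add_le_add (hcol L) card_image_le))
  rcases hL L with h | h
  · have h1 := tail (fun j a => inc (π j a) L) b (Real.exp 1) C (Real.one_le_exp zero_le_one) (by
      calc _ ≤ ∑ _j : J, 1 / (Fintype.card α : ℝ) :=
            Finset.sum_le_sum fun j _ => by simpa using Pr_le_card _ _ (h j)
        _ ≤ C := by
            rw [sum_const, card_univ, nsmul_eq_mul, mul_one_div, div_le_iff₀ hn0]; exact hJ)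
    refine le_trans (Pr_mono fun ω hω => ?_) (h1.trans ?_)
    · have := key ω; omega
    · rw [← Real.exp_nat_mul, ← Real.exp_sub]
      have h2 := Real.exp_one_lt_d9
      have h3 := Real.exp_pos 1
      have h4 : Real.exp 1 * C ≤ 3 * τ := by nlinarith
      have h5 := Real.exp_le_exp.2 (show Real.exp 1 * C - b * 1 ≤ -(τ ^ 2 - 3 * τ) by linarith)
      linarith [Real.exp_pos (-(τ ^ 2 - 3 * τ))]
  · rw [Pr_false]
    · positivity
    · intro ω hω
      have h1 := key ω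
      have h2 : #(univ.filter fun j => inc (π j (ω j)) L) ≤ b :=
        le_trans (card_le_card fun j hj => mf.2 ⟨mem_univ _, _, (mf.1 hj).2⟩) h
      omega

end Crest.Agent.R34
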