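import Crest.Agent.R34.BSG

/-! A sum-product estimate in finite fields without large subfields. -/

set_option autoImplicit false
set_option linter.unusedSectionVars false

open Finset
open scoped Pointwise

namespace Crest.Agent.R34

lemma sum_card_filter_comm {α β : Type*} (s : Finset α) (t : Finset β) (r : α → β → Prop)
    [∀ a b, Decidable (r a b)] :
    ∑ a ∈ s, (#(t.filter fun b => r a b) : ℝ) = ∑ b ∈ t, (#(s.filter fun a => r a b) : ℝ) := by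
  simp only [card_filter_real]
  exact Finset.sum_comm

lemma card_sq_le_fib {α β : Type*} [DecidableEq β] (T : Finset α) (U : Finset β) (f : α → β)
    (hf : ∀ a ∈ T, f a ∈ U) :
    (#T : ℝ) ^ 2 ≤ #U * #((T ×ˢ T).filter fun p => f p.1 = f p.2) := by
  have h1 : #T = ∑ c ∈ U, #(T.filter fun a => f a = c) := card_eq_sum_card_fiberwise hf
  have h2 : #((T ×ˢ T).filter fun p => f p.1 = f p.2) =
      ∑ c ∈ U, #(T.filter fun a => f a = c) ^ 2 := by
    rw [card_eq_sum_card_fiberwise (f := fun p => f p.1) (t := U) fun p hp =>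
      hf _ (mem_product.1 (mem_filter.1 hp).1).1]
    refine sum_congr rfl fun c _ => ?_
    rw [sq, ← card_product]
    congr 1
    ext ⟨a, b⟩
    simp only [mem_filter, mem_product]
    constructor
    · rintro ⟨⟨⟨ha, hb⟩, h⟩, hc⟩
      exact ⟨⟨ha, hc⟩, hb, h ▸ hc⟩
    · rintro ⟨⟨ha, hc⟩, hb, hc'⟩
      exact ⟨⟨⟨ha, hb⟩, hc.trans hc'.symm⟩, hc⟩
  rw [h1, h2]
  exact_mod_cast sq_sum_le_card_mul_sum_sq

variable {F : Type*} [Field F] [DecidableEq F]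

lemma smul_sub_fin (x : F) (A B : Finset F) : x • (A - B) = x • A - x • B := by
  ext z
  simp only [mem_smul_finset, mem_sub, smul_eq_mul]
  constructor
  · rintro ⟨_, ⟨a, ha, b, hb, rfl⟩, rfl⟩
    exact ⟨_, ⟨a, ha, rfl⟩, _, ⟨b, hb, rfl⟩, by ring⟩
  · rintro ⟨_, ⟨a, ha, rfl⟩, _, ⟨b, hb, rfl⟩, rfl⟩
    exact ⟨_, ⟨a, ha, b, hb, rfl⟩, by ring⟩

lemma card_sub_comm' (A B : Finset F) : #(A - B) = #(B - A) := by
  rw [← card_neg, neg_sub]

/-- `x` is a good dilation of level `k`. -/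
def Gd (B : Finset F) (M : ℝ) (k : ℕ) (x : F) : Prop := (#(B - x • B) : ℝ) ≤ M ^ k * #B

section core
variable {B : Finset F} {M : ℝ}

lemma Gd.mono (hM : 1 ≤ M) {k l : ℕ} {x : F} (h : Gd B M k x) (hkl : k ≤ l) : Gd B M l x :=
  h.trans (mul_le_mul_of_nonneg_right (pow_le_pow_right₀ hM hkl) (Nat.cast_nonneg _))

lemma Gd_zero (hM : 1 ≤ M) (k : ℕ) : Gd B M k 0 := by
  have h1 : B - (0 : F) • B ⊆ B := by
    intro z hz
    obtain ⟨a, ha, _, hb, rfl⟩ := mem_sub.1 hz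
    obtain ⟨b, -, rfl⟩ := mem_smul_finset.1 hb
    simpa using ha
  have h2 : (#(B - (0 : F) • B) : ℝ) ≤ #B := by exact_mod_cast card_le_card h1
  exact h2.trans (le_mul_of_one_le_left (Nat.cast_nonneg _) (one_le_pow₀ hM))

lemma Gd.mul (hM : 1 ≤ M) (hB : B.Nonempty) {k l : ℕ} {x y : F} (hx : Gd B M k x)
    (hy : Gd B M l y) : Gd B M (k + l) (x * y) := by
  rcases eq_or_ne x 0 with rfl | h0
  · rw [zero_mul]
    exact Gd_zero hM _
  have h1 := ruzsa_triangle_inequality_sub_sub_sub B (x • B) ((x * y) • B)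
  rw [card_smul_finset₀ h0, mul_smul, ← smul_sub_fin, card_smul_finset₀ h0,
    card_sub_comm' (y • B), ← mul_smul] at h1
  have h2 : (#(B - (x * y) • B) : ℝ) * #B ≤ #(B - x • B) * #(B - y • B) := by exact_mod_cast h1
  have hB' : (0 : ℝ) < #B := by exact_mod_cast hB.card_pos
  have h3 := mul_le_mul hx hy (Nat.cast_nonneg _) (by positivity)
  refine le_of_mul_le_mul_right (h2.trans (h3.trans (le_of_eq ?_))) hB'
  ring

lemma Gd.inv (hM : 1 ≤ M) {k : ℕ} {x : F} (hx : Gd B M k x) : Gd B M k x⁻¹ := by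
  rcases eq_or_ne x 0 with rfl | h0
  · rw [inv_zero]
    exact Gd_zero hM _
  unfold Gd at *
  rwa [← card_smul_finset₀ h0, smul_sub_fin, smul_inv_smul₀ h0, card_sub_comm']

lemma card_nsmul_sub (hB : B.Nonempty) (h1 : (#(B - B) : ℝ) ≤ M * #B) (m n : ℕ) :
    (#(m • B - n • B) : ℝ) ≤ M ^ (m + n) * #B := by
  have hB' : (0 : ℝ) < #B := by exact_mod_cast hB.card_pos
  have h := pluennecke_ruzsa_inequality_nsmul_sub_nsmul_sub hB B m n
  have h' : (#(m • B - n • B) : ℝ) ≤ (#(B - B) / #B : ℝ) ^ (m + n) * #B := by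
    have := (NNRat.cast_le (K := ℝ)).2 h
    push_cast at this
    exact this
  refine h'.trans ?_
  gcongr
  rwa [div_le_iff₀ hB']

lemma Gd_neg_one (hB : B.Nonempty) (h1 : (#(B - B) : ℝ) ≤ M * #B) : Gd B M 2 (-1) := by
  have := card_nsmul_sub hB h1 2 0
  unfold Gd
  rwa [zero_nsmul, sub_zero, two_nsmul, ← sub_neg_eq_add, ← one_smul F (-B), smul_finset_neg,
    ← neg_smul_finset] at this

lemma Gd.add (hM : 1 ≤ M) (hB : B.Nonempty) (h1 : (#(B - B) : ℝ) ≤ M * #B) {k l : ℕ} {x y : F}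
    (hx : Gd B M k x) (hy : Gd B M l y) : Gd B M (k + l + 5) (x + y) := by
  have cov : ∀ {k : ℕ} {x : F}, Gd B M k x →
      ∃ X : Finset F, (#X : ℝ) ≤ M ^ k ∧ -(x • B) ⊆ X + (B - B) := by
    intro k x hx
    obtain ⟨X, -, h2, h3⟩ := ruzsa_covering_add (A := -(x • B)) (K := M ^ k) hB
      (by rwa [add_comm, ← sub_eq_add_neg])
    exact ⟨X, h2, h3⟩
  obtain ⟨X, hX, hX'⟩ := cov hx
  obtain ⟨Y, hY, hY'⟩ := cov hy
  have h2 : B - (x + y) • B ⊆ X + Y + (3 • B - 2 • B) := by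
    intro z hz
    obtain ⟨a, ha, _, hb0, rfl⟩ := mem_sub.1 hz
    obtain ⟨b, hb, rfl⟩ := mem_smul_finset.1 hb0
    obtain ⟨u, hu, _, hv0, e1⟩ := mem_add.1 (hX' (neg_mem_neg (smul_mem_smul_finset hb)))
    obtain ⟨v, hv, w, hw, rfl⟩ := mem_sub.1 hv0
    obtain ⟨u', hu', _, hv1, e2⟩ := mem_add.1 (hY' (neg_mem_neg (smul_mem_smul_finset hb)))
    obtain ⟨v', hv', w', hw', rfl⟩ := mem_sub.1 hv1
    have h3 : a + v + v' ∈ 3 • B := by
      rw [show 3 • B = B + B + B by rw [succ_nsmul, two_nsmul]]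
      exact add_mem_add (add_mem_add ha hv) hv'
    have h4 : w + w' ∈ 2 • B := by
      rw [two_nsmul]
      exact add_mem_add hw hw'
    refine mem_add.2 ⟨_, add_mem_add hu hu', _, sub_mem_sub h3 h4, ?_⟩
    simp only [smul_eq_mul] at e1 e2 ⊢
    linear_combination e1 + e2
  have h3 : (#(B - (x + y) • B) : ℝ) ≤ #X * #Y * #(3 • B - 2 • B) := by
    exact_mod_cast (card_le_card h2).trans
      (card_add_le.trans (Nat.mul_le_mul_right _ card_add_le))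
  have h4 := card_nsmul_sub hB h1 3 2
  calc (#(B - (x + y) • B) : ℝ) ≤ M ^ k * M ^ l * (M ^ (3 + 2) * #B) := h3.trans (by gcongr)
    _ = M ^ (k + l + 5) * #B := by ring

lemma card_Gd {W : ℝ} (hW : 0 < W) (hB : 2 * W ≤ #B) (X : Finset F)
    (hX : ∀ x ∈ X, (#(B - x • B) : ℝ) ≤ W * #B) : (#X : ℝ) ≤ 2 * W * #B := by
  have hB' : (0 : ℝ) < #B := by linarith
  set T := B ×ˢ B with hT
  have hTc : (#T : ℝ) = #B ^ 2 := by rw [hT, card_product, Nat.cast_mul, sq]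
  have key := card_nsmul_le_card_nsmul (R := ℝ) (s := X) (t := T ×ˢ T) (m := #B ^ 3 / (2 * W))
    (n := 1) (fun x p => p.1.1 - x * p.1.2 = p.2.1 - x * p.2.2 ∧ p.1.2 ≠ p.2.2) ?_ ?_
  · rw [nsmul_eq_mul, nsmul_eq_mul, card_product, Nat.cast_mul, hTc, mul_div_assoc',
      div_le_iff₀ (by positivity)] at key
    refine le_of_mul_le_mul_right (key.trans (le_of_eq ?_)) (pow_pos hB' 3)
    ring
  · intro x hx
    have h1 := card_sq_le_fib T (B - x • B) (fun p => p.1 - x * p.2) fun p hp =>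
      sub_mem_sub (mem_product.1 hp).1 (smul_mem_smul_finset (mem_product.1 hp).2)
    set Q := (T ×ˢ T).filter fun p => p.1.1 - x * p.1.2 = p.2.1 - x * p.2.2 with hQ
    have h2 := card_filter_add_card_filter_not (s := Q) fun p => p.1.2 = p.2.2
    have h3 : #(Q.filter fun p => p.1.2 = p.2.2) ≤ #T := by
      refine card_le_card_of_injOn Prod.fst (fun p hp => ?_) fun p hp q hq h => ?_
      · exact (mem_product.1 (mem_filter.1 (mem_filter.1 hp).1).1).1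
      · have e : ∀ p ∈ Q.filter fun p => p.1.2 = p.2.2, p.2 = p.1 := by
          intro p hp
          have a1 := (mem_filter.1 hp).2
          have a2 := (mem_filter.1 (mem_filter.1 hp).1).2
          rw [a1, sub_left_inj] at a2
          exact Prod.ext a2.symm a1.symm
        exact Prod.ext h (by rw [e p hp, e q hq, h])
    have h4 : (T ×ˢ T).bipartiteAbove
        (fun x p => p.1.1 - x * p.1.2 = p.2.1 - x * p.2.2 ∧ p.1.2 ≠ p.2.2) x =
        Q.filter fun p => ¬ p.1.2 = p.2.2 := by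
      rw [hQ, filter_filter]
      rfl
    rw [h4, div_le_iff₀ (by positivity)]
    have h5 : (#Q : ℝ) ≤ #B ^ 2 + #(Q.filter fun p => ¬ p.1.2 = p.2.2) := by
      rw [← hTc, ← h2]
      exact_mod_cast Nat.add_le_add_right h3 _
    have h6 : (#B : ℝ) ^ 3 ≤ W * #Q := by
      refine le_of_mul_le_mul_right ?_ hB'
      calc (#B : ℝ) ^ 3 * #B = #T ^ 2 := by rw [hTc]; ring
        _ ≤ W * #B * #Q := h1.trans (mul_le_mul_of_nonneg_right (hX x hx) (Nat.cast_nonneg _))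
        _ = _ := by ring
    have h7 := mul_le_mul_of_nonneg_left h5 hW.le
    have h8 := mul_le_mul_of_nonneg_right hB (sq_nonneg (#B : ℝ))
    nlinarith
  · intro p _
    rw [Nat.cast_le_one, card_le_one]
    intro x hx y hy
    obtain ⟨-, a1, a2⟩ := (mem_bipartiteBelow _).1 hx
    obtain ⟨-, a3, -⟩ := (mem_bipartiteBelow _).1 hy
    refine mul_right_cancel₀ (sub_ne_zero.2 a2) ?_
    linear_combination a3 - a1

theorem core [Fintype F] (hsub : ∀ K : Subfield F, K ≠ ⊤ → Nat.card K ^ 3 ≤ Fintype.card F)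
    (hM : 1 ≤ M) (h1 : (#(B - B) : ℝ) ≤ M * #B) {Λ : Finset F}
    (hΛ : ∀ x ∈ Λ, (#(B - x • B) : ℝ) ≤ M * #B) (hB : 2 * M ^ 48 ≤ #B)
    (hq : 2 * M ^ 48 * #B < Fintype.card F) (hq' : (Fintype.card F : ℝ) < #Λ ^ 3)
    (hΛ2 : 2 * M ^ 48 * #B < #Λ ^ 2) : False := by
  classical
  have hW : 0 < M ^ 48 := by positivity
  have hW1 : 1 ≤ M ^ 48 := one_le_pow₀ hM
  have hBne : B.Nonempty := card_pos.1 (by exact_mod_cast (by linarith : (0 : ℝ) < #B))
  have hcount : (#(univ.filter (Gd B M 48)) : ℝ) ≤ 2 * M ^ 48 * #B :=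
    card_Gd hW hB _ fun x hx => (mem_filter.1 hx).2
  have g1 : ∀ x ∈ Λ, Gd B M 1 x := fun x hx => by simpa [Gd] using hΛ x hx
  have g9 : ∀ x ∈ Λ, ∀ y ∈ Λ, Gd B M 9 (x - y) := fun x hx y hy => by
    have := (g1 x hx).add hM hBne h1 ((Gd_neg_one hBne h1).mul hM hBne (g1 y hy))
    rwa [neg_one_mul, ← sub_eq_add_neg] at this
  set Q : Set F := {z | ∃ a ∈ Λ, ∃ b ∈ Λ, ∃ c ∈ Λ, ∃ d ∈ Λ, c ≠ d ∧ z = (a - b) / (c - d)} with hQ
  have g18 : ∀ z ∈ Q, Gd B M 18 z := by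
    rintro _ ⟨a, ha, b, hb, c, hc, d, hd, -, rfl⟩
    have := (g9 a ha b hb).mul hM hBne ((g9 c hc d hd).inv hM)
    rwa [← div_eq_mul_inv] at this
  obtain ⟨c, hc, d, hd, hcd⟩ : ∃ c ∈ Λ, ∃ d ∈ Λ, c ≠ d := by
    rw [← one_lt_card]
    by_contra hcon
    have h2 : (#Λ : ℝ) ≤ 1 := by exact_mod_cast not_lt.1 hcon
    have h3 : (#Λ : ℝ) ^ 2 ≤ 1 := pow_le_one₀ (Nat.cast_nonneg _) h2
    nlinarith
  have hcd' : c - d ≠ 0 := sub_ne_zero.2 hcd
  obtain ⟨ξ, hξ, g41⟩ : ∃ ξ, ξ ∉ Q ∧ Gd B M 41 ξ := by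
    by_contra hcon
    push Not at hcon
    have hin : ∀ ξ, Gd B M 41 ξ → ξ ∈ Q := fun ξ h => by_contra fun h' => hcon ξ h' h
    have h0 : (0 : F) ∈ Q := hin _ (Gd_zero hM _)
    have hadd : ∀ {a b : F}, a ∈ Q → b ∈ Q → a + b ∈ Q := fun ha hb => by
      have := (g18 _ ha).add hM hBne h1 (g18 _ hb)
      exact hin _ this
    let K : Subfield F :=
      { carrier := Q
        mul_mem' := fun ha hb => hin _ (((g18 _ ha).mul hM hBne (g18 _ hb)).mono hM (by norm_num))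
        one_mem' := ⟨c, hc, d, hd, c, hc, d, hd, hcd, (div_self hcd').symm⟩
        add_mem' := hadd
        zero_mem' := h0
        neg_mem' := by
          rintro _ ⟨a, ha, b, hb, c, hc, d, hd, h, rfl⟩
          exact ⟨b, hb, a, ha, c, hc, d, hd, h, by ring⟩
        inv_mem' := fun x hx => hin _ (((g18 _ hx).inv hM).mono hM (by norm_num)) }
    have hK : K ≠ ⊤ := by
      intro h
      have : univ.filter (Gd B M 48) = univ := filter_true_of_mem fun x _ =>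
        (g18 x (show x ∈ K by rw [h]; trivial)).mono hM (by norm_num)
      rw [this, card_univ] at hcount
      linarith
    have h2 := hsub K hK
    have h3 : #Λ ≤ Nat.card K := by
      rw [← Fintype.card_coe, ← Nat.card_eq_fintype_card]
      refine Nat.card_le_card_of_injective (fun a : Λ =>
        (⟨(a - d) / (c - d), a, a.2, d, hd, c, hc, d, hd, hcd, rfl⟩ : K)) fun a b h => ?_
      have := congrArg Subtype.val h
      simp only [div_left_inj' hcd', sub_left_inj] at this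
      exact Subtype.ext this
    have h4 : (#Λ : ℝ) ^ 3 ≤ Fintype.card F := by
      exact_mod_cast (Nat.pow_le_pow_left h3 3).trans h2
    linarith
  have h2 : #(Λ ×ˢ Λ) ≤ #(univ.filter (Gd B M 48)) := by
    refine card_le_card_of_injOn (fun p => p.1 + ξ * p.2) (fun p hp => ?_) fun p hp q hq h => ?_
    · obtain ⟨a1, a2⟩ := mem_product.1 hp
      have := (g1 _ a1).add hM hBne h1 (g41.mul hM hBne (g1 _ a2))
      exact mem_filter.2 ⟨mem_univ _, this⟩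
    · obtain ⟨a1, a2⟩ := mem_product.1 hp
      obtain ⟨a3, a4⟩ := mem_product.1 hq
      simp only at h
      by_cases e : q.2 = p.2
      · rw [e, add_left_inj] at h
        exact Prod.ext h e.symm
      · refine absurd ⟨_, a1, _, a3, _, a4, _, a2, e, ?_⟩ hξ
        rw [eq_div_iff (sub_ne_zero.2 e)]
        linear_combination -h
  rw [card_product] at h2
  have h3 : (#Λ : ℝ) * #Λ ≤ #(univ.filter (Gd B M 48)) := by exact_mod_cast h2
  nlinarith

end core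

lemma sq_sum_card_le {ι α : Type*} [DecidableEq α] (Δ : Finset ι) (U : Finset α) (P : ι → Finset α)
    (hP : ∀ d ∈ Δ, P d ⊆ U) :
    (∑ d ∈ Δ, (#(P d) : ℝ)) ^ 2 ≤ #U * ∑ e ∈ Δ, ∑ d ∈ Δ, (#(P d ∩ P e) : ℝ) := by
  have h1 : ∑ d ∈ Δ, (#(P d) : ℝ) = ∑ u ∈ U, ∑ d ∈ Δ, if u ∈ P d then (1 : ℝ) else 0 := by
    rw [Finset.sum_comm]
    refine sum_congr rfl fun d hd => ?_
    rw [← card_filter_real, filter_mem_eq_inter, inter_eq_right.2 (hP d hd)]
  have h2 : ∑ e ∈ Δ, ∑ d ∈ Δ, (#(P d ∩ P e) : ℝ) =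
      ∑ u ∈ U, (∑ d ∈ Δ, if u ∈ P d then (1 : ℝ) else 0) ^ 2 := by
    simp only [sq, sum_mul_sum]
    rw [Finset.sum_comm (s := U)]
    refine sum_congr rfl fun e he => ?_
    rw [Finset.sum_comm (s := U)]
    refine sum_congr rfl fun d hd => ?_
    rw [← inter_eq_right.2 (inter_subset_left.trans (hP d hd)), ← filter_mem_eq_inter,
      card_filter_real]
    refine sum_congr rfl fun u _ => ?_
    by_cases a : u ∈ P d <;> by_cases b : u ∈ P e <;> simp [a, b]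
  rw [h1, h2]
  exact sq_sum_le_card_mul_sum_sq

theorem sumprod' [Fintype F] (hsub : ∀ K : Subfield F, K ≠ ⊤ → Nat.card K ^ 3 ≤ Fintype.card F)
    {A B Δ : Finset F} {L N : ℝ} (hL : 2 ≤ L) (hA : (#A : ℝ) ≤ N) (hB : (#B : ℝ) ≤ N)
    (h0 : ∀ d ∈ Δ, d ≠ 0) (hΔ : 2 * N / L ≤ #Δ) (Ad Bd : F → Finset F)
    (h : ∀ d ∈ Δ, Ad d ⊆ A ∧ Bd d ⊆ B ∧ N / L ≤ #(Ad d) ∧ N / L ≤ #(Bd d) ∧
      (#(Bd d - Bd d) : ℝ) ≤ L * N ∧ (#(Ad d + d • Bd d) : ℝ) ≤ L * N)
    (h1 : L ^ 700 ≤ N) (h2 : L ^ 700 * N ≤ Fintype.card F) (h3 : Fintype.card F * L ^ 700 ≤ N ^ 3) :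
    False := by
  have hL0 : 0 < L := by linarith
  have hL1 : 1 ≤ L := by linarith
  have hN : 0 < N := (pow_pos hL0 _).trans_le h1
  have hD : (0 : ℝ) < #Δ := lt_of_lt_of_le (by positivity) hΔ
  have a1 := sq_sum_card_le Δ (A ×ˢ B) (fun d => Ad d ×ˢ Bd d) fun d hd =>
    product_subset_product (h d hd).1 (h d hd).2.1
  have a2 : #Δ * (N / L) ^ 2 ≤ ∑ d ∈ Δ, (#(Ad d ×ˢ Bd d) : ℝ) := by
    rw [← nsmul_eq_mul]
    refine card_nsmul_le_sum _ _ _ fun d hd => ?_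
    rw [card_product, Nat.cast_mul, sq]
    exact mul_le_mul (h d hd).2.2.1 (h d hd).2.2.2.1 (by positivity) (Nat.cast_nonneg _)
  have a3 : (#(A ×ˢ B) : ℝ) ≤ N ^ 2 := by
    rw [card_product, Nat.cast_mul, sq]
    exact mul_le_mul hA hB (Nat.cast_nonneg _) hN.le
  have a0 : #Δ * N ^ 2 / L ^ 4 * #Δ ≤
      ∑ e ∈ Δ, ∑ d ∈ Δ, (#((Ad d ×ˢ Bd d) ∩ (Ad e ×ˢ Bd e)) : ℝ) := by
    have a5 : 0 ≤ ∑ e ∈ Δ, ∑ d ∈ Δ, (#((Ad d ×ˢ Bd d) ∩ (Ad e ×ˢ Bd e)) : ℝ) :=
      sum_nonneg fun _ _ => sum_nonneg fun _ _ => Nat.cast_nonneg _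
    generalize ∑ e ∈ Δ, ∑ d ∈ Δ, (#((Ad d ×ˢ Bd d) ∩ (Ad e ×ˢ Bd e)) : ℝ) = Z at a1 a5 ⊢
    have a6 := (pow_le_pow_left₀ (by positivity) a2 2).trans (a1.trans
      (mul_le_mul_of_nonneg_right a3 a5))
    refine le_of_mul_le_mul_left (le_trans (le_of_eq ?_) a6) (pow_pos hN 2)
    field_simp
  obtain ⟨e, he, a4⟩ := exists_ge_avg Δ
    (fun e => ∑ d ∈ Δ, (#((Ad d ×ˢ Bd d) ∩ (Ad e ×ˢ Bd e)) : ℝ)) (#Δ * N ^ 2 / L ^ 4) #Δ
    (by positivity) le_rfl a0 hD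
  have a5 := card_popular Δ (fun d => (#((Ad d ×ˢ Bd d) ∩ (Ad e ×ˢ Bd e)) : ℝ)) (N ^ 2) #Δ _ hD
    (by positivity) le_rfl (fun d hd => le_trans (by
      exact_mod_cast card_le_card (inter_subset_left.trans
        (product_subset_product (h d hd).1 (h d hd).2.1))) a3) a4
  set D := Δ.filter fun d => #Δ * N ^ 2 / L ^ 4 / (2 * #Δ) ≤
    (#((Ad d ×ˢ Bd d) ∩ (Ad e ×ˢ Bd e)) : ℝ) with hDdef
  have he0 := h0 e he
  obtain ⟨-, hB0, -, hB1, hB2, hB3⟩ := h e he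
  have hNB : N ≤ L * #(Bd e) := by rwa [div_le_iff₀' hL0] at hB1
  have hBN : (#(Bd e) : ℝ) ≤ N := le_trans (by exact_mod_cast card_le_card hB0) hB
  have hΛ : N / L ^ 5 ≤ #(e⁻¹ • D) := by
    rw [card_smul_finset₀ (inv_ne_zero he0)]
    refine le_of_mul_le_mul_left (le_trans ?_ a5) (pow_pos hN 2)
    calc N ^ 2 * (N / L ^ 5) = 2 * N / L * N ^ 2 / L ^ 4 / 2 := by field_simp
      _ ≤ _ := by gcongr
  have hp : ∀ k : ℕ, k < 700 → 2 * L ^ k ≤ L ^ 700 := fun k hk =>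
    calc 2 * L ^ k ≤ L * L ^ k := by gcongr
      _ = L ^ (k + 1) := by ring
      _ ≤ _ := pow_le_pow_right₀ hL1 hk
  have hW : 2 * (L ^ 14) ^ 48 * #(Bd e) ≤ 2 * L ^ 672 * N := by
    rw [← pow_mul]
    gcongr
  refine core hsub (B := Bd e) (M := L ^ 14) (Λ := e⁻¹ • D) (one_le_pow₀ hL1) ?_ ?_ ?_ ?_ ?_ ?_
  · calc (#(Bd e - Bd e) : ℝ) ≤ L * (L * #(Bd e)) := hB2.trans (by gcongr)
      _ = L ^ 2 * #(Bd e) := by ring
      _ ≤ _ := by gcongr; norm_num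
  · intro x hx
    obtain ⟨d, hd, rfl⟩ := mem_smul_finset.1 hx
    obtain ⟨hd1, hd2⟩ := mem_filter.1 hd
    have hd0 := h0 d hd1
    obtain ⟨c1, c2, -, -, -, c3⟩ := h d hd1
    rw [product_inter_product, card_product, Nat.cast_mul] at hd2
    set A' := Ad d ∩ Ad e
    set B' := Bd d ∩ Bd e
    have b1 : (#A' : ℝ) ≤ N :=
      le_trans (by exact_mod_cast card_le_card (inter_subset_left.trans c1)) hA
    have b2 : (#B' : ℝ) ≤ N :=
      le_trans (by exact_mod_cast card_le_card (inter_subset_left.trans c2)) hB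
    have b3 : N / L ^ 5 * N ≤ #A' * #B' := by
      refine le_trans ?_ hd2
      calc N / L ^ 5 * N = N ^ 2 / L ^ 4 / L := by field_simp
        _ ≤ N ^ 2 / L ^ 4 / 2 := by gcongr
        _ = _ := by field_simp
    have b4 : N / L ^ 5 ≤ #A' :=
      le_of_mul_le_mul_right (b3.trans (by gcongr)) hN
    have b5 : N / L ^ 5 ≤ #B' :=
      le_of_mul_le_mul_right (b3.trans (by rw [mul_comm]; gcongr)) hN
    have r1 := ruzsa_triangle_inequality_add_sub_add (d • Bd e) (d • B') A'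
    rw [← smul_sub_fin, card_smul_finset₀ hd0, card_smul_finset₀ hd0] at r1
    have r2 := ruzsa_triangle_inequality_sub_add_add (e • Bd e) A' (d • Bd e)
    have s1 : (#(B' - Bd e) : ℝ) ≤ L * N :=
      le_trans (Nat.cast_le.2 (card_le_card (sub_subset_sub_right inter_subset_right))) hB2
    have s2 : (#(d • B' + A') : ℝ) ≤ L * N := by
      rw [add_comm (d • B')]
      exact le_trans (Nat.cast_le.2 (card_le_card (add_subset_add inter_subset_left
        (smul_finset_subset_smul_finset inter_subset_left)))) c3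
    have s3 : (#(e • Bd e + A') : ℝ) ≤ L * N := by
      rw [add_comm (e • Bd e)]
      exact le_trans (Nat.cast_le.2 (card_le_card (add_subset_add_right inter_subset_right))) hB3
    have hn : 0 < N / L ^ 5 := by positivity
    have s4 : (#(d • Bd e + A') : ℝ) ≤ L ^ 7 * N := by
      refine le_of_mul_le_mul_left ?_ hn
      calc N / L ^ 5 * #(d • Bd e + A') ≤ #B' * #(d • Bd e + A') := by gcongr
        _ ≤ #(B' - Bd e) * #(d • B' + A') := by exact_mod_cast r1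
        _ ≤ L * N * (L * N) := by gcongr
        _ = _ := by field_simp
    have s5 : (#(e • Bd e - d • Bd e) : ℝ) ≤ L ^ 13 * N := by
      refine le_of_mul_le_mul_right ?_ hn
      calc (#(e • Bd e - d • Bd e) : ℝ) * (N / L ^ 5) ≤ (#(e • Bd e - d • Bd e) : ℝ) * #A' :=
            mul_le_mul_of_nonneg_left b4 (Nat.cast_nonneg _)
        _ ≤ #(e • Bd e + A') * #(d • Bd e + A') := by exact_mod_cast r2
        _ ≤ L * N * (L ^ 7 * N) := by gcongr
        _ = _ := by field_simp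
    rw [← card_smul_finset₀ he0, smul_sub_fin, smul_smul, smul_eq_mul, mul_inv_cancel_left₀ he0]
    calc (#(e • Bd e - d • Bd e) : ℝ) ≤ L ^ 13 * (L * #(Bd e)) := s5.trans (by gcongr)
      _ = _ := by ring
  · refine le_of_mul_le_mul_left (le_trans ?_ hNB) hL0
    calc L * (2 * (L ^ 14) ^ 48) = 2 * L ^ 673 := by ring
      _ ≤ _ := (hp 673 (by norm_num)).trans h1
  · refine hW.trans_lt (lt_of_lt_of_le ?_ h2)
    have := hp 673 (by norm_num)
    have b1 : L ^ 672 < L ^ 673 := pow_lt_pow_right₀ (by linarith) (by norm_num)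
    gcongr
    linarith
  · refine lt_of_lt_of_le ?_ (pow_le_pow_left₀ (by positivity) hΛ 3)
    rw [div_pow, lt_div_iff₀ (by positivity), ← pow_mul]
    refine lt_of_lt_of_le ?_ h3
    have : (0 : ℝ) < Fintype.card F := by exact_mod_cast Fintype.card_pos
    gcongr
    · linarith
    · norm_num
  · refine hW.trans_lt (lt_of_lt_of_le ?_ (pow_le_pow_left₀ (by positivity) hΛ 2))
    rw [div_pow, lt_div_iff₀ (by positivity)]
    have := hp 683 (by norm_num)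
    have b1 : L ^ 682 < L ^ 683 := pow_lt_pow_right₀ (by linarith) (by norm_num)
    calc 2 * L ^ 672 * N * (L ^ 5) ^ 2 = 2 * L ^ 682 * N := by ring
      _ < N * N := by gcongr; linarith
      _ = _ := by ring

theorem sumprod [Fintype F] (hsub : ∀ K : Subfield F, K ≠ ⊤ → Nat.card K ^ 3 ≤ Fintype.card F)
    {A B Δ : Finset F} {K N : ℝ} (hK : 2 ^ 17 ≤ K) (hA : (#A : ℝ) ≤ N) (hB : (#B : ℝ) ≤ N)
    (h0 : ∀ d ∈ Δ, d ≠ 0) (hΔ : N / K ≤ #Δ)
    (hΓ : ∀ d ∈ Δ, ∃ Γ ⊆ A ×ˢ (d • B), N ^ 2 / K ≤ #Γ ∧ (#(Γ.image fun p => p.1 + p.2) : ℝ) ≤ N)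
    (h1 : (K ^ 33) ^ 700 ≤ N) (h2 : (K ^ 33) ^ 700 * N ≤ Fintype.card F)
    (h3 : Fintype.card F * (K ^ 33) ^ 700 ≤ N ^ 3) : False := by
  have hK2 : 2 ≤ K := le_trans (by norm_num) hK
  have hK0 : 0 < K := by linarith
  have hN : 0 < N := lt_of_lt_of_le (by positivity) h1
  have hL : 2 * K ≤ K ^ 33 :=
    calc 2 * K ≤ K * K := by gcongr
      _ = K ^ 2 := by ring
      _ ≤ _ := pow_le_pow_right₀ (by linarith) (by norm_num)
  have : ∀ d : F, ∃ A' B' : Finset F, d ∈ Δ → A' ⊆ A ∧ B' ⊆ B ∧ N / K ^ 33 ≤ #A' ∧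
      N / K ^ 33 ≤ #B' ∧ (#(B' - B') : ℝ) ≤ K ^ 33 * N ∧ (#(A' + d • B') : ℝ) ≤ K ^ 33 * N := by
    intro d
    by_cases hd : d ∈ Δ
    · obtain ⟨Γ, a1, a2, a3⟩ := hΓ d hd
      have hd0 := h0 d hd
      obtain ⟨A', b1, B', b2, b3, b4, -, b5, b6⟩ := bsg2 A (d • B) Γ K N hK hN hA
        (by rwa [card_smul_finset₀ hd0]) a1 a2 a3
      refine ⟨A', d⁻¹ • B', fun _ => ⟨b1, ?_, b3, ?_, ?_, ?_⟩⟩
      · rwa [smul_finset_subset_iff₀ (inv_ne_zero hd0), inv_inv]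
      · rwa [card_smul_finset₀ (inv_ne_zero hd0)]
      · rwa [← smul_sub_fin, card_smul_finset₀ (inv_ne_zero hd0)]
      · rwa [smul_inv_smul₀ hd0]
    · exact ⟨∅, ∅, fun h => absurd h hd⟩
  choose Ad Bd h using this
  refine sumprod' hsub (by linarith) hA hB h0 (le_trans ?_ hΔ) Ad Bd h h1 h2 h3
  rw [div_le_div_iff₀ (by positivity) hK0]
  nlinarith

end Crest.Agent.R34
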